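import Vale.Agent.P204.Tame.Normal
import Vale.Agent.P204.Tame.Interfaces

/-!
Pointwise algebra for the smoothing step: the dual of a complex line, the pullback of a
semipositive form by a nearly complex map, and the square of a nearly semipositive form.
-/

namespace Vale.Agent.P204.Tame

open scoped Matrix

/-- The sum of the absolute values of the coefficients. -/
def nrm1 (a : M) : ℝ := ∑ i, ∑ j, |a i j|

theorem nrm1_nonneg (a : M) : 0 ≤ nrm1 a :=
  Finset.sum_nonneg fun _ _ => Finset.sum_nonneg fun _ _ => abs_nonneg _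

theorem abs_le_nrm1 (a : M) (i j : Fin 4) : |a i j| ≤ nrm1 a :=
  (Finset.single_le_sum (f := fun j => |a i j|) (fun _ _ => abs_nonneg _)
    (Finset.mem_univ j)).trans
    (Finset.single_le_sum (f := fun i => ∑ j, |a i j|)
      (fun _ _ => Finset.sum_nonneg fun _ _ => abs_nonneg _) (Finset.mem_univ i))

theorem sgnJ_sq {J : M} (h : pfq (wmat J) (wmat J) ≠ 0) : sgnJ J * sgnJ J = 1 := by
  rcases lt_or_gt_of_ne h with h' | h'
  · simp [sgnJ, Real.sign_of_neg h']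
  · simp [sgnJ, Real.sign_of_pos h']

theorem val_skew_rev {a : M} (ha : aᵀ = -a) (u v : E) : val a v u = -val a u v := by
  unfold val
  rw [Matrix.dotProduct_mulVec, ← Matrix.mulVec_transpose, ha, Matrix.neg_mulVec, neg_dotProduct,
    dotProduct_comm]

theorem abs_val_le (a : M) (u v : E) :
    |val a u v| ≤ 4 * nrm1 a * Real.sqrt ((u ⬝ᵥ u) * (v ⬝ᵥ v)) := by
  have hu : ∀ i, |u i| ≤ Real.sqrt (u ⬝ᵥ u) := fun i => by
    rw [← Real.sqrt_sq_eq_abs]
    refine Real.sqrt_le_sqrt ?_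
    rw [sq]
    exact Finset.single_le_sum (f := fun i => u i * u i) (fun _ _ => mul_self_nonneg _)
      (Finset.mem_univ i)
  have hv : ∀ i, |v i| ≤ Real.sqrt (v ⬝ᵥ v) := fun i => by
    rw [← Real.sqrt_sq_eq_abs]
    refine Real.sqrt_le_sqrt ?_
    rw [sq]
    exact Finset.single_le_sum (f := fun i => v i * v i) (fun _ _ => mul_self_nonneg _)
      (Finset.mem_univ i)
  have h0 : 0 ≤ nrm1 a * Real.sqrt ((u ⬝ᵥ u) * (v ⬝ᵥ v)) :=
    mul_nonneg (nrm1_nonneg a) (Real.sqrt_nonneg _)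
  calc |val a u v| = |∑ i, ∑ j, u i * (a i j * v j)| := by
        simp [val, dotProduct, Matrix.mulVec, Finset.mul_sum]
    _ ≤ ∑ i, ∑ j, |u i * (a i j * v j)| :=
        (Finset.abs_sum_le_sum_abs _ _).trans
          (Finset.sum_le_sum fun i _ => Finset.abs_sum_le_sum_abs _ _)
    _ ≤ ∑ i, ∑ j, |a i j| * Real.sqrt ((u ⬝ᵥ u) * (v ⬝ᵥ v)) := by
        refine Finset.sum_le_sum fun i _ => Finset.sum_le_sum fun j _ => ?_
        have huu : 0 ≤ u ⬝ᵥ u := Finset.sum_nonneg fun _ _ => mul_self_nonneg _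
        rw [abs_mul, abs_mul, Real.sqrt_mul huu]
        calc |u i| * (|a i j| * |v j|) = |a i j| * (|u i| * |v j|) := by ring
          _ ≤ |a i j| * (Real.sqrt (u ⬝ᵥ u) * Real.sqrt (v ⬝ᵥ v)) :=
              mul_le_mul_of_nonneg_left
                (mul_le_mul (hu i) (hv j) (abs_nonneg _) (Real.sqrt_nonneg _)) (abs_nonneg _)
    _ = nrm1 a * Real.sqrt ((u ⬝ᵥ u) * (v ⬝ᵥ v)) := by simp [nrm1, Finset.sum_mul]
    _ ≤ _ := by nlinarith

/-- The pullback of a semipositive form is semipositive up to the square of the defect of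
complex linearity. -/
theorem val_pullback_ge {J' b : M} (hJ' : J' * J' = -1) (hb : Psd J' b) (P J : M) (v : E) :
    -(nrm1 b * Real.sqrt
        ((J' *ᵥ ((P * J - J' * P) *ᵥ v) ⬝ᵥ J' *ᵥ ((P * J - J' * P) *ᵥ v)) *
          (((P * J - J' * P) *ᵥ v) ⬝ᵥ ((P * J - J' * P) *ᵥ v))))
      ≤ val (Pᵀ * b * P) v (J *ᵥ v) := by
  set a := P *ᵥ v with ha
  set f := (P * J - J' * P) *ᵥ v with hf
  have hPJ : P *ᵥ (J *ᵥ v) = J' *ᵥ a + f := by
    rw [hf, ha, Matrix.sub_mulVec, ← Matrix.mulVec_mulVec, ← Matrix.mulVec_mulVec]; abel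
  have hJJ : ∀ x : E, J' *ᵥ (J' *ᵥ x) = -x := fun x => by
    rw [Matrix.mulVec_mulVec, hJ', Matrix.neg_mulVec, Matrix.one_mulVec]
  have hadd : ∀ x y z : E, val b x (y + z) = val b x y + val b x z := fun x y z => by
    simp [val, Matrix.mulVec_add, dotProduct_add]
  have hadd' : ∀ x y z : E, val b (x + y) z = val b x z + val b y z := fun x y z => by
    simp [val, add_dotProduct]
  have hneg : ∀ x y : E, val b x (-y) = -val b x y := fun x y => by
    simp [val, Matrix.mulVec_neg, dotProduct_neg]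
  have hsmul : ∀ (r : ℝ) (x y : E), val b (r • x) y = r * val b x y ∧
      val b x (r • y) = r * val b x y := fun r x y => by
    simp [val, Matrix.mulVec_smul, smul_dotProduct, dotProduct_smul]
  have hinv : ∀ x y : E, val b (J' *ᵥ x) (J' *ᵥ y) = val b x y := fun x y => by
    rw [← val_congr, hb.inv]
  set k := (-1 / 2 : ℝ) • (J' *ᵥ f) with hk
  have hJk : J' *ᵥ k = (1 / 2 : ℝ) • f := by
    rw [hk, Matrix.mulVec_smul, hJJ]; module
  have hsq : 0 ≤ val b (a + k) (J' *ᵥ (a + k)) := hb.nonneg _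
  rw [Matrix.mulVec_add, hadd', hadd, hadd, hJk] at hsq
  have h1 : val b k (J' *ᵥ a) = (1 / 2) * val b a f := by
    rw [hk, (hsmul _ _ _).1, hinv, val_skew_rev hb.skew a f]; ring
  have h2 : val b k ((1 / 2 : ℝ) • f) = -(1 / 4) * val b (J' *ᵥ f) f := by
    rw [hk, (hsmul _ _ _).2, (hsmul _ _ _).1]; ring
  rw [h1, h2, (hsmul _ _ _).2] at hsq
  rw [val_congr, hPJ, hadd, ← ha]
  have h4 := abs_le.1 (abs_val_le b (J' *ᵥ f) f)
  nlinarith [h4.1, h4.2]

/-- The linear map with `pfq a (starF b)` the sum of `a i j * b i j` over `i < j`. -/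
def starF (b : M) : M := skew6 (b 2 3) (-b 1 3) (b 1 2) (b 0 3) (-b 0 2) (b 0 1)

theorem starF_skew (b : M) : (starF b)ᵀ = -starF b := by
  ext i j
  fin_cases i <;> fin_cases j <;> simp [starF, skew6]

theorem eq_of_pfq_skew {u u' : M} (hu : uᵀ = -u) (hu' : u'ᵀ = -u')
    (h : ∀ a : M, aᵀ = -a → pfq a u = pfq a u') : u = u' := by
  have hs : ∀ a b c d f g : ℝ, (skew6 a b c d f g)ᵀ = -skew6 a b c d f g := by
    intro a b c d f g
    ext i j
    fin_cases i <;> fin_cases j <;> simp [skew6]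
  rw [eq_skew6 hu, eq_skew6 hu']
  have h1 := h _ (hs 1 0 0 0 0 0)
  have h2 := h _ (hs 0 1 0 0 0 0)
  have h3 := h _ (hs 0 0 1 0 0 0)
  have h4 := h _ (hs 0 0 0 1 0 0)
  have h5 := h _ (hs 0 0 0 0 1 0)
  have h6 := h _ (hs 0 0 0 0 0 1)
  simp [pfq, skew6] at h1 h2 h3 h4 h5 h6
  rw [h1, h2, h3, h4, h5, h6]

/-- The bivector of a pair of vectors. -/
def wedge2 (v x : E) : M := Matrix.of fun i j => v i * x j - x i * v j

theorem pfq_starF_wedge {a : M} (ha : aᵀ = -a) (v x : E) :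
    pfq a (starF (wedge2 v x)) = val a v x := by
  rw [eq_skew6 ha]
  simp [pfq, starF, skew6, wedge2, val, dotProduct, Matrix.mulVec, Fin.sum_univ_four]
  ring

/-- The form dual to the complex line through `v`. -/
noncomputable def lineForm (J : M) (v : E) : M := sgnJ J • starF (wedge2 v (J *ᵥ v))

theorem stdJ_sq : stdJ * stdJ = -1 := by
  ext i j
  fin_cases i <;> fin_cases j <;> simp [stdJ, Matrix.mul_apply, Fin.sum_univ_four]

theorem psd_std (v : E) : Psd stdJ (starF (wedge2 v (stdJ *ᵥ v))) := by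
  refine ⟨starF_skew _, ?_, fun x => ?_⟩
  · ext i j
    fin_cases i <;> fin_cases j <;>
      simp [starF, skew6, wedge2, stdJ, Matrix.mul_apply, Matrix.mulVec,
        dotProduct, Fin.sum_univ_four] <;> ring
  · have : val (starF (wedge2 v (stdJ *ᵥ v))) x (stdJ *ᵥ x)
        = (v 0 * x 2 - v 1 * x 3 - v 2 * x 0 + v 3 * x 1) ^ 2
          + (v 0 * x 3 + v 1 * x 2 - v 2 * x 1 - v 3 * x 0) ^ 2 := by
      simp [val, starF, skew6, wedge2, stdJ, Matrix.mulVec,
        dotProduct, Fin.sum_univ_four]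
      ring
    rw [this]
    positivity

theorem psd_congr_frame {J J₀ P Q u : M} (hPQ : P * Q = 1) (hP : J * P = P * J₀)
    (h : Psd J₀ (Pᵀ * u * P)) : Psd J u := by
  have hQP : Q * P = 1 := mul_eq_one_comm.1 hPQ
  have e1 : ∀ u : M, Qᵀ * (Pᵀ * u * P) * Q = u := fun u => by
    calc Qᵀ * (Pᵀ * u * P) * Q = (P * Q)ᵀ * u * (P * Q) := by
          simp only [Matrix.transpose_mul, mul_assoc]
      _ = u := by rw [hPQ]; simp
  have hJ : J = P * J₀ * Q := by rw [← hP, mul_assoc, hPQ, mul_one]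
  refine ⟨?_, ?_, fun v => ?_⟩
  · calc uᵀ = (Qᵀ * (Pᵀ * u * P) * Q)ᵀ := by rw [e1]
      _ = Qᵀ * (Pᵀ * u * P)ᵀ * Q := by
          simp only [Matrix.transpose_mul, Matrix.transpose_transpose, mul_assoc]
      _ = -u := by rw [h.skew, mul_neg, neg_mul, e1]
  · calc Jᵀ * u * J = Qᵀ * (J₀ᵀ * (Pᵀ * u * P) * J₀) * Q := by
          rw [hJ]; simp only [Matrix.transpose_mul, mul_assoc]
      _ = u := by rw [h.inv, e1]
  · have := h.nonneg (Q *ᵥ v)
    rw [val_congr, Matrix.mulVec_mulVec, Matrix.mulVec_mulVec, Matrix.mulVec_mulVec, hPQ,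
      Matrix.one_mulVec, ← hJ] at this
    exact this

theorem psd_frame {J J₀ P u : M} (hP : J * P = P * J₀) (h : Psd J u) :
    Psd J₀ (Pᵀ * u * P) := by
  refine ⟨by simp [Matrix.transpose_mul, mul_assoc, h.skew], ?_, fun v => ?_⟩
  · calc J₀ᵀ * (Pᵀ * u * P) * J₀ = (J * P)ᵀ * u * (J * P) := by
          rw [hP]; simp only [Matrix.transpose_mul, mul_assoc]
      _ = Pᵀ * (Jᵀ * u * J) * P := by simp only [Matrix.transpose_mul, mul_assoc]
      _ = _ := by rw [h.inv]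
  · have := h.nonneg (P *ᵥ v)
    rw [Matrix.mulVec_mulVec, hP, ← Matrix.mulVec_mulVec] at this
    rw [val_congr]
    exact this

theorem pfq_nonneg_std {u : M} (h : Psd stdJ u) : 0 ≤ pfq u u := by
  have hs := h.skew
  have e02 : u 1 3 = u 0 2 := by
    have := congrFun (congrFun h.inv 0) 2
    simp [Matrix.mul_apply, stdJ, Fin.sum_univ_four] at this
    linarith
  have e03 : u 1 2 = -u 0 3 := by
    have := congrFun (congrFun h.inv 0) 3
    simp [Matrix.mul_apply, stdJ, Fin.sum_univ_four] at this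
    linarith
  have hp : 0 ≤ u 0 1 := by
    have := h.nonneg (e 0)
    rw [eq_skew6 hs] at this
    simpa [val, stdJ, skew6, e, Matrix.mulVec, dotProduct, Fin.sum_univ_four] using this
  have hq : 0 ≤ u 2 3 := by
    have := h.nonneg (e 2)
    rw [eq_skew6 hs] at this
    simpa [val, stdJ, skew6, e, Matrix.mulVec, dotProduct, Fin.sum_univ_four] using this
  have : pfq u u = 2 * (u 0 1 * u 2 3 - u 0 2 ^ 2 - u 0 3 ^ 2) := by
    simp [pfq, e02, e03]; ring
  rw [this]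
  have gen : ∀ v : E, 0 ≤ u 0 1 * (v 0 ^ 2 + v 1 ^ 2) + u 2 3 * (v 2 ^ 2 + v 3 ^ 2)
      + 2 * u 0 2 * (v 1 * v 2 - v 0 * v 3) + 2 * u 0 3 * (v 0 * v 2 + v 1 * v 3) := by
    intro v
    have := h.nonneg v
    rw [eq_skew6 hs] at this
    simp [val, stdJ, skew6, Matrix.mulVec, dotProduct, Fin.sum_univ_four, e02, e03] at this
    linarith
  rcases hp.eq_or_lt with h0 | h0
  · have hz : u 0 2 ^ 2 + u 0 3 ^ 2 ≤ 0 := by
      by_contra hc
      push Not at hc
      have := gen ![-((u 2 3 + 1) / (u 0 2 ^ 2 + u 0 3 ^ 2)) * u 0 3,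
        -((u 2 3 + 1) / (u 0 2 ^ 2 + u 0 3 ^ 2)) * u 0 2, 1, 0]
      simp [← h0] at this
      have e4 : (u 2 3 + 1) / (u 0 2 ^ 2 + u 0 3 ^ 2) * (u 0 2 ^ 2 + u 0 3 ^ 2) = u 2 3 + 1 :=
        div_mul_cancel₀ _ hc.ne'
      nlinarith
    nlinarith
  · have := gen ![-u 0 3, -u 0 2, u 0 1, 0]
    simp at this
    nlinarith

theorem sgnJ_mul_det_pos {J P : M} (hw : Psd J (wmat J))
    (hn : pfq (wmat J) (wmat J) ≠ 0) (hdet : IsUnit P.det) (hP : J * P = P * stdJ) :
    0 < sgnJ J * P.det := by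
  have h := pfq_nonneg_std (psd_frame hP hw)
  rw [pfq_congr_skew P hw.skew hw.skew] at h
  have hd : P.det ≠ 0 := hdet.ne_zero
  rcases lt_or_gt_of_ne hn with hl | hl
  · have : P.det < 0 := by
      rcases lt_or_gt_of_ne hd with h' | h'
      · exact h'
      · nlinarith [mul_neg_of_pos_of_neg h' hl]
    simp [sgnJ, Real.sign_of_neg hl, this]
  · have : 0 < P.det := by
      rcases lt_or_gt_of_ne hd with h' | h'
      · nlinarith [mul_neg_of_neg_of_pos h' hl]
      · exact h'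
    simp [sgnJ, Real.sign_of_pos hl, this]

theorem psd_lineForm (hL : LinearFacts) {J : M} (hJ : J * J = -1) (v : E) :
    Psd J (lineForm J v) := by
  obtain ⟨hw, hwpos⟩ := hL.2.2.1 J hJ
  have hn : pfq (wmat J) (wmat J) ≠ 0 := fun h => by simp [h] at hwpos
  obtain ⟨P, hdet, hP⟩ := exists_frame hJ
  have hPQ : P * P⁻¹ = 1 := Matrix.mul_nonsing_inv _ hdet
  have hQP : P⁻¹ * P = 1 := Matrix.nonsing_inv_mul _ hdet
  refine psd_congr_frame hPQ hP ?_
  have hskew : ∀ u : M, uᵀ = -u → ∀ R : M, (Rᵀ * u * R)ᵀ = -(Rᵀ * u * R) := fun u hu R => by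
    simp [Matrix.transpose_mul, mul_assoc, hu]
  have hPv : P *ᵥ (P⁻¹ *ᵥ v) = v := by rw [Matrix.mulVec_mulVec, hPQ, Matrix.one_mulVec]
  have key : Pᵀ * starF (wedge2 v (J *ᵥ v)) * P =
      P.det • starF (wedge2 (P⁻¹ *ᵥ v) (stdJ *ᵥ (P⁻¹ *ᵥ v))) := by
    refine eq_of_pfq_skew (hskew _ (starF_skew _) _) (by simp [starF_skew]) fun a ha => ?_
    have e2 : Pᵀ * (P⁻¹ᵀ * a * P⁻¹) * P = a := by
      calc Pᵀ * (P⁻¹ᵀ * a * P⁻¹) * P = (P⁻¹ * P)ᵀ * a * (P⁻¹ * P) := by
            simp only [Matrix.transpose_mul, mul_assoc]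
        _ = a := by rw [hQP]; simp
    conv_lhs => rw [← e2]
    rw [pfq_congr_skew P (hskew a ha _) (starF_skew _), pfq_starF_wedge (hskew a ha _),
      pfq_comm a, pfq_smul_left, pfq_comm, pfq_starF_wedge ha, val_congr]
    congr 1
    have hx : P⁻¹ *ᵥ (J *ᵥ v) = stdJ *ᵥ (P⁻¹ *ᵥ v) := by
      conv_lhs => rw [← hPv, Matrix.mulVec_mulVec _ J P, hP, ← Matrix.mulVec_mulVec]
      rw [Matrix.mulVec_mulVec _ (P⁻¹) P, hQP, Matrix.one_mulVec]
    rw [hx]
  unfold lineForm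
  rw [mul_smul_comm, smul_mul_assoc, key, smul_smul]
  have hc := (sgnJ_mul_det_pos hw hn hdet hP).le
  have hb := psd_std (P⁻¹ *ᵥ v)
  exact ⟨by rw [Matrix.transpose_smul, hb.skew, smul_neg], by rw [mul_smul_comm, smul_mul_assoc, hb.inv], fun x => by
    have := mul_nonneg hc (hb.nonneg x)
    simpa [val, Matrix.smul_mulVec, dotProduct_smul] using this⟩

theorem wd_lineForm {J a : M} (hn : pfq (wmat J) (wmat J) ≠ 0) (ha : aᵀ = -a) (v : E) :
    wd J a (lineForm J v) = val a v (J *ᵥ v) := by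
  rw [wd, lineForm, pfq_comm, pfq_smul_left, pfq_comm, pfq_starF_wedge ha, ← mul_assoc,
    sgnJ_sq hn, one_mul]

theorem wd_self_ge (hL : LinearFacts) {J a : M} (hJ : J * J = -1) (δ : ℝ)
    (h : Psd J (a + δ • wmat J)) :
    -2 * δ * wd J a (wmat J) - δ ^ 2 * wd J (wmat J) (wmat J) ≤ wd J a a := by
  have h0 := hL.2.1 J _ _ hJ h h
  have : wd J (a + δ • wmat J) (a + δ • wmat J)
      = wd J a a + 2 * δ * wd J a (wmat J) + δ ^ 2 * wd J (wmat J) (wmat J) := by
    simp only [wd, pfq, Matrix.add_apply, Matrix.smul_apply, smul_eq_mul]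
    ring
  linarith

end Vale.Agent.P204.Tame
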