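import Vale.Agent.P204.Tame.Loc.Base

/-!
First order bounds for the pullback by a nearly complex map: the defect of complex linearity and
the mixing of types.
-/

namespace Vale.Agent.P204.Tame

open scoped ContDiff Matrix
open MeasureTheory Metric Set

variable {n : ℕ}

theorem dot_self_nonneg (v : E) : 0 ≤ v ⬝ᵥ v := Finset.sum_nonneg fun _ _ => mul_self_nonneg _

theorem dot_mulVec_le (A : M) (v : E) :
    (A *ᵥ v) ⬝ᵥ (A *ᵥ v) ≤ 4 * nrm1 A ^ 2 * (v ⬝ᵥ v) := by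
  have hi : ∀ i, (A *ᵥ v) i * (A *ᵥ v) i ≤ nrm1 A ^ 2 * (v ⬝ᵥ v) := fun i => by
    have h : |(A *ᵥ v) i| ≤ nrm1 A * Real.sqrt (v ⬝ᵥ v) := by
      calc |(A *ᵥ v) i| = |∑ j, A i j * v j| := rfl
        _ ≤ ∑ j, |A i j * v j| := Finset.abs_sum_le_sum_abs _ _
        _ ≤ ∑ j, |A i j| * Real.sqrt (v ⬝ᵥ v) := Finset.sum_le_sum fun j _ => by
            rw [abs_mul]
            refine mul_le_mul_of_nonneg_left ?_ (abs_nonneg _)
            rw [← Real.sqrt_sq_eq_abs]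
            refine Real.sqrt_le_sqrt ?_
            rw [sq]
            exact Finset.single_le_sum (f := fun j => v j * v j) (fun _ _ => mul_self_nonneg _)
              (Finset.mem_univ j)
        _ ≤ _ := by
            rw [← Finset.sum_mul]
            exact mul_le_mul_of_nonneg_right (Finset.single_le_sum
              (f := fun i => ∑ j, |A i j|)
              (fun _ _ => Finset.sum_nonneg fun _ _ => abs_nonneg _) (Finset.mem_univ i))
              (Real.sqrt_nonneg _)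
    calc (A *ᵥ v) i * (A *ᵥ v) i = |(A *ᵥ v) i| * |(A *ᵥ v) i| := (abs_mul_abs_self _).symm
      _ ≤ (nrm1 A * Real.sqrt (v ⬝ᵥ v)) * (nrm1 A * Real.sqrt (v ⬝ᵥ v)) :=
          mul_le_mul h h (abs_nonneg _) (mul_nonneg (nrm1_nonneg _) (Real.sqrt_nonneg _))
      _ = _ := by rw [mul_mul_mul_comm, Real.mul_self_sqrt (dot_self_nonneg v), sq]
  calc (A *ᵥ v) ⬝ᵥ (A *ᵥ v) ≤ ∑ _i : Fin 4, nrm1 A ^ 2 * (v ⬝ᵥ v) :=
        Finset.sum_le_sum fun i _ => hi i
    _ = _ := by simp; ring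

theorem contDiffOn_mul {α : Type*} [NormedAddCommGroup α] [NormedSpace ℝ α] {s : Set α}
    {A B : α → M} (hA : ∀ i j, ContDiffOn ℝ ∞ (fun z => A z i j) s)
    (hB : ∀ i j, ContDiffOn ℝ ∞ (fun z => B z i j) s) (i j : Fin 4) :
    ContDiffOn ℝ ∞ (fun z => (A z * B z) i j) s := by
  simp only [Matrix.mul_apply]
  exact ContDiffOn.sum fun k _ => (hA i k).mul (hB k j)

/-- The type mixing of a pullback. -/
noncomputable def mixInv (P J J' b : M) : M := pinv J (Pᵀ * panti J' b * P)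

/-- The type mixing of a pullback. -/
noncomputable def mixAnti (P J J' b : M) : M := panti J (Pᵀ * pinv J' b * P)

theorem mixInv_one {J b : M} (hJ : J * J = -1) : mixInv 1 J J b = 0 := by
  have h : Jᵀ * Jᵀ = -1 := by rw [← Matrix.transpose_mul, hJ]; simp
  have h2 : Jᵀ * (Jᵀ * b * J) * J = b := by
    calc Jᵀ * (Jᵀ * b * J) * J = (Jᵀ * Jᵀ) * b * (J * J) := by simp only [mul_assoc]
      _ = b := by rw [h, hJ]; simp
  simp only [mixInv, pinv, panti, Matrix.transpose_one, one_mul, mul_one, mul_smul_comm,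
    smul_mul_assoc, mul_sub, sub_mul, h2]
  module

theorem mixAnti_one {J b : M} (hJ : J * J = -1) : mixAnti 1 J J b = 0 := by
  have h : Jᵀ * Jᵀ = -1 := by rw [← Matrix.transpose_mul, hJ]; simp
  have h2 : Jᵀ * (Jᵀ * b * J) * J = b := by
    calc Jᵀ * (Jᵀ * b * J) * J = (Jᵀ * Jᵀ) * b * (J * J) := by simp only [mul_assoc]
      _ = b := by rw [h, hJ]; simp
  simp only [mixAnti, pinv, panti, Matrix.transpose_one, one_mul, mul_one, mul_smul_comm,
    smul_mul_assoc, mul_add, add_mul, h2]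
  module

/-- The matrix with one nonzero coefficient. -/
def unit2 (c d : Fin 4) : M := Matrix.of fun i j => if i = c ∧ j = d then 1 else 0

theorem eq_sum_unit2 (b : M) : b = ∑ cd : Fin 4 × Fin 4, b cd.1 cd.2 • unit2 cd.1 cd.2 := by
  ext i j
  rw [Matrix.sum_apply, Fintype.sum_eq_single (i, j)]
  · simp [unit2]
  · intro cd hcd
    simp only [Matrix.smul_apply, unit2, Matrix.of_apply, smul_eq_mul]
    rw [if_neg fun h => hcd (Prod.ext h.1.symm h.2.symm), mul_zero]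

theorem exists_pull_bounds {U : Set E} {σ : (Fin n → ℝ) → E → E} (hσ : IsSmoother U σ)
    {J : E → M} (hJ : IsACS U J) {K : Set E} (hKU : K ⊆ U) (hK : IsCompact K) :
    ∃ L : ℝ, 0 ≤ L ∧ ∃ δ > 0, ∀ v ∈ closedBall (0 : Fin n → ℝ) δ, ∀ y ∈ K,
      σ v y ∈ U ∧ nrm1 (jacV σ v y) ≤ L ∧ nrm1 (J y) ≤ L ∧ nrm1 (J (σ v y)) ≤ L ∧
      nrm1 (jacV σ v y * J y - J (σ v y) * jacV σ v y) ≤ L * ‖v‖ ∧
      (∀ b, nrm1 (mixInv (jacV σ v y) (J y) (J (σ v y)) b) ≤ L * ‖v‖ * nrm1 b) ∧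
      (∀ b, nrm1 (mixAnti (jacV σ v y) (J y) (J (σ v y)) b) ≤ L * ‖v‖ * nrm1 b) := by
  classical
  obtain ⟨W₀, hW₀o, hW₀, hσW⟩ := hσ.smooth
  set W := (W₀ ∩ (fun z => σ z.1 z.2) ⁻¹' U) ∩ univ ×ˢ U with hW
  have hWo : IsOpen W :=
    (hσW.continuousOn.isOpen_inter_preimage hW₀o hσ.isOpen).inter (isOpen_univ.prod hσ.isOpen)
  have h0 : ({0} : Set (Fin n → ℝ)) ×ˢ K ⊆ W := by
    rintro ⟨v, y⟩ ⟨rfl, hy⟩
    exact ⟨⟨hW₀ ⟨rfl, hKU hy⟩, by simpa [hσ.base y (hKU hy)] using hKU hy⟩, mem_univ _, hKU hy⟩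
  have hsubW : W ⊆ W₀ := fun z hz => hz.1.1
  have hP : ∀ i j, ContDiffOn ℝ ∞ (fun z => jacV σ z.1 z.2 i j) W := fun i j =>
    (contDiffOn_jacV hW₀o hσW i j).mono hsubW
  have hJy : ∀ i j, ContDiffOn ℝ ∞ (fun z : (Fin n → ℝ) × E => J z.2 i j) W := fun i j =>
    (hJ.smooth i j).comp contDiff_snd.contDiffOn fun z hz => hz.2.2
  have hJσ : ∀ i j, ContDiffOn ℝ ∞ (fun z : (Fin n → ℝ) × E => J (σ z.1 z.2) i j) W := fun i j =>
    (hJ.smooth i j).comp (hσW.mono hsubW) fun z hz => hz.1.2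
  have hPt : ∀ i j, ContDiffOn ℝ ∞ (fun z => (jacV σ z.1 z.2)ᵀ i j) W := fun i j => hP j i
  have hJyt : ∀ i j, ContDiffOn ℝ ∞ (fun z : (Fin n → ℝ) × E => (J z.2)ᵀ i j) W :=
    fun i j => hJy j i
  have hJσt : ∀ i j, ContDiffOn ℝ ∞ (fun z : (Fin n → ℝ) × E => (J (σ z.1 z.2))ᵀ i j) W :=
    fun i j => hJσ j i
  have hdef : ∀ i j, ContDiffOn ℝ ∞ (fun z : (Fin n → ℝ) × E =>
      (jacV σ z.1 z.2 * J z.2 - J (σ z.1 z.2) * jacV σ z.1 z.2) i j) W := fun i j => by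
    simp only [Matrix.sub_apply]
    exact (contDiffOn_mul hP hJy i j).sub (contDiffOn_mul hJσ hP i j)
  have hu : ∀ c d i j, ContDiffOn ℝ ∞ (fun _ : (Fin n → ℝ) × E => unit2 c d i j) W :=
    fun _ _ _ _ => contDiffOn_const
  have hmid : ∀ c d i j, ContDiffOn ℝ ∞ (fun z : (Fin n → ℝ) × E =>
      ((J (σ z.1 z.2))ᵀ * unit2 c d * J (σ z.1 z.2)) i j) W := fun c d i j =>
    contDiffOn_mul (contDiffOn_mul hJσt (hu c d)) hJσ i j
  have hmix : ∀ s t : ℝ, ∀ c d i j, ContDiffOn ℝ ∞ (fun z : (Fin n → ℝ) × E =>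
      let b' := (1 / 2 : ℝ) • (unit2 c d + s • ((J (σ z.1 z.2))ᵀ * unit2 c d * J (σ z.1 z.2)))
      let q := (jacV σ z.1 z.2)ᵀ * b' * jacV σ z.1 z.2
      ((1 / 2 : ℝ) • (q + t • ((J z.2)ᵀ * q * J z.2))) i j) W := by
    intro s t c d i j
    have hb : ∀ i j, ContDiffOn ℝ ∞ (fun z : (Fin n → ℝ) × E => ((1 / 2 : ℝ) • (unit2 c d +
        s • ((J (σ z.1 z.2))ᵀ * unit2 c d * J (σ z.1 z.2)))) i j) W := fun i j => by
      simp only [Matrix.smul_apply, Matrix.add_apply, smul_eq_mul]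
      exact ((hu c d i j).add ((hmid c d i j).const_smul s)).const_smul (1 / 2 : ℝ)
    have hq := contDiffOn_mul (contDiffOn_mul hPt hb) hP
    simp only [Matrix.smul_apply, Matrix.add_apply, smul_eq_mul]
    exact ((hq i j).add
      ((contDiffOn_mul (contDiffOn_mul hJyt hq) hJy i j).const_smul t)).const_smul (1 / 2 : ℝ)
  let G : (Fin n → ℝ) × E → (Fin 4 → Fin 4 → ℝ) × (Fin 4 → Fin 4 → ℝ) × (Fin 4 → Fin 4 → ℝ) ×
      (Fin 4 → Fin 4 → ℝ) × (Fin 4 → Fin 4 → Fin 4 → Fin 4 → ℝ) ×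
        (Fin 4 → Fin 4 → Fin 4 → Fin 4 → ℝ) := fun z =>
    (fun i j => jacV σ z.1 z.2 i j, fun i j => J z.2 i j, fun i j => J (σ z.1 z.2) i j,
      fun i j => (jacV σ z.1 z.2 * J z.2 - J (σ z.1 z.2) * jacV σ z.1 z.2) i j,
      fun c d i j => mixInv (jacV σ z.1 z.2) (J z.2) (J (σ z.1 z.2)) (unit2 c d) i j,
      fun c d i j => mixAnti (jacV σ z.1 z.2) (J z.2) (J (σ z.1 z.2)) (unit2 c d) i j)
  have hG : ContDiffOn ℝ ∞ G W := by
    refine ContDiffOn.prodMk ?_ (ContDiffOn.prodMk ?_ (ContDiffOn.prodMk ?_ (ContDiffOn.prodMk ?_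
      (ContDiffOn.prodMk ?_ ?_))))
    · exact contDiffOn_pi.2 fun i => contDiffOn_pi.2 fun j => hP i j
    · exact contDiffOn_pi.2 fun i => contDiffOn_pi.2 fun j => hJy i j
    · exact contDiffOn_pi.2 fun i => contDiffOn_pi.2 fun j => hJσ i j
    · exact contDiffOn_pi.2 fun i => contDiffOn_pi.2 fun j => hdef i j
    · refine contDiffOn_pi.2 fun c => contDiffOn_pi.2 fun d => contDiffOn_pi.2 fun i =>
        contDiffOn_pi.2 fun j => ?_
      simpa [mixInv, pinv, panti, sub_eq_add_neg] using hmix (-1) 1 c d i j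
    · refine contDiffOn_pi.2 fun c => contDiffOn_pi.2 fun d => contDiffOn_pi.2 fun i =>
        contDiffOn_pi.2 fun j => ?_
      simpa [mixAnti, pinv, panti, sub_eq_add_neg] using hmix 1 (-1) c d i j
  obtain ⟨L, hL, δ, hδ, htube, hlip⟩ := exists_lip hWo hK h0 hG
  refine ⟨256 * L, mul_nonneg (by norm_num) hL, δ, hδ, fun v hv y hy => ?_⟩
  obtain ⟨hd, hb⟩ := hlip v hv y hy
  have hy0 : G (0, y) = G (0, y) := rfl
  have e1 : jacV σ 0 y = 1 := jacV_zero hσ (hKU hy)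
  have e2 : σ 0 y = y := hσ.base y (hKU hy)
  have hJJ := hJ.sq y (hKU hy)
  have hbound : ∀ (A : M) (R : ℝ), (∀ i j, |A i j| ≤ R) → nrm1 A ≤ 16 * R := fun A R h =>
    (Finset.sum_le_sum fun i _ => Finset.sum_le_sum fun j _ => h i j).trans_eq (by simp; ring)
  have p4 : ∀ (a : Fin 4 → Fin 4 → ℝ) i j, |a i j| ≤ ‖a‖ := fun a i j => by
    rw [← Real.norm_eq_abs]
    exact (norm_le_pi_norm (a i) j).trans (norm_le_pi_norm a i)
  have p16 : ∀ (a : Fin 4 → Fin 4 → Fin 4 → Fin 4 → ℝ) c d i j, |a c d i j| ≤ ‖a‖ :=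
    fun a c d i j => (p4 (a c d) i j).trans ((norm_le_pi_norm (a c) d).trans (norm_le_pi_norm a c))
  simp only [Prod.norm_def, max_le_iff] at hb hd
  simp only [G, Prod.fst_sub, Prod.snd_sub] at hb hd
  obtain ⟨hb1, hb2, hb3, -, -, -⟩ := hb
  obtain ⟨-, -, -, hd4, hd5, hd6⟩ := hd
  rw [e1, e2] at hd4 hd5 hd6
  have hL16 : 16 * L ≤ 256 * L := by linarith
  have hmem : σ v y ∈ U := (htube (Set.mk_mem_prod hv hy)).1.2
  refine ⟨hmem, (hbound _ L fun i j => (p4 _ i j).trans hb1).trans hL16,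
    (hbound _ L fun i j => (p4 _ i j).trans hb2).trans hL16,
    (hbound _ L fun i j => (p4 _ i j).trans hb3).trans hL16, ?_, ?_, ?_⟩
  · refine (hbound _ (L * ‖v‖) fun i j => ?_).trans (by nlinarith [norm_nonneg v])
    have := (p4 _ i j).trans hd4
    simpa using this
  all_goals
    intro b
    have hlin : ∀ (f : M → M), (∀ x y, f (x + y) = f x + f y) → (∀ (r : ℝ) x, f (r • x) = r • f x) →
        (∀ c d i j, |f (unit2 c d) i j| ≤ L * ‖v‖) → nrm1 (f b) ≤ 256 * L * ‖v‖ * nrm1 b := by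
      intro f hadd hsmul hbd
      let fl : M →ₗ[ℝ] M := { toFun := f, map_add' := hadd, map_smul' := hsmul }
      have he : f b = ∑ cd : Fin 4 × Fin 4, b cd.1 cd.2 • f (unit2 cd.1 cd.2) := by
        conv_lhs => rw [eq_sum_unit2 b]
        exact (map_sum fl _ _).trans (Finset.sum_congr rfl fun cd _ => hsmul _ _)
      refine (hbound _ (16 * nrm1 b * (L * ‖v‖)) fun i j => ?_).trans (le_of_eq (by ring))
      rw [he, Matrix.sum_apply]
      refine (Finset.abs_sum_le_sum_abs _ _).trans ((Finset.sum_le_sum (g := fun _ =>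
        nrm1 b * (L * ‖v‖)) fun cd _ => ?_).trans_eq (by simp; ring))
      rw [Matrix.smul_apply, smul_eq_mul, abs_mul]
      exact mul_le_mul (abs_le_nrm1 b _ _) (hbd _ _ i j) (abs_nonneg _) (nrm1_nonneg _)
  · refine hlin (mixInv _ _ _) (fun x y => ?_) (fun r x => ?_) (fun c d i j => ?_)
    · simp only [mixInv, pinv, panti, mul_add, add_mul, sub_mul, mul_sub, mul_smul_comm,
        smul_mul_assoc]
      module
    · simp only [mixInv, pinv, panti, mul_sub, sub_mul, mul_smul_comm, smul_mul_assoc]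
      module
    · have := (p16 _ c d i j).trans hd5
      simpa [mixInv_one hJJ] using this
  · refine hlin (mixAnti _ _ _) (fun x y => ?_) (fun r x => ?_) (fun c d i j => ?_)
    · simp only [mixAnti, pinv, panti, mul_add, add_mul, mul_smul_comm, smul_mul_assoc]
      module
    · simp only [mixAnti, pinv, panti, mul_add, add_mul, mul_smul_comm, smul_mul_assoc]
      module
    · have := (p16 _ c d i j).trans hd6
      simpa [mixAnti_one hJJ] using this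

end Vale.Agent.P204.Tame
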