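import Vale.Agent.P204.Tame.Loc.Alg
import Vale.Agent.P204.Tame.Loc.Pull

/-!
Small facts about invariant parts, the Hermitian form and the orientation sign, as needed for
the smoothing of currents.
-/

namespace Vale.Agent.P204.Tame

open scoped Matrix
open MeasureTheory

theorem sq_transpose {J : M} (hJ : J * J = -1) : Jᵀ * Jᵀ = -1 := by
  rw [← Matrix.transpose_mul, hJ]; simp

theorem sandwich_twice {J : M} (hJ : J * J = -1) (u : M) : Jᵀ * (Jᵀ * u * J) * J = u := by
  calc Jᵀ * (Jᵀ * u * J) * J = (Jᵀ * Jᵀ) * u * (J * J) := by simp only [mul_assoc]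
    _ = u := by rw [sq_transpose hJ, hJ]; simp

theorem pinv_add_panti (J u : M) : pinv J u + panti J u = u := by
  simp only [pinv, panti]; module

theorem pinv_is_inv {J : M} (hJ : J * J = -1) (u : M) : Jᵀ * pinv J u * J = pinv J u := by
  simp only [pinv, mul_smul_comm, smul_mul_assoc, mul_add, add_mul, sandwich_twice hJ]
  rw [add_comm]

theorem panti_is_anti {J : M} (hJ : J * J = -1) (u : M) :
    Jᵀ * panti J u * J = -panti J u := by
  simp only [panti, mul_smul_comm, smul_mul_assoc, mul_sub, sub_mul, sandwich_twice hJ]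
  module

theorem pinv_skew (J : M) {u : M} (hu : uᵀ = -u) : (pinv J u)ᵀ = -pinv J u := by
  simp only [pinv, Matrix.transpose_smul, Matrix.transpose_add, Matrix.transpose_mul,
    Matrix.transpose_transpose, hu, mul_neg, neg_mul, mul_assoc]
  module

theorem panti_skew (J : M) {u : M} (hu : uᵀ = -u) : (panti J u)ᵀ = -panti J u := by
  simp only [panti, Matrix.transpose_smul, Matrix.transpose_sub, Matrix.transpose_mul,
    Matrix.transpose_transpose, hu, mul_neg, neg_mul, mul_assoc]
  module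

theorem pinv_add (J u v : M) : pinv J (u + v) = pinv J u + pinv J v := by
  simp only [pinv, mul_add, add_mul]; module

theorem pinv_smul (J : M) (r : ℝ) (u : M) : pinv J (r • u) = r • pinv J u := by
  simp only [pinv, mul_smul_comm, smul_mul_assoc]; module

theorem val_pinv_skew {J u : M} (hJ : J * J = -1) (hu : uᵀ = -u) (x : E) :
    val (pinv J u) x (J *ᵥ x) = val u x (J *ᵥ x) := by
  have h1 : val (Jᵀ * u * J) x (J *ᵥ x) = val u x (J *ᵥ x) := by
    rw [val_congr, Matrix.mulVec_mulVec, hJ, Matrix.neg_mulVec, Matrix.one_mulVec]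
    rw [show val u (J *ᵥ x) (-x) = -val u (J *ᵥ x) x by simp [val, Matrix.mulVec_neg],
      val_skew_rev hu x (J *ᵥ x), neg_neg]
  have h2 : val (pinv J u) x (J *ᵥ x)
      = (1 / 2 : ℝ) * (val u x (J *ᵥ x) + val (Jᵀ * u * J) x (J *ᵥ x)) := by
    simp only [pinv, val, Matrix.add_mulVec, Matrix.smul_mulVec, dotProduct_add, dotProduct_smul,
      smul_eq_mul]
  rw [h2, h1]
  ring

theorem pfq_pinv_panti (hL : LinearFacts) {J : M} (hJ : J * J = -1) {a b : M} (ha : aᵀ = -a)
    (hb : bᵀ = -b) : pfq (pinv J a) (panti J b) = 0 :=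
  hL.1 J _ _ hJ (pinv_skew J ha) (panti_skew J hb) (pinv_is_inv hJ a) (panti_is_anti hJ b)

theorem pfq_eq_pinv (hL : LinearFacts) {J : M} (hJ : J * J = -1) {a b : M} (hb : Psd J a)
    (hu : bᵀ = -b) : pfq a b = pfq a (pinv J b) := by
  have hinv : pinv J a = a := by
    simp only [pinv, hb.inv]; module
  conv_lhs => rw [← pinv_add_panti J b, pfq_comm, pfq_add_left]
  rw [pfq_comm (panti J b) a]
  have : pfq a (panti J b) = 0 := by
    rw [← hinv]; exact pfq_pinv_panti hL hJ hb.skew hu
  rw [this, add_zero, pfq_comm]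

theorem pfq_panti_comm (hL : LinearFacts) {J : M} (hJ : J * J = -1) {a b : M} (ha : aᵀ = -a)
    (hb : bᵀ = -b) : pfq a (panti J b) = pfq (panti J a) b := by
  have h1 : pfq a (panti J b) = pfq (panti J a) (panti J b) := by
    conv_lhs => rw [← pinv_add_panti J a, pfq_add_left, pfq_pinv_panti hL hJ ha hb, zero_add]
  have h2 : pfq (panti J a) b = pfq (panti J a) (panti J b) := by
    conv_lhs => rw [← pinv_add_panti J b, pfq_comm, pfq_add_left,
      pfq_pinv_panti hL hJ hb ha, zero_add, pfq_comm]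
  rw [h1, h2]

theorem abs_pfq_le6 (a b : M) : |pfq a b| ≤ 6 * nrm1 a * nrm1 b := by
  have h : ∀ i j k l, |a i j * b k l| ≤ nrm1 a * nrm1 b := fun i j k l => by
    rw [abs_mul]
    exact mul_le_mul (abs_le_nrm1 a i j) (abs_le_nrm1 b k l) (abs_nonneg _) (nrm1_nonneg a)
  simp only [pfq]
  have h1 := abs_le.1 (h 0 1 2 3)
  have h2 := abs_le.1 (h 0 2 1 3)
  have h3 := abs_le.1 (h 0 3 1 2)
  have h4 := abs_le.1 (h 2 3 0 1)
  have h5 := abs_le.1 (h 1 3 0 2)
  have h6 := abs_le.1 (h 1 2 0 3)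
  rw [abs_le]
  constructor <;> nlinarith

theorem abs_sgnJ_le_one (J : M) : |sgnJ J| ≤ 1 := by
  rcases Real.sign_apply_eq (pfq (wmat J) (wmat J)) with h | h | h <;> simp [sgnJ, h]

theorem abs_wd_le (J a b : M) : |wd J a b| ≤ 6 * nrm1 a * nrm1 b := by
  rw [wd, abs_mul]
  calc |sgnJ J| * |pfq a b| ≤ 1 * (6 * nrm1 a * nrm1 b) :=
        mul_le_mul (abs_sgnJ_le_one J) (abs_pfq_le6 a b) (abs_nonneg _) zero_le_one
    _ = _ := one_mul _

theorem hmat_quad (J : M) (x : E) : x ⬝ᵥ x ≤ x ⬝ᵥ (hmat J *ᵥ x) := by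
  simp only [hmat, Matrix.add_mulVec, Matrix.one_mulVec, dotProduct_add]
  rw [← Matrix.mulVec_mulVec, Matrix.dotProduct_mulVec x J, ← Matrix.mulVec_transpose]
  linarith [dot_self_nonneg (Jᵀ *ᵥ x)]

theorem hmat_det_ne (J : M) : (hmat J).det ≠ 0 := by
  intro h
  obtain ⟨x, hx, hHx⟩ := Matrix.exists_mulVec_eq_zero_iff.2 h
  have := hmat_quad J x
  rw [hHx, dotProduct_zero] at this
  exact hx (dotProduct_self_eq_zero.1 (le_antisymm this (dot_self_nonneg x)))

theorem val_wmat_ge {J : M} (hJ : J * J = -1) (v : E) :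
    v ⬝ᵥ v ≤ 16 * nrm1 (hmat J) ^ 2 * nrm1 J ^ 2 * val (wmat J) v (J *ᵥ v) := by
  set u := J *ᵥ v with hu
  set x := gmat J *ᵥ u with hx
  have hHx : hmat J *ᵥ x = u := by
    rw [hx, Matrix.mulVec_mulVec, gmat, Matrix.mul_nonsing_inv _ (hmat_det_ne J).isUnit,
      Matrix.one_mulVec]
  have hval : val (wmat J) v u = u ⬝ᵥ x := by
    rw [val, wmat, ← Matrix.mulVec_mulVec, Matrix.dotProduct_mulVec v Jᵀ,
      Matrix.vecMul_transpose]
  have h1 : u ⬝ᵥ u ≤ 4 * nrm1 (hmat J) ^ 2 * (u ⬝ᵥ x) := by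
    calc u ⬝ᵥ u ≤ 4 * nrm1 (hmat J) ^ 2 * (x ⬝ᵥ x) := by
          conv_lhs => rw [← hHx]
          exact dot_mulVec_le _ _
      _ ≤ _ := mul_le_mul_of_nonneg_left ((hmat_quad J x).trans_eq (by
          rw [hHx, dotProduct_comm])) (by positivity)
  have h2 : v ⬝ᵥ v ≤ 4 * nrm1 J ^ 2 * (u ⬝ᵥ u) := by
    have : J *ᵥ u = -v := by
      rw [hu, Matrix.mulVec_mulVec, hJ, Matrix.neg_mulVec, Matrix.one_mulVec]
    have := (this ▸ dot_mulVec_le J u : (-v) ⬝ᵥ (-v) ≤ _)
    simpa using this
  rw [hval]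
  calc v ⬝ᵥ v ≤ 4 * nrm1 J ^ 2 * (4 * nrm1 (hmat J) ^ 2 * (u ⬝ᵥ x)) :=
        h2.trans (mul_le_mul_of_nonneg_left h1 (by positivity))
    _ = _ := by ring

theorem continuousOn_wmat {α : Type*} [TopologicalSpace α] {s : Set α} {J : α → M}
    (hJ : ∀ i j, ContinuousOn (fun x => J x i j) s) :
    ContinuousOn (fun x => wmat (J x)) s ∧ ContinuousOn (fun x => hmat (J x)) s := by
  have hJ' : ContinuousOn J s := continuousOn_pi.2 fun i => continuousOn_pi.2 fun j => hJ i j
  have hJt : ContinuousOn (fun x => (J x)ᵀ) s :=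
    (Continuous.matrix_transpose continuous_id).comp_continuousOn hJ'
  have hH : ContinuousOn (fun x => hmat (J x)) s := by
    simp only [hmat]
    exact continuousOn_const.add (hJ'.mul hJt)
  refine ⟨?_, hH⟩
  have hG : ContinuousOn (fun x => gmat (J x)) s := fun x hx =>
    (continuousAt_matrix_inv _ (by
      rw [Ring.inverse_eq_inv']
      exact continuousAt_inv₀ (hmat_det_ne (J x)))).comp_continuousWithinAt (hH x hx)
  exact hJt.mul hG

theorem measurable_sgnJ {α : Type*} [MeasurableSpace α] {J : α → M}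
    (hJ : ∀ i j, Measurable fun x => J x i j) : Measurable fun x => sgnJ (J x) := by
  have hf : Continuous fun A : Fin 4 → Fin 4 → ℝ =>
      ((hmat (Matrix.of A)).det, (hmat (Matrix.of A)).adjugate, (Matrix.of A)ᵀ) := by
    have hA : Continuous fun A : Fin 4 → Fin 4 → ℝ => (Matrix.of A : M) := continuous_id
    have hH : Continuous fun A : Fin 4 → Fin 4 → ℝ => hmat (Matrix.of A) :=
      continuous_const.add (hA.matrix_mul hA.matrix_transpose)
    exact hH.matrix_det.prodMk (hH.matrix_adjugate.prodMk hA.matrix_transpose)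
  have hJm : Measurable fun x => (fun i j => J x i j : Fin 4 → Fin 4 → ℝ) :=
    measurable_pi_lambda _ fun i => measurable_pi_lambda _ fun j => hJ i j
  have hd : Measurable fun x => (hmat (J x)).det :=
    (continuous_fst.comp hf).measurable.comp hJm
  have hent : ∀ i j, Measurable fun x => wmat (J x) i j := fun i j => by
    have hc : ∀ p q : Fin 4, Measurable fun x => (hmat (J x)).adjugate p q := fun p q =>
      Measurable.comp (g := fun A : Fin 4 → Fin 4 → ℝ => (hmat (Matrix.of A)).adjugate p q)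
        ((continuous_fst.comp (continuous_snd.comp hf)).matrix_elem p q).measurable hJm
    have : ∀ x, wmat (J x) i j
        = ∑ k, J x k i * ((hmat (J x)).det⁻¹ * (hmat (J x)).adjugate k j) := fun x => by
      simp [wmat, gmat, Matrix.inv_def, Matrix.mul_apply, Ring.inverse_eq_inv']
    simp only [this]
    exact Finset.measurable_sum _ fun k _ => (hJ k i).mul (hd.inv.mul (hc k j))
  have hp : Measurable fun x => pfq (wmat (J x)) (wmat (J x)) := by
    simp only [pfq]
    fun_prop
  have hsign : Measurable Real.sign :=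
    Measurable.ite (measurableSet_lt measurable_id measurable_const) measurable_const
      (Measurable.ite (measurableSet_lt measurable_const measurable_id) measurable_const
        measurable_const)
  exact hsign.comp hp

end Vale.Agent.P204.Tame
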