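import Vale.Agent.P204.Tame.Loc.Alg

/-!
The local averaged pullback of two-forms: definition, tubes around the base and first order
bounds in the parameter.
-/

namespace Vale.Agent.P204.Tame

open scoped ContDiff Matrix
open MeasureTheory Metric Set

variable {n : ℕ}

/-- The Jacobian matrix of the map with parameter `v`. -/
noncomputable def jacV (σ : (Fin n → ℝ) → E → E) (v : Fin n → ℝ) (y : E) : M :=
  Matrix.of fun a j => pd j (fun x => σ v x a) y

/-- The kernel coefficients of the pullback of two-forms. -/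
noncomputable def pullCoef (σ : (Fin n → ℝ) → E → E) (a b c d : Fin 4) (v : Fin n → ℝ) (y : E) :
    ℝ :=
  jacV σ v y c a * jacV σ v y d b

/-- The averaged pullback of a two-form. -/
noncomputable def smL (σ : (Fin n → ℝ) → E → E) (ρ : (Fin n → ℝ) → ℝ) (ε : ℝ) (u : E → M)
    (y : E) : M :=
  Matrix.of fun a b => ∑ c, ∑ d, kerOp σ ρ (pullCoef σ a b c d) ε (fun x => u x c d) y

/-- The pullback of a two-form by the map with parameter `v`. -/
noncomputable def pullV (σ : (Fin n → ℝ) → E → E) (v : Fin n → ℝ) (u : E → M) (y : E) : M :=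
  (jacV σ v y)ᵀ * u (σ v y) * jacV σ v y

theorem pullV_apply (σ : (Fin n → ℝ) → E → E) (v : Fin n → ℝ) (u : E → M) (y : E) (a b : Fin 4) :
    pullV σ v u y a b = ∑ c, ∑ d, pullCoef σ a b c d v y * u (σ v y) c d := by
  simp only [pullV, Matrix.mul_apply, Matrix.transpose_apply, pullCoef, Finset.sum_mul]
  rw [Finset.sum_comm]
  exact Finset.sum_congr rfl fun c _ => Finset.sum_congr rfl fun d _ => by ring

/-- A mollifier weight on the parameter space. -/
structure IsWeight (ρ : (Fin n → ℝ) → ℝ) : Prop where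
  smooth : ContDiff ℝ ∞ ρ
  supp : tsupport ρ ⊆ closedBall 0 1
  nonneg : ∀ v, 0 ≤ ρ v
  mass : ∫ v, ρ v = 1

theorem IsWeight.eq_zero {ρ : (Fin n → ℝ) → ℝ} (hρ : IsWeight ρ) {ε : ℝ} (hε : 0 < ε)
    {v : Fin n → ℝ} (hv : ε < ‖v‖) : ρ (ε⁻¹ • v) = 0 := by
  by_contra h
  have := hρ.supp (subset_tsupport _ h)
  rw [mem_closedBall_zero_iff, norm_smul, norm_inv, Real.norm_of_nonneg hε.le,
    inv_mul_le_iff₀ hε, mul_one] at this
  exact absurd this (not_le.2 hv)

theorem IsWeight.bdd {ρ : (Fin n → ℝ) → ℝ} (hρ : IsWeight ρ) : ∃ C, ∀ v, ρ v ≤ C := by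
  have hc : HasCompactSupport ρ :=
    (isCompact_closedBall 0 1).of_isClosed_subset (isClosed_tsupport _) hρ.supp
  obtain ⟨C, hC⟩ := hc.exists_bound_of_continuous hρ.smooth.continuous
  exact ⟨C, fun v => (le_abs_self _).trans (hC v)⟩

/-- A tube around the base over a compact set. -/
theorem exists_tube {W : Set ((Fin n → ℝ) × E)} (hW : IsOpen W) {K : Set E} (hK : IsCompact K)
    (h0 : ({0} : Set (Fin n → ℝ)) ×ˢ K ⊆ W) :
    ∃ δ > 0, closedBall (0 : Fin n → ℝ) δ ×ˢ K ⊆ W := by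
  obtain ⟨u, w, hu, -, h0u, hKw, huw⟩ :=
    generalized_tube_lemma isCompact_singleton hK hW h0
  obtain ⟨δ, hδ, hb⟩ := nhds_basis_closedBall.mem_iff.1 (hu.mem_nhds (h0u rfl))
  exact ⟨δ, hδ, fun z hz => huw ⟨hb hz.1, hKw hz.2⟩⟩

/-- A function smooth near the base changes at most linearly in the parameter. -/
theorem exists_lip {W : Set ((Fin n → ℝ) × E)} (hW : IsOpen W) {K : Set E} (hK : IsCompact K)
    (h0 : ({0} : Set (Fin n → ℝ)) ×ˢ K ⊆ W) {G : Type*} [NormedAddCommGroup G] [NormedSpace ℝ G]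
    {F : (Fin n → ℝ) × E → G} (hF : ContDiffOn ℝ ∞ F W) :
    ∃ L : ℝ, 0 ≤ L ∧ ∃ δ > 0, closedBall (0 : Fin n → ℝ) δ ×ˢ K ⊆ W ∧
      ∀ v ∈ closedBall (0 : Fin n → ℝ) δ, ∀ y ∈ K,
        ‖F (v, y) - F (0, y)‖ ≤ L * ‖v‖ ∧ ‖F (v, y)‖ ≤ L := by
  obtain ⟨δ, hδ, hT⟩ := exists_tube hW hK h0
  have hc : IsCompact (closedBall (0 : Fin n → ℝ) δ ×ˢ K) := (isCompact_closedBall _ _).prod hK
  obtain ⟨A, hA⟩ := hc.exists_bound_of_continuousOn
    ((hF.continuousOn_fderiv_of_isOpen hW (by simp)).mono hT)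
  obtain ⟨B, hB⟩ := hc.exists_bound_of_continuousOn (hF.continuousOn.mono hT)
  refine ⟨max 0 (max A B), le_max_left _ _, δ, hδ, hT, fun v hv y hy =>
    ⟨?_, (hB _ ⟨hv, hy⟩).trans ((le_max_right _ _).trans (le_max_right _ _))⟩⟩
  have hd : ∀ x ∈ closedBall (0 : Fin n → ℝ) δ, HasFDerivWithinAt (fun v => F (v, y))
      ((fderiv ℝ F (x, y)).comp (ContinuousLinearMap.inl ℝ (Fin n → ℝ) E))
      (closedBall 0 δ) x := fun x hx =>
    (((hF.contDiffAt (hW.mem_nhds (hT ⟨hx, hy⟩))).differentiableAt (by simp)).hasFDerivAt.comp x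
      (hasFDerivAt_prodMk_left x y)).hasFDerivWithinAt
  have := (convex_closedBall (0 : Fin n → ℝ) δ).norm_image_sub_le_of_norm_hasFDerivWithin_le hd
    (C := max 0 (max A B)) (fun x hx => by
      refine (ContinuousLinearMap.opNorm_comp_le _ _).trans ?_
      have h1 := hA _ (mk_mem_prod hx hy)
      have h2 := ContinuousLinearMap.norm_inl_le_one ℝ (Fin n → ℝ) E
      calc ‖fderiv ℝ F (x, y)‖ * ‖ContinuousLinearMap.inl ℝ (Fin n → ℝ) E‖
          ≤ ‖fderiv ℝ F (x, y)‖ * 1 := mul_le_mul_of_nonneg_left h2 (norm_nonneg _)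
        _ ≤ _ := by rw [mul_one]; exact h1.trans ((le_max_left _ _).trans (le_max_right _ _)))
    (mem_closedBall_self hδ.le) hv
  simpa using this

theorem contDiffOn_jacV {σ : (Fin n → ℝ) → E → E} {W : Set ((Fin n → ℝ) × E)} (hW : IsOpen W)
    (hσ : ContDiffOn ℝ ∞ (fun z => σ z.1 z.2) W) (a j : Fin 4) :
    ContDiffOn ℝ ∞ (fun z => jacV σ z.1 z.2 a j) W := by
  have hσa : ContDiffOn ℝ ∞ (fun z : (Fin n → ℝ) × E => σ z.1 z.2 a) W := contDiffOn_pi.1 hσ a
  have h1 : ContDiffOn ℝ ∞ (fun z => fderiv ℝ (fun z : (Fin n → ℝ) × E => σ z.1 z.2 a) z (0, e j))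
      W := (hσa.fderiv_of_isOpen hW (by simp)).clm_apply contDiffOn_const
  refine h1.congr fun z hz => ?_
  have hg : HasFDerivAt (fun z : (Fin n → ℝ) × E => σ z.1 z.2 a)
      (fderiv ℝ (fun z : (Fin n → ℝ) × E => σ z.1 z.2 a) z) (z.1, z.2) :=
    ((hσa.contDiffAt (hW.mem_nhds hz)).differentiableAt (by simp)).hasFDerivAt
  have hd := hg.comp z.2 (hasFDerivAt_prodMk_right (𝕜 := ℝ) z.1 z.2)
  simp only [jacV, Matrix.of_apply, pd]
  rw [HasFDerivAt.fderiv (f := fun x => σ z.1 x a) hd]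
  rfl

theorem jacV_zero {U : Set E} {σ : (Fin n → ℝ) → E → E} (h : IsSmoother U σ) {y : E} (hy : y ∈ U) :
    jacV σ 0 y = 1 := by
  ext a j
  have hee : (fun x => σ 0 x a) =ᶠ[nhds y] fun x => x a := by
    filter_upwards [h.isOpen.mem_nhds hy] with x hx
    rw [h.base x hx]
  simp only [jacV, Matrix.of_apply, pd]
  rw [hee.fderiv_eq, (hasFDerivAt_apply a y).fderiv]
  simp [e, Pi.single_apply, Matrix.one_apply]

end Vale.Agent.P204.Tame
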