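import Vale.Agent.P204.Tame.Loc.Field
import Vale.Agent.P204.Tame.Mfd.Coord

/-!
Approximation of weakly closed square integrable two-forms by smooth closed ones in mean, on
compact subsets.
-/

namespace Vale.Agent.P204.Tame

open scoped ContDiff Matrix Topology
open MeasureTheory Metric Set Filter

/-- Mollification by a bump function. -/
noncomputable def mol (φ : ContDiffBump (0 : E)) (w : E → ℝ) : E → ℝ :=
  convolution w (φ.normed volume) (ContinuousLinearMap.lsmul ℝ ℝ) volume

theorem mol_apply (φ : ContDiffBump (0 : E)) (w : E → ℝ) (x : E) :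
    mol φ w x = ∫ t, w t * φ.normed volume (x - t) := rfl

theorem mol_eq_left (φ : ContDiffBump (0 : E)) (w : E → ℝ) :
    mol φ w = convolution (φ.normed volume) w (ContinuousLinearMap.lsmul ℝ ℝ) volume := by
  funext x
  rw [convolution_eq_swap, mol_apply]
  exact integral_congr_ae (ae_of_all _ fun t => mul_comm _ _)

theorem integrable_mol_integrand (φ : ContDiffBump (0 : E)) {w : E → ℝ}
    (hw : LocallyIntegrable w volume) (x : E) :
    Integrable fun t => w t * φ.normed volume (x - t) :=
  (φ.hasCompactSupport_normed (μ := volume)).convolutionExists_right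
    (ContinuousLinearMap.lsmul ℝ ℝ) hw (φ.continuous_normed (μ := volume)) x

/-- Mollification contracts the mean absolute value. -/
theorem integral_abs_mol_le (φ : ContDiffBump (0 : E)) {w : E → ℝ} (hw : Integrable w) :
    Integrable (mol φ w) ∧ ∫ x, |mol φ w x| ≤ ∫ x, |w x| := by
  have hφ : Integrable (φ.normed volume) (volume : Measure E) := φ.integrable_normed
  refine ⟨Integrable.integrable_convolution _ hw hφ, ?_⟩
  have hI : Integrable (mol φ fun t => |w t|) := Integrable.integrable_convolution _ hw.abs hφ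
  refine (integral_mono (Integrable.integrable_convolution _ hw hφ).abs hI fun x => ?_).trans_eq ?_
  · refine (abs_integral_le_integral_abs).trans_eq (integral_congr_ae (ae_of_all _ fun t => ?_))
    simp [abs_mul, abs_of_nonneg (φ.nonneg_normed (μ := volume) (x - t))]
  · rw [mol, integral_convolution _ hw.abs hφ]
    simp [φ.integral_normed]

/-- Mollifications converge in mean. -/
theorem exists_mol_l1 {w : E → ℝ} (hw : Integrable w) {η : ℝ} (hη : 0 < η) :
    ∃ δ > 0, ∀ φ : ContDiffBump (0 : E), φ.rOut ≤ δ →
      Integrable (mol φ w) ∧ ∫ x, |w x - mol φ w x| ≤ η := by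
  obtain ⟨h, hhc, hwh, hhcont, hhint⟩ :=
    hw.exists_hasCompactSupport_integral_sub_le (show 0 < η / 3 by positivity)
  simp only [Real.norm_eq_abs] at hwh
  set S : Set E := cthickening 1 (tsupport h) with hS
  have hSc : IsCompact S := hhc.isCompact.cthickening
  set m : ℝ := volume.real S with hm
  have hm0 : 0 ≤ m := measureReal_nonneg
  set c : ℝ := η / (3 * (m + 1)) with hc
  have hc0 : 0 < c := by positivity
  obtain ⟨δ, hδ, hu⟩ := Metric.uniformContinuous_iff.1
    (hhc.uniformContinuous_of_continuous hhcont) c hc0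
  refine ⟨min δ 1, lt_min hδ one_pos, fun φ hφ => ⟨(integral_abs_mol_le φ hw).1, ?_⟩⟩
  have hd : Integrable (fun x => w x - h x) := hw.sub hhint
  have hpt : ∀ x, |w x - mol φ w x| ≤
      |w x - h x| + S.indicator (fun _ => c) x + |mol φ (fun t => w t - h t) x| := by
    intro x
    have hsplit : mol φ w x = mol φ h x + mol φ (fun t => w t - h t) x := by
      rw [mol_apply, mol_apply, mol_apply, ← integral_add
        (integrable_mol_integrand φ hhint.locallyIntegrable x)
        (integrable_mol_integrand φ hd.locallyIntegrable x)]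
      exact integral_congr_ae (ae_of_all _ fun t => by ring)
    have hh : |mol φ h x - h x| ≤ S.indicator (fun _ => c) x := by
      by_cases hx : x ∈ S
      · rw [Set.indicator_of_mem hx, mol_eq_left, ← Real.dist_eq]
        exact φ.dist_normed_convolution_le hhcont.aestronglyMeasurable fun y hy =>
          (hu (lt_of_lt_of_le hy (hφ.trans (min_le_left _ _)))).le
      · rw [Set.indicator_of_notMem hx]
        have h0 : h x = 0 := image_eq_zero_of_notMem_tsupport fun hxs =>
          hx (self_subset_cthickening _ hxs)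
        rw [mol_eq_left, ← Real.dist_eq]
        refine φ.dist_normed_convolution_le hhcont.aestronglyMeasurable fun y hy => ?_
        have hy0 : h y = 0 := image_eq_zero_of_notMem_tsupport fun hys =>
          hx (mem_cthickening_of_dist_le x y 1 _ hys
            (by rw [dist_comm]; exact (le_of_lt hy).trans (hφ.trans (min_le_right _ _))))
        simp [h0, hy0]
    rw [hsplit]
    have h1 := abs_le.1 hh
    have h2 := abs_le.1 (le_refl |w x - h x|)
    have h3 := abs_le.1 (le_refl |mol φ (fun t => w t - h t) x|)
    exact abs_le.2 ⟨by linarith [h1.1, h1.2, h2.1, h2.2, h3.1, h3.2],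
      by linarith [h1.1, h1.2, h2.1, h2.2, h3.1, h3.2]⟩
  have hi1 : Integrable (S.indicator fun _ => c) :=
    (integrableOn_const (hs := hSc.measure_lt_top.ne)).integrable_indicator hSc.measurableSet
  have hi2 := integral_abs_mol_le φ hd
  calc ∫ x, |w x - mol φ w x|
      ≤ ∫ x, (|w x - h x| + S.indicator (fun _ => c) x + |mol φ (fun t => w t - h t) x|) :=
        integral_mono (hw.sub (integral_abs_mol_le φ hw).1).abs ((hd.abs.add hi1).add hi2.1.abs) hpt
    _ = (∫ x, |w x - h x|) + m * c + ∫ x, |mol φ (fun t => w t - h t) x| := by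
        rw [integral_add (f := fun x => |w x - h x| + S.indicator (fun _ => c) x)
          (hd.abs.add hi1) hi2.1.abs, integral_add hd.abs hi1, integral_indicator hSc.measurableSet,
          setIntegral_const]
        rfl
    _ ≤ η / 3 + η / 3 + η / 3 := by
        refine add_le_add (add_le_add hwh ?_) (hi2.2.trans hwh)
        rw [hc, mul_div_assoc', div_le_div_iff₀ (by positivity) (by norm_num)]
        nlinarith
    _ = η := by ring

theorem mol_congr (φ : ContDiffBump (0 : E)) {u w : E → ℝ} {x : E}
    (h : ∀ y ∈ closedBall x φ.rOut, u y = w y) : mol φ u x = mol φ w x := by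
  rw [mol_apply, mol_apply]
  refine integral_congr_ae (ae_of_all _ fun t => ?_)
  by_cases ht : φ.normed volume (x - t) = 0
  · simp [ht]
  · show u t * _ = w t * _
    have h1 : x - t ∈ Function.support (φ.normed volume) := ht
    rw [φ.support_normed_eq, mem_ball_zero_iff] at h1
    rw [h t (by rw [mem_closedBall, dist_eq_norm, norm_sub_rev]; exact h1.le)]

theorem contDiff_mol (φ : ContDiffBump (0 : E)) {w : E → ℝ} (hw : LocallyIntegrable w volume) :
    ContDiff ℝ ∞ (mol φ w) :=
  (φ.hasCompactSupport_normed (μ := volume)).contDiff_convolution_right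
    (ContinuousLinearMap.lsmul ℝ ℝ) hw (φ.contDiff_normed (μ := volume))

theorem integrable_mul_pd_comp_sub (φ : ContDiffBump (0 : E)) {w : E → ℝ}
    (hw : LocallyIntegrable w volume) (i : Fin 4) (x : E) :
    Integrable fun t => w t * pd i (φ.normed volume) (x - t) :=
  (hasCompactSupport_pd (φ.hasCompactSupport_normed (μ := volume)) i).convolutionExists_right
    (ContinuousLinearMap.lsmul ℝ ℝ) hw
    (contDiff_pd (φ.contDiff_normed (μ := volume)) i).continuous x

theorem pd_mol (φ : ContDiffBump (0 : E)) {w : E → ℝ} (hw : LocallyIntegrable w volume)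
    (i : Fin 4) (x : E) :
    pd i (mol φ w) x = ∫ t, w t * pd i (φ.normed volume) (x - t) := by
  have hc : HasCompactSupport (φ.normed (volume : Measure E)) := φ.hasCompactSupport_normed
  have h1 : ContDiff ℝ 1 (φ.normed (volume : Measure E)) :=
    (φ.contDiff_normed (μ := volume) (n := 1))
  show fderiv ℝ _ x (e i) = _
  rw [mol, (hc.hasFDerivAt_convolution_right _ hw h1 x).fderiv,
    convolution_precompR_apply _ hw (hc.fderiv ℝ) (h1.continuous_fderiv one_ne_zero)]
  rfl

/-- On compact subsets, a weakly closed field is approximated in mean by smooth closed ones. -/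
theorem exists_closed_approx {V L : Set E} (hV : IsOpen V) (hL : IsCompact L) (hLV : L ⊆ V)
    {u : E → M} (hu : IsL2Field volume u) (hus : ∀ x, (u x)ᵀ = -u x)
    (hclosed : ∀ φ, IsTest V φ → ∀ i j k,
      ∫ x, u x j k * pd i φ x + u x k i * pd j φ x + u x i j * pd k φ x = 0) {η : ℝ} (hη : 0 < η) :
    ∃ g : E → M, ∃ Vg : Set E, IsOpen Vg ∧ L ⊆ Vg ∧ IsL2Field volume g ∧
      (∀ a b, ContDiff ℝ ∞ fun x => g x a b) ∧ (∀ x, (g x)ᵀ = -g x) ∧
      (∀ x ∈ Vg, ∀ i j k, Mfd.cyc g x i j k = 0) ∧
      ∫ x in L, nrm1 (u x - g x) ≤ η := by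
  obtain ⟨L₂, hL₂, hLL₂, hL₂V⟩ := exists_compact_between hL hV hLV
  obtain ⟨χ, hχ, -, U₁, hU₁, hLU₁, -, hχ1⟩ := exists_cutoff hV hL hLV
  obtain ⟨δ₀, hδ₀, hδ₀V⟩ := hL₂.exists_cthickening_subset_open hV hL₂V
  have hL₃ : IsCompact (cthickening δ₀ L₂) := hL₂.cthickening
  have hloc : ∀ a b, LocallyIntegrable (fun x => u x a b) volume := fun a b =>
    (hu a b).locallyIntegrable (by norm_num)
  have hw : ∀ a b, Integrable ((cthickening δ₀ L₂).indicator fun x => u x a b) := fun a b =>
    ((hloc a b).integrableOn_isCompact hL₃).integrable_indicator hL₃.measurableSet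
  choose δ hδ hmol using fun p : Fin 4 × Fin 4 =>
    exists_mol_l1 (hw p.1 p.2) (show 0 < η / 16 by positivity)
  obtain ⟨δ₁, hδ₁, hle⟩ : ∃ d > 0, d ≤ δ₀ ∧ ∀ p, d ≤ δ p :=
    ⟨min δ₀ (Finset.univ.inf' Finset.univ_nonempty δ),
      lt_min hδ₀ ((Finset.lt_inf'_iff _).2 fun p _ => hδ p), min_le_left _ _,
      fun p => (min_le_right _ _).trans (Finset.inf'_le _ (Finset.mem_univ p))⟩
  let φ : ContDiffBump (0 : E) := ⟨δ₁ / 2, δ₁, half_pos hδ₁, half_lt_self hδ₁⟩
  have hball : ∀ x ∈ L₂, closedBall x φ.rOut ⊆ cthickening δ₀ L₂ := fun x hx =>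
    (closedBall_subset_closedBall hle.1).trans (closedBall_subset_cthickening hx δ₀)
  let g : E → M := fun x => Matrix.of fun a b => χ x * mol φ (fun t => u t a b) x
  have hgs : ∀ a b, ContDiff ℝ ∞ fun x => g x a b := fun a b =>
    hχ.smooth.mul (contDiff_mol φ (hloc a b))
  have hskew : ∀ x, (g x)ᵀ = -g x := fun x => by
    ext a b
    simp only [g, Matrix.transpose_apply, Matrix.of_apply, Matrix.neg_apply, mol_apply]
    rw [← mul_neg, ← integral_neg]
    refine congrArg _ (integral_congr_ae (ae_of_all _ fun t => ?_))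
    simp only [skew_apply (hus t) a b, neg_mul]
  refine ⟨g, U₁ ∩ interior L₂, hU₁.inter isOpen_interior, subset_inter hLU₁ hLL₂,
    fun a b => (hgs a b).continuous.memLp_of_hasCompactSupport hχ.compact.mul_right, hgs, hskew,
    fun x hx i j k => ?_, ?_⟩
  · rw [Mfd.cyc_congr (v := fun x => Matrix.of fun a b => mol φ (fun t => u t a b) x) (by
      filter_upwards [hU₁.mem_nhds hx.1] with y hy
      simp [g, hχ1 y hy])]
    simp only [Mfd.cyc, Matrix.of_apply]
    rw [pd_mol φ (hloc j k), pd_mol φ (hloc k i), pd_mol φ (hloc i j),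
      ← integral_add (integrable_mul_pd_comp_sub φ (hloc j k) i x)
        (integrable_mul_pd_comp_sub φ (hloc k i) j x),
      ← integral_add (f := fun t => u t j k * pd i (φ.normed volume) (x - t)
          + u t k i * pd j (φ.normed volume) (x - t))
        ((integrable_mul_pd_comp_sub φ (hloc j k) i x).add
        (integrable_mul_pd_comp_sub φ (hloc k i) j x))
        (integrable_mul_pd_comp_sub φ (hloc i j) k x)]
    set ψ : E → ℝ := fun t => φ.normed volume (x - t) with hψ
    have hψd : ∀ a t, pd a ψ t = -pd a (φ.normed volume) (x - t) := by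
      intro a t
      have hd : HasFDerivAt ψ ((fderiv ℝ (φ.normed (volume : Measure E)) (x - t)).comp
          (-ContinuousLinearMap.id ℝ E)) t :=
        (((φ.contDiff_normed (μ := volume) (n := 1)).differentiable one_ne_zero _).hasFDerivAt).comp
          t ((hasFDerivAt_id t).const_sub x)
      simp [pd, hd.fderiv]
    have hψs : tsupport ψ ⊆ closedBall x φ.rOut := by
      refine closure_minimal (fun t ht => ?_) isClosed_closedBall
      have h1 : x - t ∈ Function.support (φ.normed volume) := ht
      rw [φ.support_normed_eq, mem_ball_zero_iff] at h1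
      rw [mem_closedBall, dist_eq_norm, norm_sub_rev]
      exact h1.le
    have hψt : IsTest V ψ := ⟨(φ.contDiff_normed (μ := volume)).comp
      (contDiff_const.sub contDiff_id),
      (isCompact_closedBall x φ.rOut).of_isClosed_subset (isClosed_tsupport _) hψs,
      hψs.trans ((hball x (interior_subset hx.2)).trans hδ₀V)⟩
    rw [← neg_eq_zero, ← integral_neg, ← hclosed ψ hψt i j k]
    refine integral_congr_ae (ae_of_all _ fun t => ?_)
    simp only [hψd]
    ring
  · have hI : ∀ a b, IntegrableOn (fun x => |u x a b - g x a b|) L := fun a b =>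
      (((hloc a b).integrableOn_isCompact hL).sub
        ((hgs a b).continuous.continuousOn.integrableOn_compact hL)).abs
    simp only [nrm1, Matrix.sub_apply]
    rw [integral_finsetSum _ fun a _ => integrable_finsetSum _ fun b _ => hI a b]
    refine (Finset.sum_le_sum (g := fun _ => η / 4) fun a _ => ?_).trans_eq (by simp; ring)
    rw [integral_finsetSum _ fun b _ => hI a b]
    refine (Finset.sum_le_sum (g := fun _ => η / 16) fun b _ => ?_).trans_eq (by simp; ring)
    obtain ⟨hmi, hml⟩ := hmol (a, b) φ (hle.2 (a, b))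
    refine le_trans (le_of_eq (setIntegral_congr_fun hL.measurableSet fun x hx => ?_))
      ((setIntegral_le_integral ((hw a b).sub hmi).abs
        (ae_of_all _ fun x => abs_nonneg _)).trans hml)
    have hx₂ : x ∈ L₂ := interior_subset (hLL₂ hx)
    simp only [g, Matrix.of_apply, hχ1 x (hLU₁ hx), one_mul]
    rw [mol_congr φ (w := (cthickening δ₀ L₂).indicator fun t => u t a b) fun y hy =>
      (Set.indicator_of_mem (hball x hx₂ hy) (fun t => u t a b)).symm,
      Pi.sub_apply, Set.indicator_of_mem (self_subset_cthickening _ hx₂)]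

end Vale.Agent.P204.Tame
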