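import Vale.Agent.P204.Tame.Loc.TDef

/-!
Statement of the closedness of averaged pullbacks of weakly closed fields.
-/

namespace Vale.Agent.P204.Tame

open scoped ContDiff Matrix
open MeasureTheory Metric Set

/-- Module ClosedSmear: the averaged pullback of a weakly closed field is closed. -/
def ClosedSmear : Prop :=
  ∀ (n : ℕ) (U : Set E) (σ : (Fin n → ℝ) → E → E), IsSmoother U σ →
    ∀ ρ : (Fin n → ℝ) → ℝ, IsWeight ρ → ∀ K ⊆ U, IsCompact K →
      ∀ K' ⊆ U, IsCompact K' → K ⊆ interior K' → ∃ ε₀ > 0, ∀ ε ∈ Ioc (0 : ℝ) ε₀, ∀ u : E → M,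
        IsL2Field volume u → (∀ x, (u x)ᵀ = -u x) →
        (∀ φ, IsTest (interior K') φ → ∀ i j k,
          ∫ x, u x j k * pd i φ x + u x k i * pd j φ x + u x i j * pd k φ x = 0) →
        ∀ y ∈ interior K, ∀ i j k,
          pd i (fun x => smL σ ρ ε u x j k) y + pd j (fun x => smL σ ρ ε u x k i) y
            + pd k (fun x => smL σ ρ ε u x i j) y = 0

end Vale.Agent.P204.Tame
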