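import Mathlib

/-!
Representation of a bounded functional on square integrable functions by a square integrable
function.
-/

namespace Vale.Agent.P204.Tame

open MeasureTheory

variable {α : Type*} [MeasurableSpace α] {m : Measure α}

theorem exists_l2_rep (ℓ : (α → ℝ) → ℝ)
    (hadd : ∀ f g, MemLp f 2 m → MemLp g 2 m → ℓ (f + g) = ℓ f + ℓ g)
    (hsmul : ∀ (r : ℝ) f, MemLp f 2 m → ℓ (r • f) = r * ℓ f) {C : ℝ}
    (hbd : ∀ f, MemLp f 2 m → |ℓ f| ≤ C * Real.sqrt (∫ x, f x ^ 2 ∂m)) :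
    ∃ t, MemLp t 2 m ∧ (∀ f, MemLp f 2 m → ℓ f = ∫ x, t x * f x ∂m) ∧
      Real.sqrt (∫ x, t x ^ 2 ∂m) ≤ max C 0 := by
  have hcongr : ∀ f g, MemLp f 2 m → MemLp g 2 m → f =ᵐ[m] g → ℓ f = ℓ g := fun f g hf hg h => by
    have h0 : ℓ (f - g) = 0 := by
      have hz : ∫ x, (f - g) x ^ 2 ∂m = 0 := by
        refine integral_eq_zero_of_ae ?_
        filter_upwards [h] with x hx
        simp [hx]
      have := hbd _ (hf.sub hg)
      rw [hz, Real.sqrt_zero, mul_zero] at this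
      exact abs_nonpos_iff.1 this
    have := hadd _ _ (hf.sub hg) hg
    rw [sub_add_cancel, h0, zero_add] at this
    exact this
  let L : Lp ℝ 2 m →ₗ[ℝ] ℝ :=
    { toFun := fun F => ℓ F
      map_add' := fun F G => by
        rw [← hadd _ _ (Lp.memLp F) (Lp.memLp G)]
        exact hcongr _ _ (Lp.memLp _) ((Lp.memLp F).add (Lp.memLp G)) (Lp.coeFn_add F G)
      map_smul' := fun r F => by
        rw [RingHom.id_apply, smul_eq_mul, ← hsmul _ _ (Lp.memLp F)]
        exact hcongr _ _ (Lp.memLp _) ((Lp.memLp F).const_smul r) (Lp.coeFn_smul r F) }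
  have hnorm : ∀ F : Lp ℝ 2 m, Real.sqrt (∫ x, F x ^ 2 ∂m) = ‖F‖ := fun F => by
    rw [← Real.sqrt_sq (norm_nonneg F), ← real_inner_self_eq_norm_sq, L2.inner_def]
    simp [sq]
  let Lc : Lp ℝ 2 m →L[ℝ] ℝ := L.mkContinuous (max C 0) fun F => by
    refine (hbd _ (Lp.memLp F)).trans ?_
    rw [hnorm]
    exact mul_le_mul_of_nonneg_right (le_max_left _ _) (norm_nonneg _)
  let T : Lp ℝ 2 m := (InnerProductSpace.toDual ℝ (Lp ℝ 2 m)).symm Lc
  refine ⟨T, Lp.memLp T, fun f hf => ?_, ?_⟩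
  · have h1 : inner ℝ T (hf.toLp f) = Lc (hf.toLp f) := InnerProductSpace.toDual_symm_apply
    have h2 : Lc (hf.toLp f) = ℓ f :=
      hcongr _ _ (Lp.memLp _) hf hf.coeFn_toLp
    rw [← h2, ← h1, L2.inner_def]
    refine integral_congr_ae ?_
    filter_upwards [hf.coeFn_toLp] with x hx
    simp [hx, mul_comm]
  · rw [hnorm, LinearIsometryEquiv.norm_map]
    exact L.mkContinuous_norm_le (le_max_right _ _) _

end Vale.Agent.P204.Tame
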