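import Vale.Agent.P204.Tame.Loc.Alg
import Vale.Agent.P204.Tame.Loc.Riesz

/-!
Representation of a bounded functional on fields of two-forms through the wedge pairing.
-/

namespace Vale.Agent.P204.Tame

open scoped Matrix
open MeasureTheory Set

/-- The single coefficient field. -/
def single2 (c d : Fin 4) (f : E → ℝ) (x : E) : M :=
  Matrix.of fun i j => if i = c ∧ j = d then f x else 0

/-- A field whose coefficients are square integrable. -/
def IsL2Field (m : Measure E) (a : E → M) : Prop := ∀ i j, MemLp (fun x => a x i j) 2 m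

theorem isL2Field_single {m : Measure E} (c d : Fin 4) {f : E → ℝ} (hf : MemLp f 2 m) :
    IsL2Field m (single2 c d f) := fun i j => by
  by_cases h : i = c ∧ j = d
  · simpa [single2, h] using hf
  · simp [single2, h]

theorem IsL2Field.add {m : Measure E} {a b : E → M} (ha : IsL2Field m a) (hb : IsL2Field m b) :
    IsL2Field m (a + b) := fun i j => (ha i j).add (hb i j)

theorem IsL2Field.sum {m : Measure E} {ι : Type*} (s : Finset ι) {a : ι → E → M}
    (ha : ∀ k ∈ s, IsL2Field m (a k)) : IsL2Field m (∑ k ∈ s, a k) := by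
  classical
  induction s using Finset.induction with
  | empty => exact fun i j => by simp
  | insert k s hk ih =>
    rw [Finset.sum_insert hk]
    exact (ha k (Finset.mem_insert_self _ _)).add (ih fun l hl => ha l (Finset.mem_insert_of_mem hl))

theorem sum_single2 (a : E → M) :
    (∑ cd : Fin 4 × Fin 4, single2 cd.1 cd.2 fun x => a x cd.1 cd.2) = a := by
  funext x
  ext i j
  simp only [Finset.sum_apply, Matrix.sum_apply, single2, Matrix.of_apply]
  rw [Fintype.sum_eq_single (i, j) fun cd hcd => if_neg fun h => hcd (Prod.ext h.1.symm h.2.symm)]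
  simp

theorem pfq_starF_of_skew {a r : M} (ha : aᵀ = -a) :
    pfq (starF (r - rᵀ)) a = ∑ i, ∑ j, r i j * a i j := by
  rw [eq_skew6 ha]
  simp [pfq, starF, skew6, Fin.sum_univ_four, Matrix.transpose_apply]
  ring

/-- A bounded functional on fields is the pairing with a field. -/
theorem exists_field_rep {m : Measure E} {J : E → M}
    (hJ : Measurable fun x => sgnJ (J x)) (hn : ∀ᵐ x ∂m, pfq (wmat (J x)) (wmat (J x)) ≠ 0)
    (L : (E → M) → ℝ)
    (hadd : ∀ a b, IsL2Field m a → IsL2Field m b → L (a + b) = L a + L b)
    (hsmul : ∀ (r : ℝ) a, IsL2Field m a → L (r • a) = r * L a) {C : ℝ}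
    (hbd : ∀ a, IsL2Field m a → |L a| ≤ C * ∑ i, ∑ j, Real.sqrt (∫ x, a x i j ^ 2 ∂m)) :
    ∃ t : E → M, IsL2Field m t ∧ (∀ x, (t x)ᵀ = -t x) ∧
      (∀ a, IsL2Field m a → (∀ x, (a x)ᵀ = -a x) →
        L a = ∫ x, wd (J x) (t x) (a x) ∂m) ∧
      (∀ i j, Real.sqrt (∫ x, t x i j ^ 2 ∂m) ≤ 2 * max C 0) ∧
      (∀ k : E → ℝ, (∀ᵐ x ∂m, 0 ≤ k x) → MemLp k 2 m →
        (∀ a, IsL2Field m a → |L a| ≤ ∫ x, nrm1 (a x) * k x ∂m) → SFinite m →
        ∀ᵐ x ∂m, nrm1 (t x) ≤ 32 * k x) := by
  have hs0 : ∀ c d f g, MemLp f 2 m → MemLp g 2 m →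
      L (single2 c d (f + g)) = L (single2 c d f) + L (single2 c d g) := fun c d f g hf hg => by
    rw [← hadd _ _ (isL2Field_single c d hf) (isL2Field_single c d hg)]
    congr 1
    funext x
    ext i j
    simp only [single2, Pi.add_apply, Matrix.add_apply, Matrix.of_apply]
    split_ifs <;> simp
  have hs1 : ∀ c d (r : ℝ) f, MemLp f 2 m →
      L (single2 c d (r • f)) = r * L (single2 c d f) := fun c d r f hf => by
    rw [← hsmul _ _ (isL2Field_single c d hf)]
    congr 1
    funext x
    ext i j
    simp only [single2, Pi.smul_apply, Matrix.smul_apply, Matrix.of_apply, smul_eq_mul]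
    split_ifs <;> simp
  have hs2 : ∀ c d f, MemLp f 2 m →
      |L (single2 c d f)| ≤ C * Real.sqrt (∫ x, f x ^ 2 ∂m) := fun c d f hf => by
    refine (hbd _ (isL2Field_single c d hf)).trans_eq ?_
    congr 1
    rw [Fintype.sum_eq_single c, Fintype.sum_eq_single d]
    · simp [single2]
    · intro j hj; simp [single2, hj]
    · intro i hi; simp [single2, hi]
  choose r hr hrep hrb using fun c d =>
    exists_l2_rep (fun f => L (single2 c d f)) (hs0 c d) (hs1 c d) (hs2 c d)
  set t : E → M := fun x => sgnJ (J x) •
    starF (Matrix.of (fun c d => r c d x) - (Matrix.of fun c d => r c d x)ᵀ) with ht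
  have habs : ∀ x, |sgnJ (J x)| ≤ 1 := fun x => by
    rcases Real.sign_apply_eq (pfq (wmat (J x)) (wmat (J x))) with h | h | h <;>
      simp [sgnJ, h]
  have htij : ∀ i j, ∃ c d c' d' : Fin 4, ∀ x, |t x i j| ≤ |r c d x| + |r c' d' x| := by
    intro i j
    have key : ∃ c d : Fin 4, ∀ b : M, |starF b i j| ≤ |b c d| := by
      fin_cases i <;> fin_cases j
      all_goals first
        | (refine ⟨2, 3, fun b => ?_⟩; simp [starF, skew6]; done)
        | (refine ⟨1, 3, fun b => ?_⟩; simp [starF, skew6]; done)
        | (refine ⟨1, 2, fun b => ?_⟩; simp [starF, skew6]; done)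
        | (refine ⟨0, 3, fun b => ?_⟩; simp [starF, skew6]; done)
        | (refine ⟨0, 2, fun b => ?_⟩; simp [starF, skew6]; done)
        | (refine ⟨0, 1, fun b => ?_⟩; simp [starF, skew6]; done)
    obtain ⟨c, d, hcd⟩ := key
    refine ⟨c, d, d, c, fun x => ?_⟩
    rw [ht]
    simp only [Matrix.smul_apply, smul_eq_mul, abs_mul]
    calc |sgnJ (J x)| * |_| ≤ 1 * |_| := mul_le_mul (habs x) (hcd _) (abs_nonneg _) zero_le_one
      _ ≤ _ := by
        rw [one_mul]
        simp only [Matrix.sub_apply, Matrix.of_apply, Matrix.transpose_apply]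
        exact abs_sub _ _
  have htm : ∀ i j, AEStronglyMeasurable (fun x => t x i j) m := fun i j => by
    have hb : ∀ c d, AEStronglyMeasurable
        (fun x => (Matrix.of (fun c d => r c d x) - (Matrix.of fun c d => r c d x)ᵀ) c d) m :=
      fun c d => (hr c d).1.sub (hr d c).1
    have h2 : AEStronglyMeasurable (fun x =>
        starF (Matrix.of (fun c d => r c d x) - (Matrix.of fun c d => r c d x)ᵀ) i j) m := by
      fin_cases i <;> fin_cases j <;> simp [starF, skew6] <;>
        first
          | exact (hr _ _).1.sub (hr _ _).1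
          | exact aestronglyMeasurable_const
    exact hJ.aestronglyMeasurable.mul h2
  have ht2 : IsL2Field m t := fun i j => by
    obtain ⟨c, d, c', d', h⟩ := htij i j
    exact ((hr c d).norm.add (hr c' d').norm).of_le (htm i j)
      (Filter.Eventually.of_forall fun x => (h x).trans (le_abs_self _))
  refine ⟨t, ht2, fun x => by rw [ht]; simp [starF_skew], fun a ha hask => ?_, fun i j => ?_,
    fun k hk0 hk hkb hm => ?_⟩
  · have hint : ∀ c d, Integrable (fun x => r c d x * a x c d) m := fun c d =>
      (hr c d).integrable_mul (ha c d)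
    have hL : L a = ∑ cd : Fin 4 × Fin 4, ∫ x, r cd.1 cd.2 x * a x cd.1 cd.2 ∂m := by
      have h0 : L 0 = 0 := by
        have := hsmul 0 0 (fun i j => by simp)
        simpa using this
      have hsum : ∀ s : Finset (Fin 4 × Fin 4),
          L (∑ cd ∈ s, single2 cd.1 cd.2 fun x => a x cd.1 cd.2)
            = ∑ cd ∈ s, L (single2 cd.1 cd.2 fun x => a x cd.1 cd.2) := by
        intro s
        classical
        induction s using Finset.induction with
        | empty => simpa using h0
        | insert cd s hcd ih =>
          rw [Finset.sum_insert hcd, Finset.sum_insert hcd, ← ih,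
            hadd _ _ (isL2Field_single _ _ (ha _ _))
              (IsL2Field.sum s fun l _ => isL2Field_single _ _ (ha _ _))]
      conv_lhs => rw [← sum_single2 a]
      rw [hsum]
      exact Finset.sum_congr rfl fun cd _ => hrep cd.1 cd.2 _ (ha _ _)
    rw [hL, ← integral_finsetSum _ fun cd _ => hint cd.1 cd.2]
    refine integral_congr_ae ?_
    filter_upwards [hn] with x hx
    rw [ht, wd, pfq_smul_left, ← mul_assoc, sgnJ_sq hx, one_mul, pfq_starF_of_skew (hask x),
      Fintype.sum_prod_type]
    rfl
  · obtain ⟨c, d, c', d', h⟩ := htij i j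
    have hi : ∀ p q, Integrable (fun x => r p q x ^ 2) m := fun p q => (hr p q).integrable_sq
    have hR : ∀ p q, ∫ x, r p q x ^ 2 ∂m ≤ max C 0 ^ 2 := fun p q =>
      (Real.sqrt_le_left (le_max_right _ _)).1 (hrb p q)
    rw [Real.sqrt_le_left (by positivity)]
    calc ∫ x, t x i j ^ 2 ∂m ≤ ∫ x, 2 * r c d x ^ 2 + 2 * r c' d' x ^ 2 ∂m := by
          refine integral_mono (ht2 i j).integrable_sq (((hi c d).const_mul 2).add
            ((hi c' d').const_mul 2)) fun x => ?_
          have h1 := h x
          nlinarith [sq_abs (t x i j), sq_abs (r c d x), sq_abs (r c' d' x), abs_nonneg (t x i j),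
            sq_nonneg (|r c d x| - |r c' d' x|), abs_nonneg (r c d x), abs_nonneg (r c' d' x)]
      _ = 2 * ∫ x, r c d x ^ 2 ∂m + 2 * ∫ x, r c' d' x ^ 2 ∂m := by
          rw [integral_add ((hi c d).const_mul 2) ((hi c' d').const_mul 2), integral_const_mul,
            integral_const_mul]
      _ ≤ _ := by linarith [hR c d, hR c' d']
  · have hrk : ∀ c d, ∀ᵐ x ∂m, |r c d x| ≤ k x := by
      intro c d
      have key : ∀ (s : ℝ), |s| = 1 → ∀ᵐ x ∂m, s * r c d x ≤ k x := by
        intro s hs
        set T := {x | k x < s * r c d x} with hT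
        have hTm : NullMeasurableSet T m :=
          nullMeasurableSet_lt hk.1.aemeasurable ((hr c d).1.aemeasurable.const_mul s)
        set f : E → ℝ := T.indicator fun x => s * r c d x - k x with hf'
        have hf : MemLp f 2 m := by
          have : MemLp (fun x => s * r c d x - k x) 2 m := ((hr c d).const_mul s).sub hk
          exact this.of_le (this.1.indicator₀ hTm)
            (Filter.Eventually.of_forall fun x => norm_indicator_le_norm_self _ x)
        have hf0 : ∀ x, 0 ≤ f x := fun x => by
          by_cases hx : x ∈ T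
          · rw [hf', Set.indicator_of_mem hx]; linarith [show k x < s * r c d x from hx]
          · rw [hf', Set.indicator_of_notMem hx]
        have h1 := hkb _ (isL2Field_single c d hf)
        rw [hrep c d f hf] at h1
        have hn1 : ∀ x, nrm1 (single2 c d f x) = f x := fun x => by
          simp only [nrm1, single2, Matrix.of_apply]
          rw [Fintype.sum_eq_single c, Fintype.sum_eq_single d]
          · simp [abs_of_nonneg (hf0 x)]
          · intro j hj; simp [hj]
          · intro i hi; simp [hi]
        simp only [hn1] at h1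
        have hi1 : Integrable (fun x => s * (r c d x * f x)) m :=
          ((hr c d).integrable_mul hf).const_mul s
        have hi2 : Integrable (fun x => f x * k x) m := hf.integrable_mul hk
        have h2 : ∫ x, f x ^ 2 ∂m ≤ 0 := by
          have h3 : ∫ x, f x ^ 2 ∂m
              = ∫ x, s * (r c d x * f x) ∂m - ∫ x, f x * k x ∂m := by
            rw [← integral_sub hi1 hi2]
            refine integral_congr_ae (Filter.Eventually.of_forall fun x => ?_)
            by_cases hx : x ∈ T
            · simp only [hf', Set.indicator_of_mem hx]; ring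
            · simp [hf', Set.indicator_of_notMem hx]
          rw [h3, integral_const_mul]
          have := abs_le.1 h1
          rcases (abs_eq (zero_le_one : (0:ℝ) ≤ 1)).1 hs with rfl | rfl <;> linarith [this.1, this.2]
        have h4 := (integral_eq_zero_iff_of_nonneg (fun x => sq_nonneg (f x)) hf.integrable_sq).1
          (le_antisymm h2 (integral_nonneg fun x => sq_nonneg _))
        filter_upwards [h4] with x hx
        by_contra hc
        have hxT : x ∈ T := not_le.1 hc
        simp [hf', Set.indicator_of_mem hxT] at hx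
        linarith [show k x < s * r c d x from hxT]
      filter_upwards [key 1 (by simp), key (-1) (by simp)] with x h1 h2
      exact abs_le.2 ⟨by linarith, by linarith⟩
    filter_upwards [ae_all_iff.2 fun c => ae_all_iff.2 (hrk c)] with x hx
    calc nrm1 (t x) ≤ ∑ _i : Fin 4, ∑ _j : Fin 4, 2 * k x :=
          Finset.sum_le_sum fun i _ => Finset.sum_le_sum fun j _ => by
            obtain ⟨c, d, c', d', h⟩ := htij i j
            linarith [h x, hx c d, hx c' d']
      _ = 32 * k x := by simp; ring

end Vale.Agent.P204.Tame
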