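import Vale.Agent.P204.Tame.Loc.KerLin
import Vale.Agent.P204.Tame.Loc.Field

/-!
The averaged pullback of a field of two-forms: bound, linearity, and evaluation of linear forms.
-/

namespace Vale.Agent.P204.Tame

open scoped ContDiff Matrix ENNReal
open MeasureTheory Metric Set

variable {n : ℕ}

theorem exists_smL_facts (hF : SmootherFibre) {U : Set E} {σ : (Fin n → ℝ) → E → E}
    (hσ : IsSmoother U σ) {ρ : (Fin n → ℝ) → ℝ} (hρ : IsWeight ρ) {K : Set E} (hKU : K ⊆ U)
    (hK : IsCompact K) :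
    ∃ C : ℝ, 0 ≤ C ∧ ∃ ε₀ > 0, ∀ ε ∈ Ioc (0 : ℝ) ε₀, ∀ y ∈ K,
      (∀ a, IsL2Field volume a →
        nrm1 (smL σ ρ ε a y) ≤ C * (ε ^ 4)⁻¹ * ∫ x in closedBall y (C * ε), nrm1 (a x)) ∧
      (∀ a b, IsL2Field volume a → IsL2Field volume b →
        smL σ ρ ε (a + b) y = smL σ ρ ε a y + smL σ ρ ε b y) ∧
      (∀ (r : ℝ) a, smL σ ρ ε (r • a) y = r • smL σ ρ ε a y) ∧
      (∀ a, IsL2Field volume a → ∀ c : Fin 4 → Fin 4 → ℝ,
        Integrable (fun v => ρ (ε⁻¹ • v) * ∑ i, ∑ j, c i j * pullV σ v a y i j) ∧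
        ∑ i, ∑ j, c i j * smL σ ρ ε a y i j
          = (ε ^ n)⁻¹ * ∫ v, ρ (ε⁻¹ • v) * ∑ i, ∑ j, c i j * pullV σ v a y i j) := by
  obtain ⟨W, hW, hW0, hWσ⟩ := hσ.smooth
  have hq : ∀ a b c d, ContDiffOn ℝ ∞ (fun z => pullCoef σ a b c d z.1 z.2) W := fun a b c d =>
    (contDiffOn_jacV hW hWσ c a).mul (contDiffOn_jacV hW hWσ d b)
  have h0 : ({0} : Set (Fin n → ℝ)) ×ˢ K ⊆ W := (prod_mono subset_rfl hKU).trans hW0
  choose C hC ε₁ hε₁ hfacts using fun k : Fin 4 × Fin 4 × Fin 4 × Fin 4 =>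
    exists_kerOp_facts hF hσ hρ hKU hK hW h0 (hq k.1 k.2.1 k.2.2.1 k.2.2.2)
  obtain ⟨ε₀, hε₀, hle⟩ : ∃ ε₀ > 0, ∀ k, ε₀ ≤ ε₁ k :=
    ⟨Finset.univ.inf' Finset.univ_nonempty ε₁, (Finset.lt_inf'_iff _).2 fun k _ => hε₁ k,
      fun k => Finset.inf'_le _ (Finset.mem_univ k)⟩
  set C₀ := ∑ k, C k with hC₀
  have hC0 : 0 ≤ C₀ := Finset.sum_nonneg fun k _ => hC k
  have hCk : ∀ k, C k ≤ C₀ := fun k =>
    Finset.single_le_sum (fun k _ => hC k) (Finset.mem_univ k)
  refine ⟨256 * C₀ + C₀, add_nonneg (mul_nonneg (by norm_num) hC0) hC0, ε₀, hε₀,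
    fun ε hε y hy => ?_⟩
  have hf := fun k => hfacts k ε ⟨hε.1, hε.2.trans (hle k)⟩ y hy
  have hterm : ∀ a, IsL2Field volume a → ∀ i j c d,
      Integrable (fun v => ρ (ε⁻¹ • v) * (pullCoef σ i j c d v y * a (σ v y) c d)) := by
    intro a ha i j c d
    refine (((hf (i, j, c, d)).1 _ (ha c d)).1).congr (Filter.Eventually.of_forall fun v => ?_)
    simp only
    ring
  refine ⟨fun a ha => ?_, fun a b ha hb => ?_, fun r a => ?_, fun a ha c => ?_⟩
  · have hint : ∀ c d, IntegrableOn (fun x => |a x c d|) (closedBall y ((256 * C₀ + C₀) * ε)) :=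
      fun c d => (((ha c d).locallyIntegrable (by norm_num)).integrableOn_isCompact
        (isCompact_closedBall _ _)).norm
    have hn : IntegrableOn (fun x => nrm1 (a x)) (closedBall y ((256 * C₀ + C₀) * ε)) :=
      integrable_finsetSum _ fun c _ => integrable_finsetSum _ fun d _ => hint c d
    have hI : 0 ≤ ∫ x in closedBall y ((256 * C₀ + C₀) * ε), nrm1 (a x) :=
      integral_nonneg fun x => nrm1_nonneg _
    have h1 : ∀ i j c d, |kerOp σ ρ (pullCoef σ i j c d) ε (fun x => a x c d) y| ≤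
        C₀ * (ε ^ 4)⁻¹ * ∫ x in closedBall y ((256 * C₀ + C₀) * ε), nrm1 (a x) := by
      intro i j c d
      refine (((hf (i, j, c, d)).1 _ (ha c d)).2).trans ?_
      refine mul_le_mul (mul_le_mul_of_nonneg_right (hCk _) (inv_pos.2 (pow_pos hε.1 4)).le) ?_
        (integral_nonneg fun x => abs_nonneg _)
        (mul_nonneg hC0 (inv_pos.2 (pow_pos hε.1 4)).le)
      refine (setIntegral_mono_set (hint c d) (Filter.Eventually.of_forall fun x => abs_nonneg _)
        (Filter.Eventually.of_forall ?_)).trans (setIntegral_mono_on (hint c d) hn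
          measurableSet_closedBall fun x _ => abs_le_nrm1 (a x) c d)
      exact closedBall_subset_closedBall (mul_le_mul_of_nonneg_right
        ((hCk _).trans (le_add_of_nonneg_left (mul_nonneg (by norm_num) hC0))) hε.1.le)
    calc nrm1 (smL σ ρ ε a y) ≤ ∑ _i : Fin 4, ∑ _j : Fin 4, ∑ _c : Fin 4, ∑ _d : Fin 4,
          C₀ * (ε ^ 4)⁻¹ * ∫ x in closedBall y ((256 * C₀ + C₀) * ε), nrm1 (a x) := by
          refine Finset.sum_le_sum fun i _ => Finset.sum_le_sum fun j _ => ?_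
          simp only [smL, Matrix.of_apply]
          refine (Finset.abs_sum_le_sum_abs _ _).trans (Finset.sum_le_sum fun c _ => ?_)
          exact (Finset.abs_sum_le_sum_abs _ _).trans (Finset.sum_le_sum fun d _ => h1 i j c d)
      _ = 256 * C₀ * (ε ^ 4)⁻¹ * ∫ x in closedBall y ((256 * C₀ + C₀) * ε), nrm1 (a x) := by
          simp; ring
      _ ≤ _ := mul_le_mul_of_nonneg_right (mul_le_mul_of_nonneg_right (le_add_of_nonneg_right hC0)
          (inv_pos.2 (pow_pos hε.1 4)).le) hI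
  · ext i j
    simp only [smL, Matrix.of_apply, Matrix.add_apply, ← Finset.sum_add_distrib]
    refine Finset.sum_congr rfl fun c _ => Finset.sum_congr rfl fun d _ => ?_
    exact (hf (i, j, c, d)).2.1 _ _ (ha c d) (hb c d)
  · ext i j
    simp only [smL, Matrix.of_apply, Matrix.smul_apply, smul_eq_mul, Finset.mul_sum]
    refine Finset.sum_congr rfl fun c' _ => Finset.sum_congr rfl fun d _ => ?_
    exact (hf (i, j, c', d)).2.2 r fun x => a x c' d
  · have hfun : (fun v => ρ (ε⁻¹ • v) * ∑ i, ∑ j, c i j * pullV σ v a y i j) = fun v =>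
        ∑ i, ∑ j, ∑ p, ∑ q, c i j * (ρ (ε⁻¹ • v) * (pullCoef σ i j p q v y * a (σ v y) p q)) := by
      funext v
      simp only [pullV_apply, Finset.mul_sum]
      exact Finset.sum_congr rfl fun i _ => Finset.sum_congr rfl fun j _ =>
        Finset.sum_congr rfl fun p _ => Finset.sum_congr rfl fun q _ => by ring
    have hI : ∀ i j p q, Integrable
        (fun v => c i j * (ρ (ε⁻¹ • v) * (pullCoef σ i j p q v y * a (σ v y) p q))) :=
      fun i j p q => (hterm a ha i j p q).const_mul _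
    have hI1 : ∀ i j p, Integrable fun v => ∑ q,
        c i j * (ρ (ε⁻¹ • v) * (pullCoef σ i j p q v y * a (σ v y) p q)) :=
      fun i j p => integrable_finsetSum _ fun q _ => hI i j p q
    have hI2 : ∀ i j, Integrable fun v => ∑ p, ∑ q,
        c i j * (ρ (ε⁻¹ • v) * (pullCoef σ i j p q v y * a (σ v y) p q)) :=
      fun i j => integrable_finsetSum _ fun p _ => hI1 i j p
    have hI3 : ∀ i, Integrable fun v => ∑ j, ∑ p, ∑ q,
        c i j * (ρ (ε⁻¹ • v) * (pullCoef σ i j p q v y * a (σ v y) p q)) :=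
      fun i => integrable_finsetSum _ fun j _ => hI2 i j
    refine ⟨by rw [hfun]; exact integrable_finsetSum _ fun i _ => hI3 i, ?_⟩
    rw [hfun, integral_finsetSum _ fun i _ => hI3 i, Finset.mul_sum]
    refine Finset.sum_congr rfl fun i _ => ?_
    rw [integral_finsetSum _ fun j _ => hI2 i j, Finset.mul_sum]
    refine Finset.sum_congr rfl fun j _ => ?_
    rw [integral_finsetSum _ fun p _ => hI1 i j p, Finset.mul_sum]
    simp only [smL, Matrix.of_apply, Finset.mul_sum]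
    refine Finset.sum_congr rfl fun p _ => ?_
    rw [integral_finsetSum _ fun q _ => hI i j p q, Finset.mul_sum]
    refine Finset.sum_congr rfl fun q _ => ?_
    rw [integral_const_mul, kerOp]
    have : (∫ v, ρ (ε⁻¹ • v) * pullCoef σ i j p q v y * a (σ v y) p q)
        = ∫ v, ρ (ε⁻¹ • v) * (pullCoef σ i j p q v y * a (σ v y) p q) :=
      integral_congr_ae (Filter.Eventually.of_forall fun v => by ring)
    rw [this]
    ring

end Vale.Agent.P204.Tame
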