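import Vale.Agent.P204.Tame.Loc.ClosedApprox
import Vale.Agent.P204.Tame.Loc.SmL
import Vale.Agent.P204.Tame.Loc.Iface
import Vale.Agent.P204.Tame.EllipticPeriod

/-!
The averaged pullback of a weakly closed field is closed: for smooth fields by Fubini and the
invariance of closedness under pullbacks, in general by approximation in mean.
-/

namespace Vale.Agent.P204.Tame

open scoped ContDiff Matrix Topology
open MeasureTheory Metric Set Filter

variable {n : ℕ}

/-- Integration by parts against a test function. -/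
theorem integral_mul_pd_test {O : Set E} (hO : IsOpen O) {f φ : E → ℝ}
    (hf : ContDiffOn ℝ ∞ f O) (hφ : IsTest O φ) (a : Fin 4) :
    Integrable (fun x => f x * pd a φ x) ∧ Integrable (fun x => φ x * pd a f x) ∧
      ∫ x, f x * pd a φ x = -∫ x, φ x * pd a f x := by
  have hf' : ContDiffOn ℝ ∞ (pd a f) O := by
    unfold pd
    exact (hf.fderiv_of_isOpen hO (by simp)).clm_apply contDiffOn_const
  have h1 : IsTest O fun x => pd a φ x * f x := (hφ.pd_test a).mul_smooth hO hf
  have h2 : IsTest O fun x => φ x * pd a f x := hφ.mul_smooth hO hf'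
  have i1 : Integrable fun x => pd a φ x * f x :=
    h1.smooth.continuous.integrable_of_hasCompactSupport h1.compact
  have i2 : Integrable fun x => φ x * pd a f x :=
    h2.smooth.continuous.integrable_of_hasCompactSupport h2.compact
  refine ⟨by simpa [mul_comm] using i1, i2, ?_⟩
  have h0 := integral_pd_compact (hφ.mul_smooth hO hf).smooth (hφ.mul_smooth hO hf).compact a
  have hp : ∀ x, pd a (fun y => φ y * f y) x = pd a φ x * f x + φ x * pd a f x := by
    intro x
    by_cases hx : x ∈ tsupport φ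
    · exact pd_mul a (hφ.smooth.differentiable (by simp) x)
        ((hf.contDiffAt (hO.mem_nhds (hφ.supp hx))).differentiableAt (by simp))
    · have he := notMem_tsupport_iff_eventuallyEq.1 hx
      have he' : (fun y => φ y * f y) =ᶠ[𝓝 x] fun _ => 0 := by
        filter_upwards [he] with y hy
        simp [hy]
      rw [pd_congr a he', pd_congr a he, image_eq_zero_of_notMem_tsupport hx]
      simp [pd]
  simp only [hp] at h0
  rw [integral_add i1 i2] at h0
  rw [integral_congr_ae (ae_of_all _ fun x => mul_comm (f x) _)]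
  linarith

/-- The pairing of a form with the cyclic derivatives of a test function. -/
theorem integral_cyclic_test {O : Set E} (hO : IsOpen O) {T : E → M}
    (hT : ∀ a b, ContDiffOn ℝ ∞ (fun x => T x a b) O) {φ : E → ℝ} (hφ : IsTest O φ)
    (i j k : Fin 4) :
    (∫ x, T x j k * pd i φ x) + (∫ x, T x k i * pd j φ x) + (∫ x, T x i j * pd k φ x)
      = -∫ x, φ x * Mfd.cyc T x i j k := by
  obtain ⟨-, a2, a3⟩ := integral_mul_pd_test hO (hT j k) hφ i
  obtain ⟨-, b2, b3⟩ := integral_mul_pd_test hO (hT k i) hφ j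
  obtain ⟨-, c2, c3⟩ := integral_mul_pd_test hO (hT i j) hφ k
  rw [a3, b3, c3]
  have hcy : (fun x => φ x * Mfd.cyc T x i j k) = fun x => φ x * pd i (fun y => T y j k) x
      + φ x * pd j (fun y => T y k i) x + φ x * pd k (fun y => T y i j) x := by
    funext x
    rw [Mfd.cyc]
    ring
  rw [hcy, integral_add (f := fun x => φ x * pd i (fun y => T y j k) x
    + φ x * pd j (fun y => T y k i) x) (a2.add b2) c2, integral_add a2 b2]
  ring

/-- Fubini for the averaged pullback of a continuous field. -/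
theorem integral_smL_mul {σ : (Fin n → ℝ) → E → E} {ρ : (Fin n → ℝ) → ℝ} (hρ : IsWeight ρ)
    {W : Set ((Fin n → ℝ) × E)} (hW : IsOpen W)
    (hσ : ContDiffOn ℝ ∞ (fun z => σ z.1 z.2) W) {K : Set E} {ε : ℝ} (hε : 0 < ε)
    (htube : closedBall (0 : Fin n → ℝ) ε ×ˢ K ⊆ W)
    {g : E → M} (hg : ∀ a b, Continuous fun x => g x a b) {p q : Fin 4}
    (heq : ∀ y ∈ K, smL σ ρ ε g y p q = (ε ^ n)⁻¹ * ∫ v, ρ (ε⁻¹ • v) * pullV σ v g y p q)
    {ψ : E → ℝ} (hψc : Continuous ψ) (hψ : HasCompactSupport ψ) (hψK : tsupport ψ ⊆ K) :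
    Integrable (fun v => ∫ y, ρ (ε⁻¹ • v) * pullV σ v g y p q * ψ y) ∧
      ∫ y, smL σ ρ ε g y p q * ψ y
        = (ε ^ n)⁻¹ * ∫ v, ∫ y, ρ (ε⁻¹ • v) * pullV σ v g y p q * ψ y := by
  set Sc : Set ((Fin n → ℝ) × E) := closedBall (0 : Fin n → ℝ) ε ×ˢ tsupport ψ with hSc
  have hScW : Sc ⊆ W := (prod_mono subset_rfl hψK).trans htube
  have hScc : IsCompact Sc := (isCompact_closedBall _ _).prod hψ.isCompact
  let H : (Fin n → ℝ) × E → ℝ := fun z =>
    ρ (ε⁻¹ • z.1) * pullV σ z.1 g z.2 p q * ψ z.2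
  have hS : ContinuousOn (fun z : (Fin n → ℝ) × E => pullV σ z.1 g z.2 p q) W := by
    simp only [pullV_apply, pullCoef]
    refine continuousOn_finsetSum _ fun c _ => continuousOn_finsetSum _ fun d _ => ?_
    exact ((contDiffOn_jacV hW hσ c p).continuousOn.mul (contDiffOn_jacV hW hσ d q).continuousOn).mul
      ((hg c d).comp_continuousOn hσ.continuousOn)
  have hρc : Continuous fun z : (Fin n → ℝ) × E => ρ (ε⁻¹ • z.1) :=
    hρ.smooth.continuous.comp (continuous_fst.const_smul ε⁻¹)
  have hH : ContinuousOn H Sc :=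
    (hρc.continuousOn.mul (hS.mono hScW)).mul (hψc.comp continuous_snd).continuousOn
  have hsupp : Function.support H ⊆ Sc := by
    intro z hz
    simp only [H, Function.mem_support, ne_eq, mul_eq_zero, not_or] at hz
    refine ⟨mem_closedBall_zero_iff.2 (not_lt.1 fun h => hz.1.1 (hρ.eq_zero hε h)),
      subset_tsupport _ hz.2⟩
  have hI : Integrable H (volume.prod volume) := by
    rw [← Measure.volume_eq_prod]
    exact (integrableOn_iff_integrable_of_support_subset hsupp).1
      (hH.integrableOn_compact hScc)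
  refine ⟨hI.integral_prod_left, ?_⟩
  rw [integral_integral_swap (f := fun v y => ρ (ε⁻¹ • v) * pullV σ v g y p q * ψ y) hI,
    ← integral_const_mul]
  refine integral_congr_ae (ae_of_all _ fun y => ?_)
  simp only
  by_cases hy : y ∈ K
  · rw [heq y hy, integral_mul_const]
    ring
  · simp [image_eq_zero_of_notMem_tsupport fun h => hy (hψK h)]

/-- The averaged pullback of a smooth field closed near the relevant set is closed. -/
theorem smear_smooth_closed {σ : (Fin n → ℝ) → E → E} {ρ : (Fin n → ℝ) → ℝ} (hρ : IsWeight ρ)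
    {W : Set ((Fin n → ℝ) × E)} (hW : IsOpen W)
    (hσ : ContDiffOn ℝ ∞ (fun z => σ z.1 z.2) W) {K : Set E} {ε : ℝ} (hε : 0 < ε)
    (htube : closedBall (0 : Fin n → ℝ) ε ×ˢ K ⊆ W)
    {g : E → M} (hg : ∀ a b, ContDiff ℝ ∞ fun x => g x a b) (hgs : ∀ x, (g x)ᵀ = -g x)
    {Vg : Set E} (hVg : IsOpen Vg) (hmaps : ∀ v ∈ closedBall (0 : Fin n → ℝ) ε, ∀ y ∈ K, σ v y ∈ Vg)
    (hcl : ∀ x ∈ Vg, ∀ i j k, Mfd.cyc g x i j k = 0)
    (heq : ∀ y ∈ K, ∀ p q, smL σ ρ ε g y p q = (ε ^ n)⁻¹ * ∫ v, ρ (ε⁻¹ • v) * pullV σ v g y p q)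
    {φ : E → ℝ} (hφ : IsTest (interior K) φ) (i j k : Fin 4) :
    (∫ y, smL σ ρ ε g y j k * pd i φ y) + (∫ y, smL σ ρ ε g y k i * pd j φ y)
      + (∫ y, smL σ ρ ε g y i j * pd k φ y) = 0 := by
  have hd : ∀ a, IsTest (interior K) (pd a φ) := fun a => hφ.pd_test a
  have key := fun p q a => integral_smL_mul hρ hW hσ hε htube (fun a b => (hg a b).continuous)
    (fun y hy => heq y hy p q) (hd a).smooth.continuous (hd a).compact
    ((hd a).supp.trans interior_subset)
  rw [(key j k i).2, (key k i j).2, (key i j k).2, ← mul_add, ← mul_add,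
    ← integral_add (key j k i).1 (key k i j).1,
    ← integral_add (f := fun v => (∫ y, ρ (ε⁻¹ • v) * pullV σ v g y j k * pd i φ y)
      + ∫ y, ρ (ε⁻¹ • v) * pullV σ v g y k i * pd j φ y) ((key j k i).1.add (key k i j).1)
      (key i j k).1]
  refine mul_eq_zero_of_right _ (integral_eq_zero_of_ae (ae_of_all _ fun v => ?_))
  simp only [mul_assoc, integral_const_mul, Pi.zero_apply]
  by_cases hv : v ∈ closedBall (0 : Fin n → ℝ) ε
  · set U : Set E := {y | (v, y) ∈ W ∩ (fun z => σ z.1 z.2) ⁻¹' Vg} with hU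
    have hUo : IsOpen U :=
      (hσ.continuousOn.isOpen_inter_preimage hW hVg).preimage (Continuous.prodMk_right v)
    have hKU : K ⊆ U := fun y hy => ⟨htube ⟨hv, hy⟩, hmaps v hv y hy⟩
    have ht : ContDiffOn ℝ ∞ (σ v) U :=
      hσ.comp (contDiff_prodMk_right v).contDiffOn fun y hy => hy.1
    have hT : ∀ a b, ContDiffOn ℝ ∞ (fun y => pullV σ v g y a b) U := fun a b => by
      simp only [pullV_apply, pullCoef]
      refine ContDiffOn.sum fun c _ => ContDiffOn.sum fun d _ => ?_
      exact (((contDiffOn_jacV hW hσ c a).comp (contDiff_prodMk_right v).contDiffOn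
        fun y hy => hy.1).mul ((contDiffOn_jacV hW hσ d b).comp (contDiff_prodMk_right v).contDiffOn
        fun y hy => hy.1)).mul ((hg c d).comp_contDiffOn ht)
    have hz := integral_cyclic_test hUo hT (φ := φ)
      ⟨hφ.smooth, hφ.compact, hφ.supp.trans (interior_subset.trans hKU)⟩ i j k
    have hc : ∀ y, φ y * Mfd.cyc (pullV σ v g) y i j k = 0 := by
      intro y
      by_cases hy : y ∈ tsupport φ
      · refine mul_eq_zero_of_right _ ?_
        exact Mfd.cyc_pullback hUo hVg ht (fun y hy => hy.2) (fun a b => (hg a b).contDiffOn)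
          (fun y _ => hgs y) hcl (hKU (interior_subset (hφ.supp hy))) i j k
      · simp [image_eq_zero_of_notMem_tsupport hy]
    simp only [hc, integral_zero, neg_zero] at hz
    rw [← mul_add, ← mul_add, hz, mul_zero]
  · rw [hρ.eq_zero hε (by simpa using hv)]
    simp

theorem closedSmear (hS : SmootherSobolev) (hF : SmootherFibre) : ClosedSmear := by
  intro n U σ hσ ρ hρ K hKU hK K' hK'U hK' hKK'
  obtain ⟨W₀, hW₀, hW₀0, hW₀σ⟩ := hσ.smooth
  have hWt : IsOpen (W₀ ∩ (fun z => σ z.1 z.2) ⁻¹' interior K') :=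
    hW₀σ.continuousOn.isOpen_inter_preimage hW₀ isOpen_interior
  obtain ⟨δ, hδ, htube⟩ := exists_tube hWt hK (fun z hz => by
    obtain ⟨h1, h2⟩ := hz
    refine ⟨hW₀0 ⟨h1, hKU h2⟩, ?_⟩
    show σ z.1 z.2 ∈ interior K'
    rw [mem_singleton_iff.1 h1, hσ.base _ (hKU h2)]
    exact hKK' h2)
  obtain ⟨r, hr, hrV⟩ := hK.exists_cthickening_subset_open isOpen_interior hKK'
  set T : Set ((Fin n → ℝ) × E) := closedBall (0 : Fin n → ℝ) δ ×ˢ K with hT
  set L : Set E := (fun z => σ z.1 z.2) '' T ∪ cthickening r K with hLdef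
  have hL : IsCompact L := (((isCompact_closedBall _ _).prod hK).image_of_continuousOn
    (hW₀σ.continuousOn.mono (htube.trans inter_subset_left))).union hK.cthickening
  have hLV : L ⊆ interior K' :=
    union_subset (image_subset_iff.2 fun z hz => (htube hz).2) hrV
  obtain ⟨C, hC, ε₁, hε₁, hfacts⟩ := exists_smL_facts hF hσ hρ hKU hK
  choose ε₂ hε₂ hsm _ using fun k : Fin 4 × Fin 4 × Fin 4 × Fin 4 =>
    hS n U σ hσ ρ (pullCoef σ k.1 k.2.1 k.2.2.1 k.2.2.2) hρ.smooth hρ.supp
      ⟨W₀, hW₀, hW₀0,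
        (contDiffOn_jacV hW₀ hW₀σ _ _).mul (contDiffOn_jacV hW₀ hW₀σ _ _)⟩ K hKU hK
  obtain ⟨ε₀, hε₀, hle1, hle2, hle3, hle4⟩ : ∃ e > 0, e ≤ ε₁ ∧ (∀ k, e ≤ ε₂ k) ∧ e ≤ δ ∧
      e ≤ r / (C + 1) :=
    ⟨min (min ε₁ δ) (min (r / (C + 1)) (Finset.univ.inf' Finset.univ_nonempty ε₂)),
      lt_min (lt_min hε₁ hδ) (lt_min (by positivity) ((Finset.lt_inf'_iff _).2 fun k _ => hε₂ k)),
      (min_le_left _ _).trans (min_le_left _ _),
      fun k => ((min_le_right _ _).trans (min_le_right _ _)).trans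
        (Finset.inf'_le _ (Finset.mem_univ k)),
      (min_le_left _ _).trans (min_le_right _ _), (min_le_right _ _).trans (min_le_left _ _)⟩
  refine ⟨ε₀, hε₀, fun ε hε u hu hus hclosed y₀ hy₀ i j k => ?_⟩
  have hεpos : 0 < ε := hε.1
  have hf := hfacts ε ⟨hεpos, hε.2.trans hle1⟩
  have hCε : C * ε ≤ r := by
    have h1 : ε ≤ r / (C + 1) := hε.2.trans hle4
    rw [le_div_iff₀ (by positivity)] at h1
    nlinarith
  -- smoothness on the interior
  have hsmooth : ∀ a : E → M, IsL2Field volume a → ∀ p q,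
      ContDiffOn ℝ ∞ (fun y => smL σ ρ ε a y p q) (interior K) := by
    intro a ha p q y hy
    refine ContDiffAt.contDiffWithinAt ?_
    simp only [smL, Matrix.of_apply]
    exact ContDiffAt.sum fun c _ => ContDiffAt.sum fun d _ =>
      hsm (p, q, c, d) ε ⟨hεpos, hε.2.trans (hle2 _)⟩ _ (ha c d) y (interior_subset hy)
  have heq : ∀ a, IsL2Field volume a → ∀ y ∈ K, ∀ p q,
      smL σ ρ ε a y p q = (ε ^ n)⁻¹ * ∫ v, ρ (ε⁻¹ • v) * pullV σ v a y p q := by
    intro a ha y hy p q
    have h := ((hf y hy).2.2.2 a ha fun c d => if c = p ∧ d = q then 1 else 0).2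
    simpa [ite_and] using h
  set T₀ : E → M := fun y => smL σ ρ ε u y with hT₀
  have hT₀s : ∀ a b, ContDiffOn ℝ ∞ (fun y => T₀ y a b) (interior K) := hsmooth u hu
  have hFc : ContinuousOn (fun y => Mfd.cyc T₀ y i j k) (interior K) := fun y hy => by
    have h : ∀ a b c, ContinuousAt (pd c fun y => T₀ y a b) y := fun a b c =>
      (Mfd.differentiableAt_pd ((hT₀s a b).contDiffAt (isOpen_interior.mem_nhds hy)) c).continuousAt
    exact (((h j k i).add (h k i j)).add (h i j k)).continuousWithinAt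
  suffices hweak : ∀ φ, IsTest (interior K) φ →
      (∫ x, T₀ x j k * pd i φ x) + (∫ x, T₀ x k i * pd j φ x) + (∫ x, T₀ x i j * pd k φ x) = 0 by
    have hae : ∀ᵐ x, x ∈ interior K → Mfd.cyc T₀ x i j k = 0 := by
      refine IsOpen.ae_eq_zero_of_integral_contDiff_smul_eq_zero isOpen_interior
        (hFc.locallyIntegrableOn measurableSet_interior) fun φ h1 h2 h3 => ?_
      have h := integral_cyclic_test isOpen_interior hT₀s ⟨h1, h2, h3⟩ i j k
      rw [hweak φ ⟨h1, h2, h3⟩, eq_comm, neg_eq_zero] at h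
      simpa using h
    have hbad : IsOpen (interior K ∩ (fun y => Mfd.cyc T₀ y i j k) ⁻¹' {0}ᶜ) :=
      hFc.isOpen_inter_preimage isOpen_interior isOpen_compl_singleton
    have hnull : volume (interior K ∩ (fun y => Mfd.cyc T₀ y i j k) ⁻¹' {0}ᶜ) = 0 :=
      measure_mono_null (fun y hy => show ¬(y ∈ interior K → Mfd.cyc T₀ y i j k = 0) from
        fun hc => hy.2 (hc hy.1)) (ae_iff.1 hae)
    by_contra hne
    exact (eq_empty_iff_forall_notMem.1 ((hbad.measure_eq_zero_iff volume).1 hnull)) y₀ ⟨hy₀, hne⟩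
  intro φ hφ
  have hint : ∀ a : E → M, IsL2Field volume a → ∀ p q c,
      Integrable fun x => smL σ ρ ε a x p q * pd c φ x := fun a ha p q c =>
    (integral_mul_pd_test isOpen_interior (hsmooth a ha p q) hφ c).1
  have hbd : ∀ c, ∃ B, ∀ x, |pd c φ x| ≤ B := fun c => by
    obtain ⟨B, hB⟩ := (hasCompactSupport_pd hφ.compact c).exists_bound_of_continuous
      (contDiff_pd hφ.smooth c).continuous
    exact ⟨B, fun x => by simpa using hB x⟩
  choose B hB using hbd
  set A : ℝ := C * (ε ^ 4)⁻¹ * volume.real K with hA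
  refine abs_eq_zero.1 (le_antisymm (le_of_forall_gt_imp_ge_of_dense fun c hc => ?_) (abs_nonneg _))
  obtain ⟨η, hη, hηc⟩ : ∃ η > 0, A * η * (|B i| + |B j| + |B k|) ≤ c := by
    have h0 : 0 ≤ A * (|B i| + |B j| + |B k|) := by positivity
    refine ⟨c / (A * (|B i| + |B j| + |B k|) + 1), by positivity, ?_⟩
    rw [mul_right_comm, mul_div_assoc', div_le_iff₀ (by positivity)]
    nlinarith
  obtain ⟨g, Vg, hVg, hLVg, hg2, hgs, hgskew, hgcl, hgapp⟩ :=
    exists_closed_approx isOpen_interior hL hLV hu hus hclosed hη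
  have hzero := smear_smooth_closed hρ hW₀ hW₀σ hεpos
    (fun z hz => (htube ⟨closedBall_subset_closedBall (hε.2.trans hle3) hz.1, hz.2⟩).1)
    hgs hgskew hVg
    (fun v hv y hy => hLVg (Or.inl ⟨(v, y),
      ⟨closedBall_subset_closedBall (hε.2.trans hle3) hv, hy⟩, rfl⟩))
    hgcl (heq g hg2) hφ i j k
  have hsub : IsL2Field volume (u - g) := fun a b => (hu a b).sub (hg2 a b)
  have hterm : ∀ p q c, |(∫ x, T₀ x p q * pd c φ x) - ∫ x, smL σ ρ ε g x p q * pd c φ x|
      ≤ A * η * |B c| := by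
    intro p q c
    rw [← integral_sub (hint u hu p q c) (hint g hg2 p q c), ← Real.norm_eq_abs]
    have hKint : Integrable (K.indicator fun _ => C * (ε ^ 4)⁻¹ * η * |B c|) :=
      (integrableOn_const (hs := hK.measure_lt_top.ne)).integrable_indicator hK.measurableSet
    refine ((norm_integral_le_of_norm_le hKint (ae_of_all _ fun x => ?_)).trans_eq ?_)
    · by_cases hx : x ∈ K
      · rw [Set.indicator_of_mem hx, ← sub_mul, norm_mul, Real.norm_eq_abs, Real.norm_eq_abs]
        refine mul_le_mul ?_ ((hB c x).trans (le_abs_self _)) (abs_nonneg _) (by positivity)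
        have h1 := (hf x hx).2.1 (u - g) g hsub hg2
        rw [sub_add_cancel] at h1
        rw [h1, Matrix.add_apply, add_sub_cancel_right]
        refine (abs_le_nrm1 _ p q).trans (((hf x hx).1 _ hsub).trans ?_)
        refine mul_le_mul_of_nonneg_left ((setIntegral_mono_set ?_ (ae_of_all _ fun t => nrm1_nonneg _)
          (Eventually.of_forall fun t ht => Or.inr
            (closedBall_subset_cthickening hx r (closedBall_subset_closedBall hCε ht)))).trans
          hgapp) (by positivity)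
        exact integrable_finsetSum _ fun a _ => integrable_finsetSum _ fun b _ =>
          (((hsub a b).locallyIntegrable (by norm_num)).integrableOn_isCompact hL).abs
      · have h0 : pd c φ x = 0 := image_eq_zero_of_notMem_tsupport fun h =>
          hx (interior_subset ((hφ.pd_test c).supp h))
        simp [h0, hx]
    · rw [integral_indicator hK.measurableSet, setIntegral_const, smul_eq_mul, hA]
      ring
  have t1 := abs_le.1 (hterm j k i)
  have t2 := abs_le.1 (hterm k i j)
  have t3 := abs_le.1 (hterm i j k)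
  refine abs_le.2 ⟨?_, ?_⟩ <;> nlinarith [t1.1, t1.2, t2.1, t2.2, t3.1, t3.2]

end Vale.Agent.P204.Tame
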