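import Vale.Agent.P204.Tame.Loc.TPoint

/-!
The smoothed positive field: a square integrable field representing the pairing, dominated by
scaled ball masses, semipositive and invariant up to higher powers of the scale.
-/

namespace Vale.Agent.P204.Tame

open scoped ContDiff Matrix ENNReal
open MeasureTheory Metric Set

variable {n : ℕ}

theorem abs_integral_mul_le {α : Type*} [MeasurableSpace α] {m : Measure α} {f g : α → ℝ}
    (hf : MemLp f 2 m) (hg : MemLp g 2 m) :
    |∫ x, f x * g x ∂m| ≤ Real.sqrt (∫ x, f x ^ 2 ∂m) * Real.sqrt (∫ x, g x ^ 2 ∂m) := by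
  have hn : ∀ {h : α → ℝ} (hh : MemLp h 2 m), ‖hh.toLp h‖ = Real.sqrt (∫ x, h x ^ 2 ∂m) := by
    intro h hh
    rw [← Real.sqrt_sq (norm_nonneg (hh.toLp h)), ← real_inner_self_eq_norm_sq, L2.inner_def]
    congr 1
    refine integral_congr_ae ?_
    filter_upwards [hh.coeFn_toLp] with x hx
    simp [hx, sq]
  have h := abs_real_inner_le_norm (hf.toLp f) (hg.toLp g)
  rw [L2.inner_def, hn hf, hn hg] at h
  refine le_trans (le_of_eq (congrArg abs (integral_congr_ae ?_))) h
  filter_upwards [hf.coeFn_toLp, hg.coeFn_toLp] with x hx hy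
  simp [hx, hy, mul_comm]

theorem pinv_panti {J : M} (hJ : J * J = -1) (u : M) : pinv J (panti J u) = 0 := by
  rw [pinv, panti_is_anti hJ]; simp

theorem nrm1_lineForm_le (J : M) (v : E) :
    nrm1 (lineForm J v) ≤ 64 * nrm1 J * (v ⬝ᵥ v) := by
  set w := J *ᵥ v with hw
  have hw2 : Real.sqrt ((v ⬝ᵥ v) * (w ⬝ᵥ w)) ≤ 2 * nrm1 J * (v ⬝ᵥ v) := by
    rw [Real.sqrt_le_left (mul_nonneg (mul_nonneg zero_le_two (nrm1_nonneg _)) (dot_self_nonneg v))]
    calc (v ⬝ᵥ v) * (w ⬝ᵥ w) ≤ (v ⬝ᵥ v) * (4 * nrm1 J ^ 2 * (v ⬝ᵥ v)) :=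
          mul_le_mul_of_nonneg_left (dot_mulVec_le J v) (dot_self_nonneg v)
      _ = _ := by ring
  have hb : ∀ i j, |wedge2 v w i j| ≤ 4 * nrm1 J * (v ⬝ᵥ v) := fun i j => by
    have h1 : ∀ p q, |v p * w q| ≤ Real.sqrt ((v ⬝ᵥ v) * (w ⬝ᵥ w)) := fun p q => by
      refine Real.abs_le_sqrt ?_
      rw [mul_pow, sq, sq]
      exact mul_le_mul
        (Finset.single_le_sum (f := fun p => v p * v p) (fun _ _ => mul_self_nonneg _)
          (Finset.mem_univ p))
        (Finset.single_le_sum (f := fun p => w p * w p) (fun _ _ => mul_self_nonneg _)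
          (Finset.mem_univ q)) (mul_self_nonneg _) (dot_self_nonneg v)
    simp only [wedge2, Matrix.of_apply]
    refine (abs_sub _ _).trans ?_
    have := h1 i j
    have := h1 j i
    rw [mul_comm (w i) (v j)]
    linarith
  have hs : ∀ i j, |lineForm J v i j| ≤ 4 * nrm1 J * (v ⬝ᵥ v) := by
    intro i j
    rw [lineForm, Matrix.smul_apply, smul_eq_mul, abs_mul]
    refine le_trans (mul_le_mul_of_nonneg_right (abs_sgnJ_le_one J) (abs_nonneg _)) ?_
    rw [one_mul]
    have h0 : 0 ≤ 4 * nrm1 J * (v ⬝ᵥ v) :=
      mul_nonneg (mul_nonneg (by norm_num) (nrm1_nonneg _)) (dot_self_nonneg v)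
    fin_cases i <;> fin_cases j <;>
      simp [starF, skew6, abs_neg, h0] <;> exact hb _ _
  calc nrm1 (lineForm J v) ≤ ∑ _i : Fin 4, ∑ _j : Fin 4, 4 * nrm1 J * (v ⬝ᵥ v) :=
        Finset.sum_le_sum fun i _ => Finset.sum_le_sum fun j _ => hs i j
    _ = _ := by simp; ring

theorem exists_tPart (hL : LinearFacts) (hF : SmootherFibre) (hS : SmootherSobolev) {U : Set E}
    {σ : (Fin n → ℝ) → E → E} (hσ : IsSmoother U σ) {ρ : (Fin n → ℝ) → ℝ} (hρ : IsWeight ρ)
    {J : E → M} (hJ : IsACS U J) {K O : Set E} (hKU : K ⊆ U) (hK : IsCompact K) (hOK : O ⊆ K)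
    (hO : MeasurableSet O) :
    ∃ C : ℝ, 0 ≤ C ∧ ∃ ε₀ > 0, ∀ ε ∈ Ioc (0 : ℝ) ε₀, ∀ μ Θ, IsPosField K J μ Θ →
      ∃ t : E → M, IsL2Field (volume.restrict O) t ∧ (∀ x, (t x)ᵀ = -t x) ∧
        (∀ a, IsL2Field (volume.restrict O) a → (∀ x, (a x)ᵀ = -a x) →
          tFun σ ρ K O J μ Θ ε a = ∫ x in O, wd (J x) (t x) (a x)) ∧
        ∀ᵐ x ∂volume.restrict O, nrm1 (t x) ≤ C * kball μ K C ε x ∧
          nrm1 (panti (J x) (t x)) ≤ C * ε * kball μ K C ε x ∧
          ∀ v, -(C * ε ^ 2 * kball μ K C ε x * (v ⬝ᵥ v)) ≤ val (t x) v (J x *ᵥ v) := by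
  classical
  obtain ⟨C₁, hC₁, ε₁, hε₁, hbound⟩ := exists_tFun_bound hL hF hS hσ hρ hJ hKU hK hOK hO
  obtain ⟨D, hD, ε₂, hε₂, hpt⟩ := exists_tPoint hL hF hσ hρ hJ hKU hK
  have hcJ : ∀ i j, ContinuousOn (fun y => J y i j) K := fun i j =>
    (hJ.smooth i j).continuousOn.mono hKU
  have hcJ' : ContinuousOn J K := continuousOn_pi.2 fun i => continuousOn_pi.2 fun j => hcJ i j
  obtain ⟨BJ, hBJ⟩ := hK.exists_bound_of_continuousOn (continuous_nrm1.comp_continuousOn hcJ')
  set B₀ : Fin 4 → Fin 4 → M := fun c d => starF (wedge2 (e c) (e d)) with hB₀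
  have hpc : ∀ c d, ContinuousOn (fun x => panti (J x) (B₀ c d)) K := fun c d => by
    simp only [panti]
    exact ((continuousOn_const.sub
      ((((Continuous.matrix_transpose continuous_id).comp_continuousOn hcJ').mul
        continuousOn_const).mul hcJ')).const_smul (1 / 2 : ℝ))
  choose BP hBP using fun cd : Fin 4 × Fin 4 =>
    hK.exists_bound_of_continuousOn (continuous_nrm1.comp_continuousOn (hpc cd.1 cd.2))
  set BPs := ∑ cd, max (BP cd) 0 with hBPs
  have hBPle : ∀ cd : Fin 4 × Fin 4, ∀ x ∈ K, nrm1 (panti (J x) (B₀ cd.1 cd.2)) ≤ BPs := fun cd x hx =>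
    ((le_abs_self _).trans (hBP cd x hx)).trans ((le_max_left _ _).trans
      (Finset.single_le_sum (f := fun cd => max (BP cd) 0) (fun _ _ => le_max_right _ _)
        (Finset.mem_univ cd)))
  have hBPs0 : 0 ≤ BPs := Finset.sum_nonneg fun cd _ => le_max_right _ _
  set C₂ := max C₁ D with hC₂
  have hC₂0 : 0 ≤ C₂ := hC₁.trans (le_max_left _ _)
  set C := max (max C₂ 32) (max (64 * max BJ 0 * D) (16 * BPs * D)) + 1 with hC
  have hC0 : 0 ≤ C := by
    have : 0 ≤ max (max C₂ 32) (max (64 * max BJ 0 * D) (16 * BPs * D)) :=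
      le_trans hC₂0 ((le_max_left _ _).trans (le_max_left _ _))
    linarith
  refine ⟨C, hC0, min ε₁ ε₂, lt_min hε₁ hε₂, fun ε hε μ Θ hΘ => ?_⟩
  obtain ⟨hbd, hadd, hsmul⟩ := hbound ε ⟨hε.1, hε.2.trans (min_le_left _ _)⟩ μ Θ hΘ
  have hp := fun y hy => hpt ε ⟨hε.1, hε.2.trans (min_le_right _ _)⟩ y hy
  haveI : IsFiniteMeasure (μ.restrict K) := ⟨by simpa using hΘ.finite⟩
  have hO' : volume O < ⊤ := (measure_mono hOK).trans_lt hK.measure_lt_top
  haveI : IsFiniteMeasure (volume.restrict O) := ⟨by simpa using hO'⟩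
  set J' := K.indicator J with hJ'
  have hJ'm : ∀ i j, Measurable fun x => J' x i j := fun i j => by
    simp only [hJ', indicator_field_apply]
    rw [← Set.piecewise_eq_indicator]
    exact (hcJ i j).measurable_piecewise continuousOn_const hK.isClosed.measurableSet
  have hJK : ∀ x ∈ O, J' x = J x := fun x hx => by rw [hJ', Set.indicator_of_mem (hOK hx)]
  have hn : ∀ᵐ x ∂volume.restrict O, pfq (wmat (J' x)) (wmat (J' x)) ≠ 0 := by
    filter_upwards [ae_restrict_mem hO] with x hx h
    rw [hJK x hx] at h
    have := (hL.2.2.1 (J x) (hJ.sq x (hKU (hOK hx)))).2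
    rw [h, mul_zero] at this
    exact lt_irrefl _ this
  have hk : MemLp (kball μ K C₁ ε) 2 (volume.restrict O) := memLp_kball μ hΘ.finite hO' _ _
  obtain ⟨t, ht2, htsk, htrep, -, htk⟩ := exists_field_rep (m := volume.restrict O) (J := J')
    (measurable_sgnJ hJ'm) hn (tFun σ ρ K O J μ Θ ε) hadd hsmul
    (C := Real.sqrt (∫ x in O, kball μ K C₁ ε x ^ 2)) (fun a ha => by
      refine (hbd a ha).2.trans ?_
      rw [Finset.mul_sum]
      simp only [Finset.mul_sum]
      calc ∫ x in O, nrm1 (a x) * kball μ K C₁ ε x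
          = ∑ i, ∑ j, ∫ x in O, |a x i j| * kball μ K C₁ ε x := by
            have hij : ∀ i j, Integrable (fun x => |a x i j| * kball μ K C₁ ε x)
                (volume.restrict O) := fun i j => (ha i j).norm.integrable_mul hk
            simp only [nrm1, Finset.sum_mul]
            rw [integral_finsetSum _ fun i _ => integrable_finsetSum _ fun j _ => hij i j]
            exact Finset.sum_congr rfl fun i _ => integral_finsetSum _ fun j _ => hij i j
        _ ≤ _ := Finset.sum_le_sum fun i _ => Finset.sum_le_sum fun j _ => by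
            refine (le_abs_self _).trans ((abs_integral_mul_le (ha i j).norm hk).trans_eq ?_)
            rw [mul_comm]
            simp only [Real.norm_eq_abs, sq_abs])
  have hrep' : ∀ a, IsL2Field (volume.restrict O) a → (∀ x, (a x)ᵀ = -a x) →
      tFun σ ρ K O J μ Θ ε a = ∫ x in O, wd (J x) (t x) (a x) := fun a ha hs => by
    rw [htrep a ha hs]
    exact setIntegral_congr_fun hO fun x hx => by rw [hJK x hx]
  refine ⟨t, ht2, htsk, hrep', ?_⟩
  have hkC : ∀ D', 0 ≤ D' → D' ≤ C → ∀ x, kball μ K D' ε x ≤ kball μ K C ε x :=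
    fun D' h0 h1 x => kball_mono μ hΘ.finite h0 h1 hε.1 x
  have hle32 : (32 : ℝ) ≤ C := by
    have : (32 : ℝ) ≤ max (max C₂ 32) (max (64 * max BJ 0 * D) (16 * BPs * D)) :=
      (le_max_right _ _).trans (le_max_left _ _)
    linarith
  have hC₁C : C₁ ≤ C := by
    have : C₁ ≤ max (max C₂ 32) (max (64 * max BJ 0 * D) (16 * BPs * D)) :=
      (le_max_left _ _).trans ((le_max_left _ _).trans (le_max_left _ _))
    linarith
  have hDC : D ≤ C := by
    have : D ≤ max (max C₂ 32) (max (64 * max BJ 0 * D) (16 * BPs * D)) :=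
      (le_max_right _ _).trans ((le_max_left _ _).trans (le_max_left _ _))
    linarith
  have hBC1 : 64 * max BJ 0 * D ≤ C := by
    have : 64 * max BJ 0 * D ≤ max (max C₂ 32) (max (64 * max BJ 0 * D) (16 * BPs * D)) :=
      (le_max_left _ _).trans (le_max_right _ _)
    linarith
  have hBC2 : 16 * BPs * D ≤ C := by
    have : 16 * BPs * D ≤ max (max C₂ 32) (max (64 * max BJ 0 * D) (16 * BPs * D)) :=
      (le_max_right _ _).trans (le_max_right _ _)
    linarith
  have hi1 : ∀ i j, Integrable (fun x => t x i j) (volume.restrict O) := fun i j =>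
    (ht2 i j).integrable (by norm_num)
  have hkint : ∀ D', Integrable (kball μ K D' ε) (volume.restrict O) := fun D' =>
    (memLp_kball μ hΘ.finite hO' D' ε).integrable (by norm_num)
  have key : ∀ (a : E → M), (∀ x, (a x)ᵀ = -a x) → IsL2Field (volume.restrict O) a →
      ∀ (S : Set E), MeasurableSet S → ∀ (B r : ℝ), 0 ≤ r → (∀ x ∈ O, nrm1 (a x) ≤ B) →
      (∀ x, x ∉ S → a x = 0) →
      (∀ᵐ y ∂μ.restrict K, -(r * ((ε ^ 4)⁻¹ * ∫ x in closedBall y (D * ε),
          nrm1 (O.indicator a x))) ≤ wd (J y) (Θ y) (smL σ ρ ε (O.indicator a) y)) →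
      -(∫ x in S ∩ O, r * B * ((ε ^ 4)⁻¹ * (μ.restrict K).real (closedBall x (D * ε))))
        ≤ tFun σ ρ K O J μ Θ ε a := by
    intro a hask ha S hS B r hr hB hS0 hae
    set g := fun x => nrm1 (O.indicator a x) with hg
    have hgO : g = O.indicator fun x => nrm1 (a x) := by
      funext x
      by_cases hx : x ∈ O <;> simp [hg, hx, nrm1]
    have hgi : Integrable g := by
      rw [hgO, integrable_indicator_iff hO]
      exact (isL2Field_nrm1 ha).integrable (by norm_num)
    have hsw := integral_ball_swap (μ.restrict K) (D * ε) (f := g) (fun x => nrm1_nonneg _) hgi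
    have h1 : -(∫ y in K, (r * ((ε ^ 4)⁻¹ * ∫ x in closedBall y (D * ε), g x)) ∂μ)
        ≤ tFun σ ρ K O J μ Θ ε a := by
      rw [← integral_neg]
      exact integral_mono_ae (((hsw.1.const_mul _).const_mul _).neg) (hbd a ha).1 hae
    refine le_trans (neg_le_neg ?_) h1
    rw [integral_const_mul, integral_const_mul, hsw.2, ← integral_const_mul, ← integral_const_mul,
      ← integral_indicator (hS.inter hO)]
    refine integral_mono_of_nonneg (Filter.Eventually.of_forall fun x => mul_nonneg hr
      (mul_nonneg (inv_pos.2 (pow_pos hε.1 4)).le (mul_nonneg (nrm1_nonneg _) measureReal_nonneg)))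
      ?_ (Filter.Eventually.of_forall fun x => ?_)
    · rw [integrable_indicator_iff (hS.inter hO)]
      refine IntegrableOn.mono_set (t := O) ?_ inter_subset_right
      exact Integrable.of_bound (((measurable_measure_closedBall (μ.restrict K)
        (D * ε)).ennreal_toReal.const_mul _).const_mul _).aestronglyMeasurable
        (|r * B| * (|(ε ^ 4)⁻¹| * (μ.restrict K).real univ)) (Filter.Eventually.of_forall fun x => by
          rw [Real.norm_eq_abs, abs_mul, abs_mul ((ε ^ 4)⁻¹)]
          refine mul_le_mul_of_nonneg_left (mul_le_mul_of_nonneg_left ?_ (abs_nonneg _))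
            (abs_nonneg _)
          exact (abs_of_nonneg measureReal_nonneg).le.trans (measureReal_mono (subset_univ _)))
    · by_cases hx : x ∈ S ∩ O
      · rw [Set.indicator_of_mem hx]
        have : g x ≤ B := by
          rw [hgO, Set.indicator_of_mem hx.2]; exact hB x hx.2
        calc r * ((ε ^ 4)⁻¹ * (g x * (μ.restrict K).real (closedBall x (D * ε))))
            = r * g x * ((ε ^ 4)⁻¹ * (μ.restrict K).real (closedBall x (D * ε))) := by ring
          _ ≤ _ := mul_le_mul_of_nonneg_right (mul_le_mul_of_nonneg_left this hr)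
              (mul_nonneg (inv_pos.2 (pow_pos hε.1 4)).le measureReal_nonneg)
      · rw [Set.indicator_of_notMem hx]
        have : g x = 0 := by
          by_cases hxO : x ∈ O
          · simp [hgO, hxO, hS0 x fun h => hx ⟨h, hxO⟩, nrm1]
          · simp [hgO, hxO]
        simp [this]
  have hJO : ∀ x ∈ O, J x * J x = -1 := fun x hx => hJ.sq x (hKU (hOK hx))
  have hpos : ∀ v : E, ∀ᵐ x ∂volume.restrict O,
      -(C * ε ^ 2 * kball μ K C ε x * (v ⬝ᵥ v)) ≤ val (t x) v (J' x *ᵥ v) := by
    intro v
    have hent : ∀ i j, Measurable fun x => lineForm (J' x) v i j := fun i j => by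
      have hw : ∀ p, Measurable fun x => (J' x *ᵥ v) p := fun p => by
        simp only [Matrix.mulVec, dotProduct]
        exact Finset.measurable_sum _ fun q _ => (hJ'm p q).mul_const _
      have hwe : ∀ p q, Measurable fun x => wedge2 v (J' x *ᵥ v) p q := fun p q => by
        simp only [wedge2, Matrix.of_apply]
        exact (measurable_const.mul (hw q)).sub ((hw p).mul measurable_const)
      simp only [lineForm, Matrix.smul_apply, smul_eq_mul]
      refine (measurable_sgnJ hJ'm).mul ?_
      fin_cases i <;> fin_cases j <;> simp [starF, skew6] <;>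
        first | exact hwe _ _ | exact measurable_const
    have hnb : ∀ x ∈ O, nrm1 (lineForm (J' x) v) ≤ 64 * max BJ 0 * (v ⬝ᵥ v) := fun x hx => by
      refine (nrm1_lineForm_le _ v).trans (mul_le_mul_of_nonneg_right
        (mul_le_mul_of_nonneg_left ?_ (by norm_num)) (dot_self_nonneg v))
      rw [hJK x hx]
      exact ((le_abs_self _).trans (hBJ x (hOK hx))).trans (le_max_left _ _)
    have hint : Integrable (fun x => val (t x) v (J' x *ᵥ v)
        + C * ε ^ 2 * kball μ K C ε x * (v ⬝ᵥ v)) (volume.restrict O) := by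
      refine Integrable.add ?_ (((hkint C).const_mul _).mul_const _)
      have hexp : (fun x => val (t x) v (J' x *ᵥ v))
          = fun x => ∑ i, ∑ j, ∑ q, t x i j * (v i * (J' x j q * v q)) := by
        funext x
        simp only [val, dotProduct, Matrix.mulVec, Finset.mul_sum]
        exact Finset.sum_congr rfl fun i _ => Finset.sum_congr rfl fun j _ =>
          Finset.sum_congr rfl fun q _ => by ring
      rw [hexp]
      refine integrable_finsetSum _ fun i _ => integrable_finsetSum _ fun j _ =>
        integrable_finsetSum _ fun q _ => ?_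
      refine (hi1 i j).mul_bdd (c := |v i| * (max BJ 0 * |v q|))
        ((measurable_const.mul ((hJ'm j q).mul_const _)).aestronglyMeasurable) ?_
      filter_upwards [ae_restrict_mem hO] with x hx
      rw [Real.norm_eq_abs, abs_mul, abs_mul, hJK x hx]
      refine mul_le_mul_of_nonneg_left (mul_le_mul_of_nonneg_right ?_ (abs_nonneg _)) (abs_nonneg _)
      exact ((abs_le_nrm1 _ j q).trans ((le_abs_self _).trans (hBJ x (hOK hx)))).trans
        (le_max_left _ _)
    have h0 := ae_nonneg_of_forall_setIntegral_nonneg hint (fun S hS _ => by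
      set a : E → M := S.indicator fun x => lineForm (J' x) v with ha
      have hask : ∀ x, (a x)ᵀ = -a x := fun x => by
        by_cases hx : x ∈ S
        · simp [ha, hx, lineForm, starF_skew]
        · simp [ha, hx]
      have haL : IsL2Field (volume.restrict O) a := fun i j => by
        rw [funext fun x => indicator_field_apply S _ x i j]
        refine MemLp.of_bound ((hent i j).indicator hS).aestronglyMeasurable
          (64 * max BJ 0 * (v ⬝ᵥ v)) ?_
        filter_upwards [ae_restrict_mem hO] with x hx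
        refine (norm_indicator_le_norm_self _ x).trans ?_
        exact (abs_le_nrm1 _ i j).trans (hnb x hx)
      have hk1 := key a hask haL S hS (64 * max BJ 0 * (v ⬝ᵥ v)) (D * ε ^ 2)
        (mul_nonneg hD (sq_nonneg _)) (fun x hx => by
          by_cases hxS : x ∈ S
          · rw [ha, Set.indicator_of_mem hxS]; exact hnb x hx
          · rw [ha, Set.indicator_of_notMem hxS]
            simpa [nrm1] using mul_nonneg (mul_nonneg (by norm_num : (0:ℝ) ≤ 64) (le_max_right BJ 0))
              (dot_self_nonneg v))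
        (fun x hx => Set.indicator_of_notMem hx _) (by
          filter_upwards [hΘ.psd, hΘ.unit, ae_restrict_mem hK.isClosed.measurableSet]
            with y hy1 hy2 hy3
          refine (hp y hy3 _ (haL.indicator hO) (Θ y) hy1 hy2).1 (fun x => ?_) fun x hx => ?_
          · by_cases hxO : x ∈ O
            · rw [Set.indicator_of_mem hxO]; exact hask x
            · simp [Set.indicator_of_notMem hxO]
          · by_cases hxO : x ∈ O
            · rw [Set.indicator_of_mem hxO, ha]
              by_cases hxS : x ∈ S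
              · rw [Set.indicator_of_mem hxS, hJK x hxO]
                exact psd_lineForm hL (hJO x hxO) v
              · rw [Set.indicator_of_notMem hxS]
                exact ⟨by simp, by simp, fun w => by simp [val]⟩
            · rw [Set.indicator_of_notMem hxO]
              exact ⟨by simp, by simp, fun w => by simp [val]⟩)
      rw [hrep' a haL hask] at hk1
      have e1 : ∫ x in O, wd (J x) (t x) (a x) = ∫ x in S ∩ O, val (t x) v (J' x *ᵥ v) := by
        rw [← integral_indicator hO, ← integral_indicator (hS.inter hO)]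
        refine integral_congr_ae (Filter.Eventually.of_forall fun x => ?_)
        by_cases hxO : x ∈ O
        · by_cases hxS : x ∈ S
          · rw [Set.indicator_of_mem hxO, Set.indicator_of_mem (show x ∈ S ∩ O from ⟨hxS, hxO⟩), ha,
              Set.indicator_of_mem hxS, hJK x hxO]
            have hne : pfq (wmat (J x)) (wmat (J x)) ≠ 0 := fun h => by
              have := (hL.2.2.1 (J x) (hJO x hxO)).2
              rw [h, mul_zero] at this
              exact lt_irrefl _ this
            exact wd_lineForm hne (htsk x) v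
          · simp [hxO, hxS, ha, wd, pfq]
        · simp [hxO]
      rw [e1] at hk1
      have hiS : ∀ {f : E → ℝ}, Integrable f (volume.restrict O) →
          IntegrableOn f (S ∩ O) volume := fun hf => IntegrableOn.mono_set hf inter_subset_right
      rw [Measure.restrict_restrict hS]
      have hkS := hiS (((hkint C).const_mul (C * ε ^ 2)).mul_const (v ⬝ᵥ v))
      have hv1 : IntegrableOn (fun x => val (t x) v (J' x *ᵥ v)) (S ∩ O) := by
        have := (hiS hint).sub hkS
        refine this.congr_fun (fun x _ => ?_) (hS.inter hO)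
        simp only [Pi.sub_apply]; ring
      rw [integral_add hv1 hkS]
      have : ∫ x in S ∩ O, D * ε ^ 2 * (64 * max BJ 0 * (v ⬝ᵥ v)) *
            ((ε ^ 4)⁻¹ * (μ.restrict K).real (closedBall x (D * ε)))
          ≤ ∫ x in S ∩ O, C * ε ^ 2 * kball μ K C ε x * (v ⬝ᵥ v) := by
        refine integral_mono_of_nonneg (Filter.Eventually.of_forall fun x => mul_nonneg
          (mul_nonneg (mul_nonneg hD (sq_nonneg _)) (mul_nonneg (mul_nonneg (by norm_num)
            (le_max_right _ _)) (dot_self_nonneg v))) (mul_nonneg (inv_pos.2 (pow_pos hε.1 4)).le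
            measureReal_nonneg)) hkS (Filter.Eventually.of_forall fun x => ?_)
        have h1 : (ε ^ 4)⁻¹ * (μ.restrict K).real (closedBall x (D * ε)) ≤ kball μ K C ε x := by
          rw [kball, mul_assoc]
          refine le_trans ?_ (le_mul_of_one_le_left (mul_nonneg (inv_pos.2 (pow_pos hε.1 4)).le
            measureReal_nonneg) (by linarith))
          exact mul_le_mul_of_nonneg_left (measureReal_mono (closedBall_subset_closedBall
            (mul_le_mul_of_nonneg_right hDC hε.1.le))) (inv_pos.2 (pow_pos hε.1 4)).le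
        calc D * ε ^ 2 * (64 * max BJ 0 * (v ⬝ᵥ v)) *
              ((ε ^ 4)⁻¹ * (μ.restrict K).real (closedBall x (D * ε)))
            = (64 * max BJ 0 * D) * ε ^ 2 *
                ((ε ^ 4)⁻¹ * (μ.restrict K).real (closedBall x (D * ε))) * (v ⬝ᵥ v) := by ring
          _ ≤ _ := mul_le_mul_of_nonneg_right (mul_le_mul
              (mul_le_mul_of_nonneg_right hBC1 (sq_nonneg _)) h1
              (mul_nonneg (inv_pos.2 (pow_pos hε.1 4)).le measureReal_nonneg)
              (mul_nonneg hC0 (sq_nonneg _))) (dot_self_nonneg v)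
      linarith)
    filter_upwards [h0] with x hx
    simp only [Pi.zero_apply] at hx
    linarith
  have hanti : ∀ c d, ∀ s : ℝ, |s| = 1 → ∀ᵐ x ∂volume.restrict O,
      s * val (panti (J' x) (t x)) (e c) (e d) ≤ BPs * D * ε *
        ((ε ^ 4)⁻¹ * (μ.restrict K).real (closedBall x (D * ε))) := by
    intro c d s hs
    have hpm : ∀ i j, Measurable fun x => panti (J' x) (B₀ c d) i j := fun i j => by
      simp only [panti, Matrix.smul_apply, Matrix.sub_apply, Matrix.mul_apply,
        Matrix.transpose_apply, smul_eq_mul]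
      exact (measurable_const.sub (Finset.measurable_sum _ fun q _ =>
        (Finset.measurable_sum _ fun p _ => (hJ'm p i).mul_const _).mul (hJ'm q j))).const_mul _
    have hnb : ∀ x ∈ O, nrm1 ((-(s * sgnJ (J' x))) • panti (J' x) (B₀ c d)) ≤ BPs := fun x hx => by
      rw [nrm1_smul_unit, hJK x hx, abs_neg, abs_mul, hs, one_mul]
      calc |sgnJ (J x)| * nrm1 (panti (J x) (B₀ c d)) ≤ 1 * BPs :=
            mul_le_mul (abs_sgnJ_le_one _) (hBPle (c, d) x (hOK hx)) (nrm1_nonneg _) zero_le_one
        _ = _ := one_mul _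
    have hkDint : Integrable (fun x => BPs * D * ε *
        ((ε ^ 4)⁻¹ * (μ.restrict K).real (closedBall x (D * ε)))) (volume.restrict O) :=
      Integrable.of_bound (((measurable_measure_closedBall (μ.restrict K)
        (D * ε)).ennreal_toReal.const_mul _).const_mul _).aestronglyMeasurable
        (|BPs * D * ε| * (|(ε ^ 4)⁻¹| * (μ.restrict K).real univ))
        (Filter.Eventually.of_forall fun x => by
          rw [Real.norm_eq_abs, abs_mul, abs_mul ((ε ^ 4)⁻¹)]
          refine mul_le_mul_of_nonneg_left (mul_le_mul_of_nonneg_left ?_ (abs_nonneg _))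
            (abs_nonneg _)
          exact (abs_of_nonneg measureReal_nonneg).le.trans (measureReal_mono (subset_univ _)))
    have hvint : Integrable (fun x => s * val (panti (J' x) (t x)) (e c) (e d))
        (volume.restrict O) := by
      have hexp : ∀ x, val (panti (J' x) (t x)) (e c) (e d)
          = (1 / 2 : ℝ) * (t x c d - ∑ q, ∑ p, t x p q * (J' x p c * J' x q d)) := fun x => by
        simp [val, e, panti, Matrix.mul_apply, Matrix.mulVec, dotProduct, Pi.single_apply,
          Finset.sum_mul]
        exact Finset.sum_congr rfl fun q _ => Finset.sum_congr rfl fun p _ => by ring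
      simp only [hexp]
      refine (((hi1 c d).sub (integrable_finsetSum _ fun q _ =>
        integrable_finsetSum _ fun p _ => ?_)).const_mul _).const_mul _
      refine (hi1 p q).mul_bdd (c := max BJ 0 * max BJ 0)
        (((hJ'm p c).mul (hJ'm q d)).aestronglyMeasurable) ?_
      filter_upwards [ae_restrict_mem hO] with x hx
      rw [Real.norm_eq_abs, abs_mul, hJK x hx]
      have hb : ∀ i j, |J x i j| ≤ max BJ 0 := fun i j =>
        ((abs_le_nrm1 _ i j).trans ((le_abs_self _).trans (hBJ x (hOK hx)))).trans (le_max_left _ _)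
      exact mul_le_mul (hb p c) (hb q d) (abs_nonneg _) (le_max_right _ _)
    have h0 := ae_nonneg_of_forall_setIntegral_nonneg (hkDint.sub hvint) (fun S hS _ => by
      set a : E → M :=
        S.indicator fun x => (-(s * sgnJ (J' x))) • panti (J' x) (B₀ c d) with ha
      have hask : ∀ x, (a x)ᵀ = -a x := fun x => by
        by_cases hx : x ∈ S
        · simp [ha, hx, panti_skew (J' x) (starF_skew (wedge2 (e c) (e d))), hB₀]
        · simp [ha, hx]
      have hb : ∀ x ∈ O, nrm1 (a x) ≤ BPs := fun x hx => by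
        by_cases hxS : x ∈ S
        · rw [ha, Set.indicator_of_mem hxS]; exact hnb x hx
        · rw [ha, Set.indicator_of_notMem hxS]; simpa [nrm1] using hBPs0
      have haL : IsL2Field (volume.restrict O) a := fun i j => by
        refine MemLp.of_bound ?_ BPs ?_
        · rw [funext fun x => indicator_field_apply S _ x i j]
          exact ((((measurable_const.mul (measurable_sgnJ hJ'm)).neg).mul (hpm i j)).indicator
            hS).aestronglyMeasurable
        · filter_upwards [ae_restrict_mem hO] with x hx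
          exact (abs_le_nrm1 _ i j).trans (hb x hx)
      have hk1 := key a hask haL S hS BPs (D * ε) (mul_nonneg hD hε.1.le) hb
        (fun x hx => Set.indicator_of_notMem hx _) (by
          filter_upwards [hΘ.psd, hΘ.unit, ae_restrict_mem hK.isClosed.measurableSet]
            with y hy1 hy2 hy3
          refine (abs_le.1 ((hp y hy3 _ (haL.indicator hO) (Θ y) hy1 hy2).2
            (fun x => ?_) fun x _ => ?_)).1
          · by_cases hxO : x ∈ O
            · rw [Set.indicator_of_mem hxO]; exact hask x
            · simp [Set.indicator_of_notMem hxO]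
          · by_cases hxO : x ∈ O
            · rw [Set.indicator_of_mem hxO, ha]
              by_cases hxS : x ∈ S
              · rw [Set.indicator_of_mem hxS, hJK x hxO, pinv_smul, pinv_panti (hJO x hxO),
                  smul_zero]
              · rw [Set.indicator_of_notMem hxS]; simp [pinv]
            · rw [Set.indicator_of_notMem hxO]; simp [pinv])
      rw [hrep' a haL hask] at hk1
      have e1 : ∫ x in O, wd (J x) (t x) (a x)
          = ∫ x in S ∩ O, -(s * val (panti (J' x) (t x)) (e c) (e d)) := by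
        rw [← integral_indicator hO, ← integral_indicator (hS.inter hO)]
        refine integral_congr_ae (Filter.Eventually.of_forall fun x => ?_)
        by_cases hxO : x ∈ O
        · by_cases hxS : x ∈ S
          · rw [Set.indicator_of_mem hxO, Set.indicator_of_mem (show x ∈ S ∩ O from ⟨hxS, hxO⟩), ha,
              Set.indicator_of_mem hxS, hJK x hxO]
            have hne : pfq (wmat (J x)) (wmat (J x)) ≠ 0 := fun h => by
              have := (hL.2.2.1 (J x) (hJO x hxO)).2
              rw [h, mul_zero] at this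
              exact lt_irrefl _ this
            rw [wd, pfq_comm, pfq_smul_left, pfq_comm,
              pfq_panti_comm hL (hJO x hxO) (htsk x) (starF_skew _),
              pfq_starF_wedge (panti_skew _ (htsk x))]
            calc sgnJ (J x) * (-(s * sgnJ (J x)) * val (panti (J x) (t x)) (e c) (e d))
                = -(s * (sgnJ (J x) * sgnJ (J x)) * val (panti (J x) (t x)) (e c) (e d)) := by ring
              _ = _ := by rw [sgnJ_sq hne, mul_one]
          · simp [hxO, hxS, ha, wd, pfq]
        · simp [hxO]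
      rw [e1, integral_neg, neg_le_neg_iff] at hk1
      rw [Measure.restrict_restrict hS]
      have hk1' : ∫ x in S ∩ O, s * val (panti (J' x) (t x)) (e c) (e d)
          ≤ ∫ x in S ∩ O, BPs * D * ε *
            ((ε ^ 4)⁻¹ * (μ.restrict K).real (closedBall x (D * ε))) := by
        refine hk1.trans_eq (setIntegral_congr_fun (hS.inter hO) fun x _ => ?_)
        ring
      simp only [Pi.sub_apply]
      rw [integral_sub (IntegrableOn.mono_set hkDint inter_subset_right)
        (IntegrableOn.mono_set hvint inter_subset_right)]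
      linarith)
    filter_upwards [h0] with x hx
    simp only [Pi.zero_apply, Pi.sub_apply] at hx
    linarith
  have htn : ∀ᵐ x ∂volume.restrict O, nrm1 (t x) ≤ 32 * kball μ K C₁ ε x :=
    htk _ (Filter.Eventually.of_forall fun x => kball_nonneg μ K hC₁ hε.1 x) hk
      (fun a ha => (hbd a ha).2) inferInstance
  have hdense := ae_all_iff.2 fun i : ℕ => hpos (TopologicalSpace.denseSeq E i)
  have hanti' := ae_all_iff.2 fun c => ae_all_iff.2 fun d => (hanti c d 1 (by simp)).and
    (hanti c d (-1) (by simp))
  filter_upwards [htn, hdense, hanti', ae_restrict_mem hO] with x h1 h2 h3 hx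
  have hk0 : 0 ≤ kball μ K C ε x := kball_nonneg μ K hC0 hε.1 x
  refine ⟨h1.trans (mul_le_mul hle32 (hkC C₁ hC₁ hC₁C x) (kball_nonneg μ K hC₁ hε.1 x) hC0),
    ?_, fun v => ?_⟩
  · have hcd : ∀ c d, |panti (J x) (t x) c d| ≤ BPs * D * ε *
        ((ε ^ 4)⁻¹ * (μ.restrict K).real (closedBall x (D * ε))) := fun c d => by
      have hv : val (panti (J' x) (t x)) (e c) (e d) = panti (J x) (t x) c d := by
        rw [hJK x hx]
        simp [val, e, Matrix.mulVec, dotProduct, Pi.single_apply]
      obtain ⟨h31, h32⟩ := h3 c d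
      rw [hv] at h31 h32
      exact abs_le.2 ⟨by linarith, by linarith⟩
    refine (Finset.sum_le_sum fun c _ => Finset.sum_le_sum fun d _ => hcd c d).trans ?_
    have h1C : (1 : ℝ) ≤ C := by linarith
    have h4 : (ε ^ 4)⁻¹ * (μ.restrict K).real (closedBall x (D * ε)) ≤ kball μ K C ε x := by
      rw [kball, mul_assoc]
      refine le_trans ?_ (le_mul_of_one_le_left (mul_nonneg (inv_pos.2 (pow_pos hε.1 4)).le
        measureReal_nonneg) h1C)
      exact mul_le_mul_of_nonneg_left (measureReal_mono (closedBall_subset_closedBall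
        (mul_le_mul_of_nonneg_right hDC hε.1.le))) (inv_pos.2 (pow_pos hε.1 4)).le
    calc ∑ _c : Fin 4, ∑ _d : Fin 4, BPs * D * ε *
          ((ε ^ 4)⁻¹ * (μ.restrict K).real (closedBall x (D * ε)))
        = 16 * BPs * D * ε * ((ε ^ 4)⁻¹ * (μ.restrict K).real (closedBall x (D * ε))) := by
          simp; ring
      _ ≤ _ := mul_le_mul (mul_le_mul_of_nonneg_right hBC2 hε.1.le) h4
          (mul_nonneg (inv_pos.2 (pow_pos hε.1 4)).le measureReal_nonneg) (mul_nonneg hC0 hε.1.le)
  · rw [hJK x hx] at h2
    have hcl : IsClosed {v : E | -(C * ε ^ 2 * kball μ K C ε x * (v ⬝ᵥ v))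
        ≤ val (t x) v (J x *ᵥ v)} := by
      refine isClosed_le ?_ ?_ <;> (simp only [val, dotProduct, Matrix.mulVec]; fun_prop)
    exact (TopologicalSpace.denseRange_denseSeq E).induction_on v hcl h2

end Vale.Agent.P204.Tame
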