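import Vale.Agent.P204.Tame.Loc.PhiPart
import Vale.Agent.P204.Tame.Loc.TPart
import Vale.Agent.P204.Tame.Linear

/-!
Estimates in a chart for the vanishing of obstructions: a field which is semipositive up to a small
error gives a smoothed field with small negative pairing and small anti-invariant part; scaled
ball masses tend to zero in the mean.
-/

namespace Vale.Agent.P204.Tame

open scoped ContDiff Matrix ENNReal Topology
open MeasureTheory Metric Set Filter

variable {n : ℕ}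

theorem nrm1_add_le_conc (a b : M) : nrm1 (a + b) ≤ nrm1 a + nrm1 b := by
  simp only [nrm1, Matrix.add_apply, ← Finset.sum_add_distrib]
  exact Finset.sum_le_sum fun i _ => Finset.sum_le_sum fun j _ => abs_add_le _ _

theorem wd_add_conc (J Θ a b : M) : wd J Θ (a + b) = wd J Θ a + wd J Θ b := by
  simp only [wd, pfq, Matrix.add_apply]
  ring

theorem wd_smul_conc (J Θ : M) (r : ℝ) (a : M) : wd J Θ (r • a) = r * wd J Θ a := by
  simp only [wd, pfq, Matrix.smul_apply, smul_eq_mul]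
  ring

theorem val_add_smul_conc (a b : M) (r : ℝ) (u v : E) :
    val (a + r • b) u v = val a u v + r * val b u v := by
  simp only [val, Matrix.add_mulVec, Matrix.smul_mulVec, dotProduct_add, dotProduct_smul,
    smul_eq_mul]

theorem psd_zero_conc (J : M) : Psd J (0 : M) :=
  ⟨by simp, by simp, fun v => by simp [val]⟩

/-- Bounds for the Hermitian form of a continuous complex structure on a compact set. -/
theorem exists_wmat_bounds {J : E → M} {K : Set E} (hK : IsCompact K)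
    (hJc : ∀ i j, ContinuousOn (fun y => J y i j) K) (hsq : ∀ y ∈ K, J y * J y = -1) :
    ∃ B : ℝ, 0 < B ∧ ∀ y ∈ K, nrm1 (wmat (J y)) ≤ B ∧ nrm1 (J y) ≤ B ∧
      nrm1 (kmat (J y)) ≤ B ∧
      ∀ v, v ⬝ᵥ v ≤ B * val (wmat (J y)) v (J y *ᵥ v) ∧
        |val (wmat (J y)) v (J y *ᵥ v)| ≤ B * (v ⬝ᵥ v) := by
  obtain ⟨hcw, hch⟩ := continuousOn_wmat hJc
  have hcJ : ContinuousOn J K := continuousOn_pi.2 fun i => continuousOn_pi.2 fun j => hJc i j
  have hck : ContinuousOn (fun y => kmat (J y)) K := hcJ.mul hch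
  obtain ⟨b₁, h₁⟩ := hK.exists_bound_of_continuousOn (continuous_nrm1.comp_continuousOn hcw)
  obtain ⟨b₂, h₂⟩ := hK.exists_bound_of_continuousOn (continuous_nrm1.comp_continuousOn hch)
  obtain ⟨b₃, h₃⟩ := hK.exists_bound_of_continuousOn (continuous_nrm1.comp_continuousOn hcJ)
  obtain ⟨b₄, h₄⟩ := hK.exists_bound_of_continuousOn (continuous_nrm1.comp_continuousOn hck)
  set B₁ := max b₁ 0
  set B₂ := max b₂ 0
  set B₃ := max b₃ 0
  set B₄ := max b₄ 0
  have p1 : 0 ≤ B₁ := le_max_right _ _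
  have p2 : 0 ≤ B₂ := le_max_right _ _
  have p3 : 0 ≤ B₃ := le_max_right _ _
  have p4 : 0 ≤ B₄ := le_max_right _ _
  have q2 : 0 ≤ 16 * B₂ ^ 2 * B₃ ^ 2 := by positivity
  have q3 : 0 ≤ 8 * B₁ * B₃ := by positivity
  refine ⟨B₁ + B₃ + B₄ + 16 * B₂ ^ 2 * B₃ ^ 2 + 8 * B₁ * B₃ + 1, by linarith, fun y hy => ?_⟩
  set B := B₁ + B₃ + B₄ + 16 * B₂ ^ 2 * B₃ ^ 2 + 8 * B₁ * B₃ + 1
  have n1 : nrm1 (wmat (J y)) ≤ B₁ := ((le_abs_self _).trans (h₁ y hy)).trans (le_max_left _ _)
  have n2 : nrm1 (hmat (J y)) ≤ B₂ := ((le_abs_self _).trans (h₂ y hy)).trans (le_max_left _ _)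
  have n3 : nrm1 (J y) ≤ B₃ := ((le_abs_self _).trans (h₃ y hy)).trans (le_max_left _ _)
  have n4 : nrm1 (kmat (J y)) ≤ B₄ := ((le_abs_self _).trans (h₄ y hy)).trans (le_max_left _ _)
  refine ⟨by linarith, by linarith, by linarith, fun v => ⟨?_, ?_⟩⟩
  · have h := val_wmat_ge (hsq y hy) v
    have hd := dot_self_nonneg v
    have hc : 16 * nrm1 (hmat (J y)) ^ 2 * nrm1 (J y) ^ 2 ≤ B := by
      have := nrm1_nonneg (hmat (J y))
      have := nrm1_nonneg (J y)
      calc 16 * nrm1 (hmat (J y)) ^ 2 * nrm1 (J y) ^ 2 ≤ 16 * B₂ ^ 2 * B₃ ^ 2 := by gcongr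
        _ ≤ B := by linarith
    rcases le_or_gt 0 (val (wmat (J y)) v (J y *ᵥ v)) with h0 | h0
    · exact h.trans (mul_le_mul_of_nonneg_right hc h0)
    · have : 16 * nrm1 (hmat (J y)) ^ 2 * nrm1 (J y) ^ 2 * val (wmat (J y)) v (J y *ᵥ v) ≤ 0 :=
        mul_nonpos_of_nonneg_of_nonpos (by positivity) h0.le
      have hv : v = 0 := dotProduct_self_eq_zero.1 (le_antisymm (by linarith) hd)
      simp [hv, val] at h0
  · refine (abs_val_le _ _ _).trans ?_
    have hd := dot_self_nonneg v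
    have hs : Real.sqrt ((v ⬝ᵥ v) * ((J y *ᵥ v) ⬝ᵥ (J y *ᵥ v))) ≤ 2 * B₃ * (v ⬝ᵥ v) := by
      rw [Real.sqrt_le_left (by positivity)]
      calc (v ⬝ᵥ v) * ((J y *ᵥ v) ⬝ᵥ (J y *ᵥ v))
          ≤ (v ⬝ᵥ v) * (4 * nrm1 (J y) ^ 2 * (v ⬝ᵥ v)) :=
            mul_le_mul_of_nonneg_left (dot_mulVec_le _ v) hd
        _ ≤ (v ⬝ᵥ v) * (4 * B₃ ^ 2 * (v ⬝ᵥ v)) := by
            have := nrm1_nonneg (J y)
            gcongr
        _ = _ := by ring
    calc 4 * nrm1 (wmat (J y)) * Real.sqrt ((v ⬝ᵥ v) * ((J y *ᵥ v) ⬝ᵥ (J y *ᵥ v)))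
        ≤ 4 * B₁ * (2 * B₃ * (v ⬝ᵥ v)) :=
          mul_le_mul (mul_le_mul_of_nonneg_left n1 (by norm_num)) hs (Real.sqrt_nonneg _)
            (by positivity)
      _ = 8 * B₁ * B₃ * (v ⬝ᵥ v) := by ring
      _ ≤ _ := mul_le_mul_of_nonneg_right (by linarith) hd

/-- Lower bound for the pairing with a semipositive form of unit trace. -/
theorem exists_wd_ge (hL : LinearFacts) {J : E → M} {K : Set E} (hK : IsCompact K)
    (hJc : ∀ i j, ContinuousOn (fun y => J y i j) K) (hsq : ∀ y ∈ K, J y * J y = -1) :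
    ∃ c > 0, ∃ C : ℝ, 0 ≤ C ∧ ∀ y ∈ K, ∀ Θ : M, Psd (J y) Θ → trc (J y) Θ = 1 →
      ∀ g : M, gᵀ = -g → ∀ α β : ℝ, 0 ≤ α → 0 ≤ β →
        (∀ v, (α - β) * (v ⬝ᵥ v) ≤ val g v (J y *ᵥ v)) →
        c * α - C * β ≤ wd (J y) Θ g := by
  obtain ⟨B, hB, hb⟩ := exists_wmat_bounds hK hJc hsq
  obtain ⟨c, hc, hlin⟩ := hL.2.2.2 (J '' K) (hK.image_of_continuousOn
      (continuousOn_pi.2 fun i => continuousOn_pi.2 fun j => hJc i j))
    (by rintro _ ⟨y, hy, rfl⟩; exact hsq y hy)
  refine ⟨c / B ^ 2, by positivity, 6 * c⁻¹ * B ^ 2, by positivity,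
    fun y hy Θ hΘ htr g hg α β hα hβ hv => ?_⟩
  obtain ⟨hw, hJn, hkn, hval⟩ := hb y hy
  obtain ⟨-, h2, -⟩ := hlin (J y) ⟨y, hy, rfl⟩
  obtain ⟨hΘw, hΘt⟩ := h2 Θ hΘ
  rw [htr] at hΘt
  have hΘ1 : nrm1 Θ ≤ c⁻¹ := by
    rw [← one_div, le_div_iff₀ hc, mul_comm]; exact hΘt
  have hΘ0 : 1 ≤ B * nrm1 Θ := by
    rw [← htr, trc]
    refine (le_abs_self _).trans ((abs_neg _).trans_le ?_)
    refine (Finset.abs_sum_le_sum_abs _ _).trans ?_
    calc ∑ i, |∑ j, kmat (J y) i j * Θ i j|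
        ≤ ∑ i, ∑ j, nrm1 (kmat (J y)) * |Θ i j| := Finset.sum_le_sum fun i _ =>
          (Finset.abs_sum_le_sum_abs _ _).trans (Finset.sum_le_sum fun j _ => by
            rw [abs_mul]; exact mul_le_mul_of_nonneg_right (abs_le_nrm1 _ i j) (abs_nonneg _))
      _ = nrm1 (kmat (J y)) * nrm1 Θ := by
          simp only [← Finset.mul_sum]; rfl
      _ ≤ _ := mul_le_mul_of_nonneg_right hkn (nrm1_nonneg _)
  have hJy := hsq y hy
  have hwp := (hL.2.2.1 (J y) hJy).1
  set s := β * B - α / B with hs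
  have hp : Psd (J y) (pinv (J y) g + s • wmat (J y)) := by
    refine ⟨?_, ?_, fun v => ?_⟩
    · rw [Matrix.transpose_add, Matrix.transpose_smul, pinv_skew _ hg, hwp.skew, smul_neg]
      abel
    · simp only [mul_add, add_mul, mul_smul_comm, smul_mul_assoc, pinv_is_inv hJy, hwp.inv]
    · rw [val_add_smul_conc, val_pinv_skew hJy hg]
      obtain ⟨hlo, hup⟩ := hval v
      have h1 : β * (v ⬝ᵥ v) ≤ β * B * val (wmat (J y)) v (J y *ᵥ v) := by
        rw [mul_assoc]; exact mul_le_mul_of_nonneg_left hlo hβ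
      have h2 : α / B * val (wmat (J y)) v (J y *ᵥ v) ≤ α * (v ⬝ᵥ v) := by
        calc α / B * val (wmat (J y)) v (J y *ᵥ v) ≤ α / B * (B * (v ⬝ᵥ v)) :=
              mul_le_mul_of_nonneg_left ((le_abs_self _).trans hup) (div_nonneg hα hB.le)
          _ = _ := by field_simp
      have := hv v
      rw [hs]
      linarith
  have h0 := hL.2.1 (J y) Θ _ hJy hΘ hp
  rw [wd_add_conc, wd_smul_conc] at h0
  have e : wd (J y) Θ (pinv (J y) g) = wd (J y) Θ g := by
    simp only [wd, pfq_eq_pinv hL hJy hΘ hg]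
  rw [e] at h0
  have w1 : wd (J y) Θ (wmat (J y)) ≤ 6 * c⁻¹ * B :=
    ((le_abs_self _).trans (abs_wd_le _ _ _)).trans
      (mul_le_mul (mul_le_mul_of_nonneg_left hΘ1 (by norm_num)) hw (nrm1_nonneg _) (by positivity))
  have w2 : c / B ≤ wd (J y) Θ (wmat (J y)) := by
    refine le_trans ?_ hΘw
    rw [div_le_iff₀ hB]
    calc c = c * 1 := (mul_one c).symm
      _ ≤ c * (B * nrm1 Θ) := mul_le_mul_of_nonneg_left hΘ0 hc.le
      _ = _ := by simp only [nrm1]; ring
  have h3 : β * B * wd (J y) Θ (wmat (J y)) ≤ 6 * c⁻¹ * B ^ 2 * β :=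
    (mul_le_mul_of_nonneg_left w1 (mul_nonneg hβ hB.le)).trans_eq (by ring)
  have h4 : c / B ^ 2 * α ≤ α / B * wd (J y) Θ (wmat (J y)) :=
    le_trans (le_of_eq (by ring)) (mul_le_mul_of_nonneg_left w2 (div_nonneg hα hB.le))
  rw [hs] at h0
  linarith

theorem aestronglyMeasurable_pinv_conc {m : Measure E} {J a : E → M}
    (hJ : ∀ i j, AEStronglyMeasurable (fun x => J x i j) m)
    (ha : ∀ i j, AEStronglyMeasurable (fun x => a x i j) m) (i j : Fin 4) :
    AEStronglyMeasurable (fun x => pinv (J x) (a x) i j) m := by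
  simp only [pinv, Matrix.smul_apply, Matrix.add_apply, Matrix.mul_apply, Matrix.transpose_apply,
    smul_eq_mul]
  refine ((ha i j).add ?_).const_mul _
  exact Finset.aestronglyMeasurable_fun_sum _ fun k _ =>
    (Finset.aestronglyMeasurable_fun_sum _ fun l _ => (hJ l i).mul (ha l k)).mul (hJ k j)

theorem setIntegral_sq_le_conc {f : E → ℝ} {g : E → ℝ} {s : Set E} (hs : MeasurableSet s)
    (hf : IntegrableOn (fun x => f x ^ 2) s) (hg : IntegrableOn (fun x => g x ^ 2) s)
    {h : E → ℝ} (hh : ∀ x ∈ s, |h x| ≤ |f x| + |g x|) :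
    ∫ x in s, h x ^ 2 ≤ 2 * (∫ x in s, f x ^ 2) + 2 * ∫ x in s, g x ^ 2 := by
  rw [← integral_const_mul, ← integral_const_mul, ← integral_add (hf.const_mul 2) (hg.const_mul 2)]
  refine integral_mono_of_nonneg (Eventually.of_forall fun x => sq_nonneg _)
    ((hf.const_mul 2).add (hg.const_mul 2)) ?_
  filter_upwards [ae_restrict_mem hs] with x hx
  have h1 : h x ^ 2 ≤ (|f x| + |g x|) ^ 2 := by
    rw [← sq_abs (h x)]; exact pow_le_pow_left₀ (abs_nonneg _) (hh x hx) 2
  have h2 : 0 ≤ (|f x| - |g x|) ^ 2 := sq_nonneg _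
  have h3 : (|f x| + |g x|) ^ 2 + (|f x| - |g x|) ^ 2 = 2 * f x ^ 2 + 2 * g x ^ 2 := by
    rw [← sq_abs (f x), ← sq_abs (g x)]; ring
  linarith

/-- A field which is semipositive up to `ε²` and invariant up to `ε`: the averaged pullback pairs
almost nonnegatively and is almost invariant. -/
theorem exists_piece_bound (hL : LinearFacts) (hF : SmootherFibre) (hS : SmootherSobolev)
    (hG : SmootherGain) {U : Set E} {σ : (Fin n → ℝ) → E → E} (hσ : IsSmoother U σ)
    {ρ : (Fin n → ℝ) → ℝ} (hρ : IsWeight ρ) {J : E → M} (hJ : IsACS U J) {K O : Set E}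
    (hKU : K ⊆ U) (hK : IsCompact K) (hOK : O ⊆ K) (hO : MeasurableSet O) :
    ∃ D : ℝ, 0 ≤ D ∧ ∃ ε₀ > 0, ∀ ε ∈ Ioc (0 : ℝ) ε₀, ∀ f : E → M, ∀ k : E → ℝ,
      IsL2Field (volume.restrict O) f → (∀ x, (f x)ᵀ = -f x) → (∀ x, 0 ≤ k x) →
      MemLp k 2 (volume.restrict O) →
      (∀ x ∈ O, nrm1 (f x) ≤ k x ∧ nrm1 (panti (J x) (f x)) ≤ ε * k x ∧
        ∀ v, -(ε ^ 2 * k x * (v ⬝ᵥ v)) ≤ val (f x) v (J x *ᵥ v)) →
      (∀ y ∈ K, ∀ Θ : M, Psd (J y) Θ → trc (J y) Θ = 1 →
        -(D * ε ^ 2 * ((ε ^ 4)⁻¹ * ∫ x in closedBall y (D * ε), O.indicator k x)) ≤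
          wd (J y) Θ (smL σ ρ ε (O.indicator f) y)) ∧
      ∀ i j, ∫ y in K, panti (J y) (smL σ ρ ε (O.indicator f) y) i j ^ 2 ≤
        D * ε ^ 2 * ∫ x in O, k x ^ 2 := by
  classical
  have hJc : ∀ i j, ContinuousOn (fun y => J y i j) K := fun i j =>
    (hJ.smooth i j).continuousOn.mono hKU
  have hsq : ∀ y ∈ K, J y * J y = -1 := fun y hy => hJ.sq y (hKU hy)
  obtain ⟨B, hB, hb⟩ := exists_wmat_bounds hK hJc hsq
  obtain ⟨c, hc, hlin⟩ := hL.2.2.2 (J '' K) (hK.image_of_continuousOn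
      (continuousOn_pi.2 fun i => continuousOn_pi.2 fun j => hJc i j))
    (by rintro _ ⟨y, hy, rfl⟩; exact hsq y hy)
  obtain ⟨D₁, hD₁, e₁, he₁, hpt⟩ := exists_tPoint hL hF hσ hρ hJ hKU hK
  obtain ⟨C₁, hC₁, e₂, he₂, hfacts⟩ := exists_smL_facts hF hσ hρ hKU hK
  obtain ⟨C₂, hC₂, e₃, he₃, hgain⟩ := exists_smL_gain hF hS hG hσ hρ hJ hKU hK
  obtain ⟨C₃, hC₃, e₄, he₄, hsob⟩ := exists_smL_sob hS hG hσ hρ hKU hK
  obtain ⟨Cp, hCp, hpan⟩ : ∃ Cp : ℝ, 0 ≤ Cp ∧ ∀ y ∈ K, ∀ u : M, ∀ i j,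
      |panti (J y) u i j| ≤ Cp * nrm1 u := by
    refine ⟨1 + B * B, by positivity, fun y hy u i j => ?_⟩
    have hnJ : nrm1 (J y) ≤ B := (hb y hy).2.1
    rw [panti, Matrix.smul_apply, Matrix.sub_apply, smul_eq_mul]
    have h1 : |((J y)ᵀ * u * J y) i j| ≤ nrm1 (J y) * nrm1 u * nrm1 (J y) := by
      simp only [Matrix.mul_apply, Matrix.transpose_apply]
      refine (Finset.abs_sum_le_sum_abs _ _).trans ?_
      calc ∑ p, |(∑ q, J y q i * u q p) * J y p j|
          ≤ ∑ p, (∑ q, nrm1 (J y) * |u q p|) * nrm1 (J y) := Finset.sum_le_sum fun p _ => by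
            rw [abs_mul]
            refine mul_le_mul ((Finset.abs_sum_le_sum_abs _ _).trans
              (Finset.sum_le_sum fun q _ => ?_)) (abs_le_nrm1 _ _ _) (abs_nonneg _)
              (Finset.sum_nonneg fun q _ => mul_nonneg (nrm1_nonneg _) (abs_nonneg _))
            rw [abs_mul]; exact mul_le_mul_of_nonneg_right (abs_le_nrm1 _ _ _) (abs_nonneg _)
        _ = _ := by
            simp only [← Finset.sum_mul, ← Finset.mul_sum]
            rw [Finset.sum_comm]; rfl
    have h2 : nrm1 (J y) * nrm1 u * nrm1 (J y) ≤ B * B * nrm1 u := by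
      have := nrm1_nonneg (J y)
      have := nrm1_nonneg u
      calc nrm1 (J y) * nrm1 u * nrm1 (J y) ≤ B * nrm1 u * B := by gcongr
        _ = _ := by ring
    have h3 := abs_le_nrm1 u i j
    rw [abs_mul, abs_of_pos (by norm_num : (0 : ℝ) < 1 / 2)]
    have := abs_sub (u i j) (((J y)ᵀ * u * J y) i j)
    nlinarith [abs_nonneg (u i j - ((J y)ᵀ * u * J y) i j)]
  set cP := 2 + B * B
  have hcP : 0 ≤ cP := by positivity
  set Q₁ := D₁ * cP + D₁ + 6 * c⁻¹ * C₁ * (B * B) with hQ₁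
  set Q₂ := 2 * (C₂ * (16 * 2)) ^ 2 + 2 * (16 * Cp) * (16 * Cp * (C₃ * 16) ^ 2) with hQ₂
  refine ⟨D₁ + C₁ + Q₁ + Q₂, by positivity, min (min (min e₁ e₂) (min e₃ e₄)) 1,
    by simp [he₁, he₂, he₃, he₄], fun ε hε f k hf hfs hk hk2 hbd => ?_⟩
  obtain ⟨hle1, hle2, hle3, hle4, hε1⟩ :
      ε ≤ e₁ ∧ ε ≤ e₂ ∧ ε ≤ e₃ ∧ ε ≤ e₄ ∧ ε ≤ 1 := by
    simpa [le_min_iff, and_assoc] using hε.2
  set D := D₁ + C₁ + Q₁ + Q₂ with hD
  have hε2 : ε ^ 2 ≤ ε := by nlinarith [hε.1.le]
  -- the three parts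
  set s : E → ℝ := fun x => B * ε ^ 2 * k x with hs
  set a₁ : E → M := O.indicator fun x => pinv (J x) (f x) + s x • wmat (J x) with ha₁
  set a₂ : E → M := O.indicator fun x => panti (J x) (f x) with ha₂
  set a₃ : E → M := O.indicator fun x => -(s x) • wmat (J x) with ha₃
  set a₄ : E → M := O.indicator fun x => pinv (J x) (f x) with ha₄
  have hsum : O.indicator f = a₁ + (a₂ + a₃) := by
    funext x
    by_cases hx : x ∈ O
    · simp only [ha₁, ha₂, ha₃, Pi.add_apply, Set.indicator_of_mem hx, neg_smul]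
      conv_lhs => rw [← pinv_add_panti (J x) (f x)]
      abel
    · simp [ha₁, ha₂, ha₃, hx]
  have hsum4 : O.indicator f = a₄ + a₂ := by
    funext x
    by_cases hx : x ∈ O
    · simp [ha₂, ha₄, hx, pinv_add_panti]
    · simp [ha₂, ha₄, hx]
  have hpn : ∀ x ∈ O, nrm1 (pinv (J x) (f x)) ≤ 2 * k x := fun x hx => by
    obtain ⟨h1, h2, -⟩ := hbd x hx
    have e : pinv (J x) (f x) = f x + (-1 : ℝ) • panti (J x) (f x) := by
      conv_rhs => arg 1; rw [← pinv_add_panti (J x) (f x)]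
      module
    rw [e]
    refine (nrm1_add_le_conc _ _).trans ?_
    rw [nrm1_smul_unit, abs_neg, abs_one, one_mul]
    have : ε * k x ≤ k x := mul_le_of_le_one_left (hk x) hε1
    linarith
  have hsn : ∀ x ∈ O, ∀ r : ℝ, |r| = s x → nrm1 (r • wmat (J x)) ≤ B * B * ε ^ 2 * k x :=
    fun x hx r hr => by
      rw [nrm1_smul_unit, hr]
      calc s x * nrm1 (wmat (J x)) ≤ s x * B := mul_le_mul_of_nonneg_left (hb x (hOK hx)).1
            (mul_nonneg (mul_nonneg hB.le (sq_nonneg _)) (hk x))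
        _ = _ := by simp only [hs]; ring
  have hs0 : ∀ x, 0 ≤ s x := fun x => mul_nonneg (mul_nonneg hB.le (sq_nonneg _)) (hk x)
  have n1 : ∀ x, nrm1 (a₁ x) ≤ cP * O.indicator k x := fun x => by
    by_cases hx : x ∈ O
    · simp only [ha₁, Set.indicator_of_mem hx]
      refine (nrm1_add_le_conc _ _).trans ?_
      have h1 := hsn x hx _ (abs_of_nonneg (hs0 x))
      have h2 := hpn x hx
      have h3 : B * B * ε ^ 2 * k x ≤ B * B * k x :=
        mul_le_mul_of_nonneg_right (mul_le_of_le_one_right (by positivity) (hε2.trans hε1)) (hk x)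
      simp only [cP]
      linarith
    · simp [ha₁, hx, nrm1]
  have n2 : ∀ x, nrm1 (a₂ x) ≤ ε * O.indicator k x := fun x => by
    by_cases hx : x ∈ O
    · simpa [ha₂, hx] using (hbd x hx).2.1
    · simp [ha₂, hx, nrm1]
  have n3 : ∀ x, nrm1 (a₃ x) ≤ B * B * ε ^ 2 * O.indicator k x := fun x => by
    by_cases hx : x ∈ O
    · simp only [ha₃, Set.indicator_of_mem hx]
      exact hsn x hx _ (by rw [abs_neg, abs_of_nonneg (hs0 x)])
    · simp [ha₃, hx, nrm1]
  have n4 : ∀ x, nrm1 (a₄ x) ≤ 2 * O.indicator k x := fun x => by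
    by_cases hx : x ∈ O
    · simpa [ha₄, hx] using hpn x hx
    · simp [ha₄, hx, nrm1]
  -- integrability
  have hJm : ∀ i j, AEStronglyMeasurable (fun x => J x i j) (volume.restrict O) := fun i j =>
    ((hJc i j).aestronglyMeasurable hK.measurableSet).mono_measure (Measure.restrict_mono hOK le_rfl)
  have hwm : ∀ i j, AEStronglyMeasurable (fun x => wmat (J x) i j) (volume.restrict O) :=
    fun i j => ((continuousOn_pi.1 (continuousOn_pi.1 (continuousOn_wmat hJc).1 i)
      j).aestronglyMeasurable hK.measurableSet).mono_measure (Measure.restrict_mono hOK le_rfl)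
  have hfm : ∀ i j, AEStronglyMeasurable (fun x => f x i j) (volume.restrict O) :=
    fun i j => (hf i j).1
  have hsm' : AEStronglyMeasurable s (volume.restrict O) := hk2.1.const_mul _
  have hkO : MemLp (O.indicator k) 2 volume := (memLp_indicator_iff_restrict hO).2 hk2
  have mk : ∀ (a : E → M) (C : ℝ),
      (∀ i j, AEStronglyMeasurable (fun x => a x i j) (volume.restrict O)) →
      (∀ x, nrm1 (O.indicator a x) ≤ C * O.indicator k x) → IsL2Field volume (O.indicator a) := by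
    intro a C ha hbound i j
    refine MemLp.of_le_mul (c := C) hkO ?_ (Eventually.of_forall fun x => ?_)
    · rw [funext fun x => indicator_field_apply O a x i j]
      exact (aestronglyMeasurable_indicator_iff hO).2 (ha i j)
    · rw [Real.norm_eq_abs, Real.norm_eq_abs,
        abs_of_nonneg (Set.indicator_nonneg (fun x _ => hk x) x)]
      exact (abs_le_nrm1 _ i j).trans (hbound x)
  have hpm := aestronglyMeasurable_pinv_conc hJm hfm
  have l1 : IsL2Field volume a₁ := mk _ cP (fun i j => by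
    simp only [Matrix.add_apply, Matrix.smul_apply, smul_eq_mul]
    exact (hpm i j).add (hsm'.mul (hwm i j))) n1
  have l4 : IsL2Field volume a₄ := mk _ 2 hpm n4
  have l2 : IsL2Field volume a₂ := mk _ ε (fun i j => by
    have e : (fun x => panti (J x) (f x) i j) = fun x => f x i j - pinv (J x) (f x) i j := by
      funext x
      rw [eq_sub_iff_add_eq, add_comm, ← Matrix.add_apply, pinv_add_panti]
    rw [e]
    exact (hfm i j).sub (hpm i j)) n2
  have l3 : IsL2Field volume a₃ := mk _ _ (fun i j => by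
    simp only [Matrix.smul_apply, smul_eq_mul]
    exact hsm'.neg.mul (hwm i j)) n3
  -- pointwise
  have hskew₁ : ∀ x, (a₁ x)ᵀ = -a₁ x := fun x => by
    by_cases hx : x ∈ O
    · have hw := (hL.2.2.1 _ (hsq x (hOK hx))).1.skew
      simp only [ha₁, Set.indicator_of_mem hx, Matrix.transpose_add, Matrix.transpose_smul,
        pinv_skew _ (hfs x), hw, smul_neg]
      abel
    · simp [ha₁, hx]
  have hpsd₁ : ∀ x ∈ U, Psd (J x) (a₁ x) := fun x hxU => by
    by_cases hx : x ∈ O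
    · have hJx := hJ.sq x hxU
      have hw := (hL.2.2.1 _ hJx).1
      refine ⟨hskew₁ x, ?_, fun v => ?_⟩
      · simp only [ha₁, Set.indicator_of_mem hx, mul_add, add_mul, mul_smul_comm, smul_mul_assoc,
          pinv_is_inv hJx, hw.inv]
      · simp only [ha₁, Set.indicator_of_mem hx]
        rw [val_add_smul_conc, val_pinv_skew hJx (hfs x)]
        have h1 := (hbd x hx).2.2 v
        have h2 := mul_le_mul_of_nonneg_left ((hb x (hOK hx)).2.2.2 v).1
          (mul_nonneg (sq_nonneg ε) (hk x))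
        simp only [hs]
        linarith
    · simpa [ha₁, hx] using psd_zero_conc (J x)
  have hskew₂ : ∀ x, (a₂ x)ᵀ = -a₂ x := fun x => by
    by_cases hx : x ∈ O
    · simp [ha₂, hx, panti_skew _ (hfs x)]
    · simp [ha₂, hx]
  have hanti₂ : ∀ x ∈ U, pinv (J x) (a₂ x) = 0 := fun x hxU => by
    by_cases hx : x ∈ O
    · simp [ha₂, hx, pinv_panti (hJ.sq x hxU)]
    · simp [ha₂, hx, pinv]
  refine ⟨fun y hy Θ hΘ htr => ?_, fun i j => ?_⟩
  · obtain ⟨hsm1, hsm2, -, -⟩ := hfacts ε ⟨hε.1, hle2⟩ y hy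
    rw [hsum, hsm2 _ _ l1 (l2.add l3), hsm2 _ _ l2 l3, wd_add_conc, wd_add_conc]
    have h1 := (hpt ε ⟨hε.1, hle1⟩ y hy a₁ l1 Θ hΘ htr).1 hskew₁ hpsd₁
    have h2 := abs_le.1 ((hpt ε ⟨hε.1, hle1⟩ y hy a₂ l2 Θ hΘ htr).2 hskew₂ hanti₂)
    have hΘ1 : nrm1 Θ ≤ c⁻¹ := by
      have := ((hlin (J y) ⟨y, hy, rfl⟩).2.1 Θ hΘ).2
      rw [htr] at this
      rw [← one_div, le_div_iff₀ hc, mul_comm]; exact this
    have h3 : -(6 * c⁻¹ * (C₁ * (ε ^ 4)⁻¹ * ∫ x in closedBall y (C₁ * ε), nrm1 (a₃ x))) ≤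
        wd (J y) Θ (smL σ ρ ε a₃ y) := by
      have := (abs_wd_le (J y) Θ (smL σ ρ ε a₃ y)).trans
        (mul_le_mul (mul_le_mul_of_nonneg_left hΘ1 (by norm_num)) (hsm1 _ l3) (nrm1_nonneg _)
          (by positivity))
      exact (abs_le.1 this).1
    set R := ∫ x in closedBall y (D * ε), O.indicator k x with hR
    have hR0 : 0 ≤ R := integral_nonneg fun x => Set.indicator_nonneg (fun x _ => hk x) x
    have hint : IntegrableOn (O.indicator k) (closedBall y (D * ε)) :=
      (hkO.locallyIntegrable (by norm_num)).integrableOn_isCompact (isCompact_closedBall _ _)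
    have hcmp : ∀ (a : E → M) (C r : ℝ), 0 ≤ C → r ≤ D →
        (∀ x, nrm1 (a x) ≤ C * O.indicator k x) →
        ∫ x in closedBall y (r * ε), nrm1 (a x) ≤ C * R := by
      intro a C r hC hr hbound
      refine le_trans (integral_mono_of_nonneg (Eventually.of_forall fun x => nrm1_nonneg _)
        ((hint.mono_set (closedBall_subset_closedBall
          (mul_le_mul_of_nonneg_right hr hε.1.le))).const_mul C) (Eventually.of_forall hbound)) ?_
      rw [integral_const_mul]
      exact mul_le_mul_of_nonneg_left (setIntegral_mono_set hint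
        (Eventually.of_forall fun x => Set.indicator_nonneg (fun x _ => hk x) x)
        (Eventually.of_forall (closedBall_subset_closedBall
          (mul_le_mul_of_nonneg_right hr hε.1.le)))) hC
    have hQ₁0 : 0 ≤ Q₁ := by positivity
    have hQ₂0 : 0 ≤ Q₂ := by positivity
    have r1 := hcmp a₁ _ D₁ hcP (by linarith) n1
    have r2 := hcmp a₂ _ D₁ hε.1.le (by linarith) n2
    have r3 := hcmp a₃ _ C₁ (by positivity) (by linarith) n3
    have hu : 0 ≤ (ε ^ 4)⁻¹ := inv_nonneg.2 (pow_nonneg hε.1.le 4)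
    have g1 := mul_le_mul_of_nonneg_left (mul_le_mul_of_nonneg_left r1 hu)
      (mul_nonneg hD₁ (sq_nonneg ε))
    have g2 := mul_le_mul_of_nonneg_left (mul_le_mul_of_nonneg_left r2 hu)
      (mul_nonneg hD₁ hε.1.le)
    have g3 := mul_le_mul_of_nonneg_left (mul_le_mul_of_nonneg_left r3 (mul_nonneg hC₁ hu))
      (mul_nonneg (by norm_num : (0 : ℝ) ≤ 6) (inv_nonneg.2 hc.le))
    have g4 : Q₁ * (ε ^ 2 * ((ε ^ 4)⁻¹ * R)) ≤ D * (ε ^ 2 * ((ε ^ 4)⁻¹ * R)) :=
      mul_le_mul_of_nonneg_right (by linarith) (by positivity)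
    rw [hQ₁] at g4
    linarith [h2.1]
  · set I := ∫ x in O, k x ^ 2 with hI
    have hI0 : 0 ≤ I := integral_nonneg fun x => sq_nonneg _
    have hK' : MeasurableSet K := hK.measurableSet
    have hIk : ∫ x, (O.indicator k x) ^ 2 = I := by
      rw [hI, ← integral_indicator hO]
      exact integral_congr_ae (Eventually.of_forall fun x => by
        by_cases hx : x ∈ O <;> simp [hx])
    have hL2 : ∀ (a : E → M) (C : ℝ), 0 ≤ C → IsL2Field volume a →
        (∀ x, nrm1 (a x) ≤ C * O.indicator k x) →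
        ∑ p, ∑ q, Real.sqrt (∫ x, a x p q ^ 2) ≤ 16 * C * Real.sqrt I := by
      intro a C hC ha hbound
      have h1 : ∀ p q, Real.sqrt (∫ x, a x p q ^ 2) ≤ C * Real.sqrt I := fun p q => by
        rw [← Real.sqrt_sq hC, ← Real.sqrt_mul (sq_nonneg C), ← hIk, ← integral_const_mul]
        refine Real.sqrt_le_sqrt (integral_mono_of_nonneg
          (Eventually.of_forall fun x => sq_nonneg _) (hkO.integrable_sq.const_mul _)
          (Eventually.of_forall fun x => ?_))
        simp only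
        rw [← mul_pow, ← sq_abs]
        exact pow_le_pow_left₀ (abs_nonneg _) ((abs_le_nrm1 _ p q).trans (hbound x)) 2
      calc ∑ p, ∑ q, Real.sqrt (∫ x, a x p q ^ 2)
          ≤ ∑ _p : Fin 4, ∑ _q : Fin 4, C * Real.sqrt I :=
            Finset.sum_le_sum fun p _ => Finset.sum_le_sum fun q _ => h1 p q
        _ = _ := by simp; ring
    have hzero : ∀ (G : E → ℝ) (C : ℝ), 0 ≤ C →
        (ε ^ 0 * Real.sqrt (∫ y in K, ‖iteratedFDeriv ℝ 0 G y‖ ^ 2)) ≤ C * Real.sqrt I →
        ∫ y in K, G y ^ 2 ≤ C ^ 2 * I := by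
      intro G C hC h
      simp only [norm_iteratedFDeriv_zero, Real.norm_eq_abs, sq_abs, pow_zero, one_mul] at h
      have := pow_le_pow_left₀ (Real.sqrt_nonneg _) h 2
      rwa [Real.sq_sqrt (integral_nonneg fun y => sq_nonneg _), mul_pow, Real.sq_sqrt hI0] at this
    have hinv₄ : ∀ x ∈ U, pinv (J x) (a₄ x) = a₄ x := fun x hxU => by
      by_cases hx : x ∈ O
      · simp only [ha₄, Set.indicator_of_mem hx]
        rw [pinv, pinv_is_inv (hJ.sq x hxU), ← two_smul ℝ (pinv (J x) (f x)), smul_smul]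
        norm_num
      · simp [ha₄, hx, pinv]
    have hcs : ∀ (a : E → M), IsL2Field volume a → ∀ p q,
        ContinuousOn (fun y => smL σ ρ ε a y p q) K := fun a ha p q y hy =>
      (((hsob ε ⟨hε.1, hle4⟩ a ha p q).1 y hy).continuousAt).continuousWithinAt
    have hcsP : ∀ (a : E → M), IsL2Field volume a →
        ContinuousOn (fun y => panti (J y) (smL σ ρ ε a y) i j) K := fun a ha => by
      simp only [panti, Matrix.smul_apply, Matrix.sub_apply, Matrix.mul_apply,
        Matrix.transpose_apply, smul_eq_mul]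
      refine ((hcs a ha i j).sub ?_).const_smul (1 / 2 : ℝ)
      exact continuousOn_finsetSum _ fun p _ =>
        (continuousOn_finsetSum _ fun q _ => (hJc q i).mul (hcs a ha q p)).mul (hJc p j)
    have hint : ∀ (G : E → ℝ), ContinuousOn G K → IntegrableOn (fun y => G y ^ 2) K :=
      fun G hG => (hG.pow 2).integrableOn_compact hK
    -- invariant part
    have b1 : ∫ y in K, panti (J y) (smL σ ρ ε a₄ y) i j ^ 2 ≤ (C₂ * ε * (16 * 2)) ^ 2 * I := by
      refine hzero _ _ (mul_nonneg (mul_nonneg hC₂ hε.1.le) (by norm_num)) ?_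
      refine (hgain ε ⟨hε.1, hle3⟩ a₄ l4 hinv₄ i j 0 (Nat.zero_le 8)).trans ?_
      exact (mul_le_mul_of_nonneg_left (hL2 a₄ 2 (by norm_num) l4 n4)
        (mul_nonneg hC₂ hε.1.le)).trans_eq (by ring)
    -- anti-invariant part
    have b2 : ∀ p q, ∫ y in K, smL σ ρ ε a₂ y p q ^ 2 ≤ (C₃ * 16 * ε) ^ 2 * I := fun p q => by
      refine hzero _ _ (mul_nonneg (mul_nonneg hC₃ (by norm_num)) hε.1.le) ?_
      refine ((hsob ε ⟨hε.1, hle4⟩ a₂ l2 p q).2 0 (Nat.zero_le 8)).trans ?_
      exact (mul_le_mul_of_nonneg_left (hL2 a₂ ε hε.1.le l2 n2) hC₃).trans_eq (by ring)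
    set N : E → ℝ := fun y => Cp * nrm1 (smL σ ρ ε a₂ y) with hN
    have hNsq : ∀ y, N y ^ 2 ≤ Cp ^ 2 * (16 * ∑ p, ∑ q, smL σ ρ ε a₂ y p q ^ 2) := fun y => by
      simp only [hN, mul_pow]
      refine mul_le_mul_of_nonneg_left ?_ (sq_nonneg Cp)
      set u := smL σ ρ ε a₂ y
      have h1 : nrm1 u = ∑ pq : Fin 4 × Fin 4, |u pq.1 pq.2| := by
        rw [Fintype.sum_prod_type]; rfl
      rw [h1, ← Fintype.sum_prod_type (f := fun pq : Fin 4 × Fin 4 => u pq.1 pq.2 ^ 2)]
      refine sq_sum_le_card_mul_sum_sq.trans_eq ?_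
      simp [sq_abs]
    have hNc : ContinuousOn N K :=
      (continuous_nrm1.comp_continuousOn
        (continuousOn_pi.2 fun p => continuousOn_pi.2 fun q => hcs a₂ l2 p q)).const_smul Cp
    have b3 : ∫ y in K, N y ^ 2 ≤ Cp ^ 2 * (16 * (16 * ((C₃ * 16 * ε) ^ 2 * I))) := by
      have hi : ∀ p q, IntegrableOn (fun y => smL σ ρ ε a₂ y p q ^ 2) K :=
        fun p q => hint _ (hcs a₂ l2 p q)
      have hi' : IntegrableOn (fun y => Cp ^ 2 * (16 * ∑ p, ∑ q, smL σ ρ ε a₂ y p q ^ 2)) K :=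
        ((integrable_finsetSum _ fun p _ => integrable_finsetSum _ fun q _ => hi p q).const_mul
          _).const_mul _
      refine (integral_mono (hint N hNc) hi' hNsq).trans ?_
      rw [integral_const_mul, integral_const_mul,
        integral_finsetSum _ fun p _ => integrable_finsetSum _ fun q _ => hi p q]
      refine mul_le_mul_of_nonneg_left (mul_le_mul_of_nonneg_left ?_ (by norm_num)) (sq_nonneg _)
      calc ∑ p, ∫ y in K, ∑ q, smL σ ρ ε a₂ y p q ^ 2
          ≤ ∑ _p : Fin 4, ∑ _q : Fin 4, (C₃ * 16 * ε) ^ 2 * I := Finset.sum_le_sum fun p _ => by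
            rw [integral_finsetSum _ fun q _ => hi p q]
            exact Finset.sum_le_sum fun q _ => b2 p q
        _ = _ := by simp; ring
    have htot := setIntegral_sq_le_conc hK' (hint _ (hcsP a₄ l4)) (hint N hNc)
      (h := fun y => panti (J y) (smL σ ρ ε (O.indicator f) y) i j) fun y hy => by
        obtain ⟨-, hsm2, -, -⟩ := hfacts ε ⟨hε.1, hle2⟩ y hy
        have hl : panti (J y) (smL σ ρ ε a₄ y + smL σ ρ ε a₂ y) i j =
            panti (J y) (smL σ ρ ε a₄ y) i j + panti (J y) (smL σ ρ ε a₂ y) i j := by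
          simp only [panti, mul_add, add_mul, Matrix.smul_apply, Matrix.sub_apply,
            Matrix.add_apply, smul_eq_mul]
          ring
        rw [hsum4, hsm2 _ _ l4 l2, hl]
        refine (abs_add_le _ _).trans (add_le_add le_rfl ?_)
        exact (hpan y hy _ i j).trans (le_abs_self _)
    have g : Q₂ * (ε ^ 2 * I) ≤ D * (ε ^ 2 * I) := by
      have hQ₁0 : 0 ≤ Q₁ := by positivity
      exact mul_le_mul_of_nonneg_right (by linarith) (by positivity)
    rw [hQ₂] at g
    linarith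

/-- The integral of scaled ball masses over a small ball. -/
theorem integral_ball_kball_le (μ : Measure E) {K O : Set E} (hK : μ K < ⊤)
    {C D ε : ℝ} (hC : 0 ≤ C) (hD : 0 ≤ D) (hε : 0 < ε) (y : E) :
    ∫ x in closedBall y (D * ε), O.indicator (kball μ K C ε) x ≤
      C * (2 * D) ^ 4 * (μ.restrict K).real (closedBall y ((C + D) * ε)) := by
  have : IsFiniteMeasure (μ.restrict K) := ⟨by simpa using hK⟩
  set P := C * (ε ^ 4)⁻¹ * (μ.restrict K).real (closedBall y ((C + D) * ε)) with hP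
  have : IsFiniteMeasure (volume.restrict (closedBall y (D * ε))) :=
    ⟨by simpa using measure_closedBall_lt_top⟩
  calc ∫ x in closedBall y (D * ε), O.indicator (kball μ K C ε) x
      ≤ ∫ _x in closedBall y (D * ε), P := by
        refine integral_mono_of_nonneg (Eventually.of_forall fun x =>
          Set.indicator_nonneg (fun x _ => kball_nonneg μ K hC hε x) x) (integrable_const P) ?_
        filter_upwards [ae_restrict_mem measurableSet_closedBall] with x hx
        refine (Set.indicator_le_self' (fun x _ => kball_nonneg μ K hC hε x) x).trans ?_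
        refine mul_le_mul_of_nonneg_left (measureReal_mono ?_) (by positivity)
        exact closedBall_subset_closedBall' (by rw [mem_closedBall] at hx; linarith)
    _ = (2 * (D * ε)) ^ 4 * P := by
        rw [setIntegral_const, smul_eq_mul, measureReal_def,
          Real.volume_pi_closedBall y (mul_nonneg hD hε.le), Fintype.card_fin,
          ENNReal.toReal_ofReal (by positivity)]
    _ = _ := by
        rw [hP]
        field_simp

/-- The square integral of scaled ball masses. -/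
theorem integral_sq_kball_le (hBS : BallSquare) (μ : Measure E) {K : Set E} (hK : μ K < ⊤)
    (O : Set E) {C ε : ℝ} (hC : 0 ≤ C) (hε : 0 < ε) :
    ε ^ 2 * ∫ x in O, kball μ K C ε x ^ 2 ≤
      C ^ 2 * (2 * C) ^ 4 *
        ∫ y in K, (ε ^ 2)⁻¹ * (μ.restrict K).real (closedBall y (2 * C * ε)) ∂μ := by
  have : IsFiniteMeasure (μ.restrict K) := ⟨by simpa using hK⟩
  set ν := μ.restrict K with hν
  have hm : ∀ r : ℝ, Measurable fun x => ν.real (closedBall x r) := fun r =>
    (measurable_measure_closedBall ν r).ennreal_toReal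
  have hsq : ∫ x in O, ν.real (closedBall x (C * ε)) ^ 2 ≤
      (2 * (C * ε)) ^ 4 * ∫ y, ν.real (closedBall y (2 * (C * ε))) ∂ν := by
    have hi : Integrable (fun y => ν.real (closedBall y (2 * (C * ε)))) ν :=
      Integrable.of_bound (hm _).aestronglyMeasurable (ν.real univ)
        (Eventually.of_forall fun y => by
          rw [Real.norm_eq_abs, abs_of_nonneg measureReal_nonneg]
          exact measureReal_mono (subset_univ _))
    rw [integral_eq_lintegral_of_nonneg_ae (Eventually.of_forall fun x => sq_nonneg _)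
      ((hm _).pow_const 2).aestronglyMeasurable]
    refine ENNReal.toReal_le_of_le_ofReal
      (mul_nonneg (by positivity) (integral_nonneg fun y => measureReal_nonneg)) ?_
    rw [ENNReal.ofReal_mul (by positivity), ofReal_integral_eq_lintegral_ofReal hi
      (Eventually.of_forall fun y => measureReal_nonneg)]
    calc ∫⁻ x in O, ENNReal.ofReal (ν.real (closedBall x (C * ε)) ^ 2)
        ≤ ∫⁻ x, ν (closedBall x (C * ε)) ^ 2 := by
          refine (setLIntegral_le_lintegral _ _).trans (lintegral_mono fun x => ?_)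
          rw [measureReal_def, ← ENNReal.toReal_pow,
            ENNReal.ofReal_toReal (ENNReal.pow_ne_top (measure_ne_top _ _))]
      _ ≤ volume (closedBall (0 : E) (C * ε)) * ∫⁻ y, ν (closedBall y (2 * (C * ε))) ∂ν :=
          hBS ν _
      _ = _ := by
          rw [Real.volume_pi_closedBall (0 : E) (mul_nonneg hC hε.le), Fintype.card_fin]
          congr 1
          exact lintegral_congr fun y => (ofReal_measureReal (measure_ne_top _ _)).symm
  simp only [kball, mul_pow, ← hν]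
  rw [integral_const_mul, integral_const_mul]
  refine (mul_le_mul_of_nonneg_left (mul_le_mul_of_nonneg_left hsq (by positivity))
    (sq_nonneg ε)).trans_eq ?_
  rw [show 2 * (C * ε) = 2 * C * ε by ring]
  field_simp

/-- Scaled ball masses of a measure of quadratic growth tend to zero in the mean for a measure
which sees no density. -/
theorem tendsto_ball_mass {m ν : Measure E} [IsFiniteMeasure ν] {K : Set E} (hK : IsCompact K)
    (hm : m K < ⊤) {A r₀ : ℝ} (hr₀ : 0 < r₀)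
    (hq : ∀ y ∈ K, ∀ r ∈ Ioc (0 : ℝ) r₀, ν (closedBall y r) ≤ ENNReal.ofReal (A * r ^ 2))
    (hnd : ∀ᵐ y ∂m.restrict K, Tendsto (fun r : ℝ => ν (closedBall y r) / ENNReal.ofReal (r ^ 2))
      (𝓝[>] 0) (𝓝 0)) {C : ℝ} (hC : 0 < C) :
    Tendsto (fun ε => ∫ y in K, (ε ^ 2)⁻¹ * ν.real (closedBall y (C * ε)) ∂m) (𝓝[>] 0) (𝓝 0) := by
  have : IsFiniteMeasure (m.restrict K) := ⟨by simpa using hm⟩
  have h := tendsto_integral_filter_of_dominated_convergence (μ := m.restrict K)
    (l := 𝓝[>] (0 : ℝ)) (F := fun ε y => (ε ^ 2)⁻¹ * ν.real (closedBall y (C * ε)))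
    (f := fun _ => (0 : ℝ)) (fun _ => max A 0 * C ^ 2)
    (Eventually.of_forall fun ε =>
      (((measurable_measure_closedBall ν _).ennreal_toReal).const_mul _).aestronglyMeasurable)
    ?_ (integrable_const _) ?_
  · simpa using h
  · filter_upwards [Ioc_mem_nhdsGT (div_pos hr₀ hC)] with ε hε
    filter_upwards [ae_restrict_mem hK.measurableSet] with y hy
    have hCe : C * ε ∈ Ioc (0 : ℝ) r₀ :=
      ⟨mul_pos hC hε.1, by rw [mul_comm]; exact (le_div_iff₀ hC).1 hε.2⟩
    rw [Real.norm_eq_abs, abs_of_nonneg (mul_nonneg (by positivity) measureReal_nonneg)]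
    have h1 : ν.real (closedBall y (C * ε)) ≤ max A 0 * (C * ε) ^ 2 :=
      ENNReal.toReal_le_of_le_ofReal (by positivity) ((hq y hy _ hCe).trans
        (ENNReal.ofReal_le_ofReal (mul_le_mul_of_nonneg_right (le_max_left _ _) (sq_nonneg _))))
    rw [inv_mul_le_iff₀ (pow_pos hε.1 2)]
    exact h1.trans_eq (by ring)
  · filter_upwards [hnd] with y hy
    have hmap : Tendsto (fun ε : ℝ => C * ε) (𝓝[>] 0) (𝓝[>] 0) := by
      refine tendsto_nhdsWithin_iff.2 ⟨?_, ?_⟩
      · have h0 : Tendsto (fun ε : ℝ => C * ε) (𝓝 0) (𝓝 (C * 0)) :=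
          (continuous_const.mul continuous_id).tendsto 0
        rw [mul_zero] at h0
        exact h0.mono_left nhdsWithin_le_nhds
      · filter_upwards [self_mem_nhdsWithin] with ε hε using mul_pos hC hε
    have h2 := (ENNReal.tendsto_toReal ENNReal.zero_ne_top).comp (hy.comp hmap)
    have h3 := h2.const_mul (C ^ 2)
    simp only [ENNReal.toReal_zero, mul_zero] at h3
    refine h3.congr' ?_
    filter_upwards [self_mem_nhdsWithin] with ε hε
    simp only [mem_Ioi] at hε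
    simp only [Function.comp, ENNReal.toReal_div, ENNReal.toReal_ofReal (sq_nonneg _),
      measureReal_def]
    field_simp

end Vale.Agent.P204.Tame
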