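import Vale.Agent.P204.Tame.Loc.Base

/-!
Domination of an averaged pullback by ball averages, and its integral against a measure.
-/

namespace Vale.Agent.P204.Tame

open scoped ContDiff Matrix ENNReal
open MeasureTheory Metric Set

variable {n : ℕ}

theorem lintegral_ball_swap (μ : Measure E) [SFinite μ] (r : ℝ) {f : E → ℝ≥0∞} (hf : Measurable f) :
    ∫⁻ y, ∫⁻ x in closedBall y r, f x ∂volume ∂μ = ∫⁻ x, f x * μ (closedBall x r) := by
  have hm : MeasurableSet {z : E × E | dist z.2 z.1 ≤ r} :=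
    measurableSet_le (by fun_prop) measurable_const
  have hmeas : Measurable ({z : E × E | dist z.2 z.1 ≤ r}.indicator fun z => f z.2) :=
    (hf.comp measurable_snd).indicator hm
  calc ∫⁻ y, ∫⁻ x in closedBall y r, f x ∂volume ∂μ
      = ∫⁻ y, ∫⁻ x, {z : E × E | dist z.2 z.1 ≤ r}.indicator (fun z => f z.2) (y, x) ∂volume ∂μ := by
        refine lintegral_congr fun y => ?_
        rw [← lintegral_indicator measurableSet_closedBall]
        exact lintegral_congr fun x => by by_cases h : dist x y ≤ r <;> simp [h, Metric.mem_closedBall]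
    _ = ∫⁻ x, ∫⁻ y, {z : E × E | dist z.2 z.1 ≤ r}.indicator (fun z => f z.2) (y, x) ∂μ ∂volume :=
        lintegral_lintegral_swap hmeas.aemeasurable
    _ = _ := by
        refine lintegral_congr fun x => ?_
        rw [← setLIntegral_const, ← lintegral_indicator measurableSet_closedBall]
        exact lintegral_congr fun y => by
          by_cases h : dist x y ≤ r <;> simp [h, Metric.mem_closedBall, dist_comm y x]

/-- The pointwise bound of an averaged pullback by a ball average. -/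
theorem exists_kerOp_le (hF : SmootherFibre) {U : Set E} {σ : (Fin n → ℝ) → E → E}
    (hσ : IsSmoother U σ) {ρ : (Fin n → ℝ) → ℝ} (hρ : IsWeight ρ) {K : Set E} (hKU : K ⊆ U)
    (hK : IsCompact K) {W : Set ((Fin n → ℝ) × E)} (hW : IsOpen W)
    (h0 : ({0} : Set (Fin n → ℝ)) ×ˢ K ⊆ W) {q : (Fin n → ℝ) → E → ℝ}
    (hq : ContDiffOn ℝ ∞ (fun z => q z.1 z.2) W) :
    ∃ C : ℝ, 0 ≤ C ∧ ∃ ε₀ > 0, ∀ ε ∈ Ioc (0 : ℝ) ε₀, ∀ y ∈ K, ∀ u : E → ℝ, Measurable u →
      ∫⁻ v, ‖(ε ^ n)⁻¹ * (ρ (ε⁻¹ • v) * q v y * u (σ v y))‖ₑ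
        ≤ ENNReal.ofReal (C * (ε ^ 4)⁻¹) * ∫⁻ x in closedBall y (C * ε), ‖u x‖ₑ := by
  obtain ⟨C₁, ε₁, hε₁, hfib⟩ := hF n U σ hσ K hKU hK
  obtain ⟨L, hL, δ, hδ, -, hLb⟩ := exists_lip hW hK h0 hq
  obtain ⟨R, hR⟩ := hρ.bdd
  refine ⟨max 0 (max C₁ (max 0 R * L * C₁)), le_max_left _ _, min ε₁ δ, lt_min hε₁ hδ,
    fun ε hε y hy u hu => ?_⟩
  have h1 : ∀ v, ‖(ε ^ n)⁻¹ * (ρ (ε⁻¹ • v) * q v y * u (σ v y))‖ₑ ≤ ENNReal.ofReal (max 0 R * L) *
      (ENNReal.ofReal ((ε ^ n)⁻¹) *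
        (closedBall (0 : Fin n → ℝ) ε).indicator (fun v => ‖u (σ v y)‖ₑ) v) := fun v => by
    by_cases hv : v ∈ closedBall (0 : Fin n → ℝ) ε
    · rw [Set.indicator_of_mem hv, Real.enorm_eq_ofReal_abs, abs_mul, abs_mul, abs_mul,
        abs_of_nonneg (hρ.nonneg _),
        abs_of_pos (inv_pos.2 (pow_pos hε.1 n)), ← enorm_norm (u (σ v y)), Real.enorm_eq_ofReal_abs,
        abs_norm, Real.norm_eq_abs, ← ENNReal.ofReal_mul (inv_pos.2 (pow_pos hε.1 n)).le,
        ← ENNReal.ofReal_mul (mul_nonneg (le_max_left _ _) hL)]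
      refine ENNReal.ofReal_le_ofReal ?_
      have hq' : |q v y| ≤ L := (hLb v (closedBall_subset_closedBall
        (hε.2.trans (min_le_right _ _)) hv) y hy).2
      calc (ε ^ n)⁻¹ * (ρ (ε⁻¹ • v) * |q v y| * |u (σ v y)|)
          ≤ (ε ^ n)⁻¹ * (max 0 R * L * |u (σ v y)|) :=
            mul_le_mul_of_nonneg_left (mul_le_mul_of_nonneg_right
              (mul_le_mul ((hR _).trans (le_max_right _ _)) hq' (abs_nonneg _) (le_max_left _ _))
              (abs_nonneg _)) (inv_pos.2 (pow_pos hε.1 n)).le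
        _ = _ := by ring
    · rw [mem_closedBall_zero_iff, not_le] at hv
      simp [hρ.eq_zero hε.1 hv]
  refine (lintegral_mono h1).trans ?_
  rw [lintegral_const_mul' _ _ ENNReal.ofReal_ne_top, lintegral_const_mul' _ _ ENNReal.ofReal_ne_top,
    lintegral_indicator measurableSet_closedBall]
  refine (mul_le_mul' le_rfl (hfib ε ⟨hε.1, hε.2.trans (min_le_left _ _)⟩ y hy _ hu.enorm)).trans ?_
  rw [← mul_assoc, ← ENNReal.ofReal_mul (mul_nonneg (le_max_left _ _) hL)]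
  refine mul_le_mul' (ENNReal.ofReal_le_ofReal ?_) (lintegral_mono_set ?_)
  · rw [← mul_assoc]
    exact mul_le_mul_of_nonneg_right ((le_max_right _ _).trans (le_max_right _ _))
      (inv_pos.2 (pow_pos hε.1 4)).le
  · exact closedBall_subset_closedBall (mul_le_mul_of_nonneg_right
      ((le_max_left _ _).trans (le_max_right _ _)) hε.1.le)

end Vale.Agent.P204.Tame
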