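import Vale.Agent.P204.Tame.Loc.KerBound

/-!
Averaged pullbacks of square integrable functions: integrability, linearity, pointwise bound.
-/

namespace Vale.Agent.P204.Tame

open scoped ContDiff Matrix ENNReal
open MeasureTheory Metric Set

variable {n : ℕ}

/-- For small scales the integrand of an averaged pullback is integrable, the average is linear
and it is bounded by a ball average. -/
theorem exists_kerOp_facts (hF : SmootherFibre) {U : Set E} {σ : (Fin n → ℝ) → E → E}
    (hσ : IsSmoother U σ) {ρ : (Fin n → ℝ) → ℝ} (hρ : IsWeight ρ) {K : Set E} (hKU : K ⊆ U)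
    (hK : IsCompact K) {W : Set ((Fin n → ℝ) × E)} (hW : IsOpen W)
    (h0 : ({0} : Set (Fin n → ℝ)) ×ˢ K ⊆ W) {q : (Fin n → ℝ) → E → ℝ}
    (hq : ContDiffOn ℝ ∞ (fun z => q z.1 z.2) W) :
    ∃ C : ℝ, 0 ≤ C ∧ ∃ ε₀ > 0, ∀ ε ∈ Ioc (0 : ℝ) ε₀, ∀ y ∈ K,
      (∀ u : E → ℝ, MemLp u 2 volume →
        Integrable (fun v => ρ (ε⁻¹ • v) * q v y * u (σ v y)) ∧
        |kerOp σ ρ q ε u y| ≤ C * (ε ^ 4)⁻¹ * ∫ x in closedBall y (C * ε), |u x|) ∧
      (∀ u u' : E → ℝ, MemLp u 2 volume → MemLp u' 2 volume →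
        kerOp σ ρ q ε (u + u') y = kerOp σ ρ q ε u y + kerOp σ ρ q ε u' y) ∧
      (∀ (r : ℝ) (u : E → ℝ), kerOp σ ρ q ε (r • u) y = r * kerOp σ ρ q ε u y) := by
  obtain ⟨Wσ, hWσo, hWσ0, hWσ⟩ := hσ.smooth
  have h0' : ({0} : Set (Fin n → ℝ)) ×ˢ K ⊆ W ∩ Wσ :=
    subset_inter h0 ((prod_mono subset_rfl hKU).trans hWσ0)
  obtain ⟨δ, hδ, htube⟩ := exists_tube (hW.inter hWσo) hK h0'
  obtain ⟨C, hC, ε₁, hε₁, hbd⟩ := exists_kerOp_le hF hσ hρ hKU hK hW h0 hq
  obtain ⟨C₂, ε₂, hε₂, hfib⟩ := hF n U σ hσ K hKU hK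
  refine ⟨C, hC, min δ (min ε₁ ε₂), lt_min hδ (lt_min hε₁ hε₂), fun ε hε y hy => ?_⟩
  have hεδ : ε ≤ δ := hε.2.trans (min_le_left _ _)
  have hε1 : ε ∈ Ioc (0 : ℝ) ε₁ := ⟨hε.1, hε.2.trans ((min_le_right _ _).trans (min_le_left _ _))⟩
  have hε2 : ε ∈ Ioc (0 : ℝ) ε₂ := ⟨hε.1, hε.2.trans ((min_le_right _ _).trans (min_le_right _ _))⟩
  set Bl := closedBall (0 : Fin n → ℝ) ε with hBl
  have hcq : ContinuousOn (fun v => q v y) Bl :=
    hq.continuousOn.comp (Continuous.prodMk_left y).continuousOn fun v hv =>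
      (htube ⟨closedBall_subset_closedBall hεδ hv, hy⟩).1
  have hcσ : ContinuousOn (fun v => σ v y) Bl :=
    hWσ.continuousOn.comp (Continuous.prodMk_left y).continuousOn fun v hv =>
      (htube ⟨closedBall_subset_closedBall hεδ hv, hy⟩).2
  have key : ∀ u : E → ℝ, MemLp u 2 volume →
      Integrable (fun v => ρ (ε⁻¹ • v) * q v y * u (σ v y)) ∧
        |kerOp σ ρ q ε u y| ≤ C * (ε ^ 4)⁻¹ * ∫ x in closedBall y (C * ε), |u x| := by
    intro u hu
    set u' := hu.1.mk u with hu'
    have hu'm : Measurable u' := hu.1.stronglyMeasurable_mk.measurable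
    have hae : u =ᵐ[volume] u' := hu.1.ae_eq_mk
    set N := toMeasurable volume {x | u x ≠ u' x} with hN
    have hN0 : volume N = 0 := by rw [hN, measure_toMeasurable]; exact hae
    have hpre : volume (Bl ∩ {v | σ v y ∈ N}) = 0 := by
      have h := hfib ε hε2 y hy (N.indicator fun _ => 1)
        (measurable_const.indicator (measurableSet_toMeasurable _ _))
      have hz : ∫⁻ x in closedBall y (C₂ * ε), N.indicator (fun _ => (1 : ℝ≥0∞)) x = 0 := by
        rw [lintegral_indicator (measurableSet_toMeasurable _ _), setLIntegral_const, one_mul]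
        exact measure_mono_null Subset.rfl (Measure.restrict_apply_le _ _ |>.trans hN0.le |>
          nonpos_iff_eq_zero.1)
      rw [hz, mul_zero, nonpos_iff_eq_zero, mul_eq_zero] at h
      have h' : ∫⁻ v in Bl, N.indicator (fun _ => (1 : ℝ≥0∞)) (σ v y) = 0 :=
        h.resolve_left (by simp [pow_pos hε.1 n])
      have hm : AEMeasurable (fun v => σ v y) (volume.restrict Bl) :=
        hcσ.aemeasurable measurableSet_closedBall
      have hmm : AEMeasurable (fun v => N.indicator (fun _ => (1 : ℝ≥0∞)) (σ v y))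
          (volume.restrict Bl) :=
        (measurable_const.indicator (measurableSet_toMeasurable _ _)).comp_aemeasurable hm
      rw [lintegral_eq_zero_iff' hmm] at h'
      rw [Filter.EventuallyEq, ae_restrict_iff' measurableSet_closedBall, ae_iff] at h'
      refine measure_mono_null (fun v hv => ?_) h'
      intro hc
      have h1 := hc hv.1
      rw [Set.indicator_of_mem (show σ v y ∈ N from hv.2)] at h1
      exact one_ne_zero h1
    have hEq : (fun v => ρ (ε⁻¹ • v) * q v y * u (σ v y))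
        =ᵐ[volume] Bl.indicator fun v => ρ (ε⁻¹ • v) * q v y * u' (σ v y) := by
      rw [Filter.EventuallyEq, ae_iff]
      refine measure_mono_null (fun v hv => ?_) hpre
      by_cases hvB : v ∈ Bl
      · refine ⟨hvB, ?_⟩
        by_contra hc
        have : u (σ v y) = u' (σ v y) := by
          by_contra hne
          exact hc (subset_toMeasurable _ _ hne)
        exact hv (by rw [Set.indicator_of_mem hvB, this])
      · exfalso
        refine hv ?_
        rw [Set.indicator_of_notMem hvB, hρ.eq_zero hε.1 (by simpa [hBl] using hvB)]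
        ring
    have hI : ∫⁻ v, ‖(ε ^ n)⁻¹ * (ρ (ε⁻¹ • v) * q v y * u (σ v y))‖ₑ
        ≤ ENNReal.ofReal (C * (ε ^ 4)⁻¹) * ∫⁻ x in closedBall y (C * ε), ‖u x‖ₑ := by
      refine le_trans (le_of_eq (lintegral_congr_ae ?_)) ((hbd ε hε1 y hy u' hu'm).trans (le_of_eq ?_))
      · filter_upwards [hEq] with v hv
        rw [hv]
        by_cases hvB : v ∈ Bl
        · rw [Set.indicator_of_mem hvB]
        · rw [Set.indicator_of_notMem hvB, hρ.eq_zero hε.1 (by simpa [hBl] using hvB)]
          simp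
      · congr 1
        refine lintegral_congr_ae ?_
        filter_upwards [ae_restrict_of_ae hae] with x hx
        rw [hx]
    have hfin : ∫⁻ x in closedBall y (C * ε), ‖u x‖ₑ < ⊤ :=
      ((hu.locallyIntegrable (by norm_num)).integrableOn_isCompact
        (isCompact_closedBall _ _)).2
    have hint : Integrable (fun v => (ε ^ n)⁻¹ * (ρ (ε⁻¹ • v) * q v y * u (σ v y))) := by
      refine ⟨?_, hI.trans_lt (ENNReal.mul_lt_top ENNReal.ofReal_lt_top hfin)⟩
      refine (AEStronglyMeasurable.congr ?_ hEq.symm).const_mul _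
      refine (aestronglyMeasurable_indicator_iff measurableSet_closedBall).2 ?_
      have h1 : AEStronglyMeasurable (fun v => ρ (ε⁻¹ • v) * q v y) (volume.restrict Bl) :=
        ((hρ.smooth.continuous.comp (continuous_const_smul _)).continuousOn.mul
          hcq).aestronglyMeasurable measurableSet_closedBall
      exact h1.mul ((hu'm.comp_aemeasurable
        (hcσ.aemeasurable measurableSet_closedBall)).aestronglyMeasurable)
    refine ⟨by simpa [pow_ne_zero n hε.1.ne'] using hint.const_mul (ε ^ n), ?_⟩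
    have h1 : |kerOp σ ρ q ε u y| ≤
        (∫⁻ v, ‖(ε ^ n)⁻¹ * (ρ (ε⁻¹ • v) * q v y * u (σ v y))‖ₑ).toReal := by
      rw [kerOp, ← integral_const_mul, ← Real.norm_eq_abs]
      refine (norm_integral_le_integral_norm _).trans_eq ?_
      rw [integral_norm_eq_lintegral_enorm hint.1]
    refine h1.trans ?_
    refine (ENNReal.toReal_mono (ENNReal.mul_ne_top ENNReal.ofReal_ne_top hfin.ne) hI).trans_eq ?_
    rw [ENNReal.toReal_mul, ENNReal.toReal_ofReal (mul_nonneg hC (inv_pos.2 (pow_pos hε.1 4)).le),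
      ← integral_norm_eq_lintegral_enorm hu.1.restrict]
    rfl
  refine ⟨key, fun u u' hu hu' => ?_, fun r u => ?_⟩
  · simp only [kerOp, Pi.add_apply, mul_add]
    rw [integral_add (key u hu).1 (key u' hu').1, mul_add]
  · simp only [kerOp, Pi.smul_apply, smul_eq_mul]
    rw [← mul_assoc r, mul_comm r, mul_assoc _ r, ← integral_const_mul r]
    congr 1
    exact integral_congr_ae (Filter.Eventually.of_forall fun v => by ring)

end Vale.Agent.P204.Tame
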