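import Vale.Agent.P204.Tame.Loc.SmL
import Vale.Agent.P204.Tame.Loc.Pull
import Vale.Agent.P204.Tame.Loc.AlgExt

/-!
Semiclassical Sobolev bounds for averaged pullbacks of fields, and the gain of one power of the
scale for the anti-invariant part of an averaged invariant field.
-/

namespace Vale.Agent.P204.Tame

open scoped ContDiff Matrix
open MeasureTheory Metric Set

variable {n : ℕ}

theorem pinv_neg' (J u : M) : panti J u = u - pinv J u :=
  eq_sub_of_add_eq' (pinv_add_panti J u)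

/-- Bounds for a finite combination of averaged pullbacks of scalars. -/
theorem sob_sum {ι : Type*} (s : Finset ι) {K : Set E} (hK : IsCompact K) {F : ι → E → ℝ} {l : ℕ}
    (hF : ∀ k ∈ s, ∀ y ∈ K, ContDiffAt ℝ ∞ (F k) y) :
    Real.sqrt (∫ y in K, ‖iteratedFDeriv ℝ l (fun x => ∑ k ∈ s, F k x) y‖ ^ 2)
      ≤ ∑ k ∈ s, Real.sqrt (∫ y in K, ‖iteratedFDeriv ℝ l (F k) y‖ ^ 2) := by
  classical
  have hc : ∀ k ∈ s, ContinuousOn (fun y => ‖iteratedFDeriv ℝ l (F k) y‖) K := fun k hk y hy =>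
    (((hF k hk y hy).iteratedFDeriv_right (m := 0) (i := l)
      (by simp only [zero_add]; exact_mod_cast le_top)).continuousAt.norm).continuousWithinAt
  have hmem : ∀ k ∈ s, MemLp (fun y => ‖iteratedFDeriv ℝ l (F k) y‖) 2 (volume.restrict K) := by
    intro k hk
    haveI : IsFiniteMeasure (volume.restrict K) := ⟨by simpa using hK.measure_lt_top⟩
    obtain ⟨B, hB⟩ := hK.exists_bound_of_continuousOn (hc k hk)
    exact MemLp.of_bound ((hc k hk).aestronglyMeasurable hK.isClosed.measurableSet) B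
      ((ae_restrict_mem hK.isClosed.measurableSet).mono fun y hy => hB y hy)
  have hn : ∀ {h : E → ℝ} (hh : MemLp h 2 (volume.restrict K)),
      ‖hh.toLp h‖ = Real.sqrt (∫ x in K, h x ^ 2) := by
    intro h hh
    rw [← Real.sqrt_sq (norm_nonneg (hh.toLp h)), ← real_inner_self_eq_norm_sq, L2.inner_def]
    congr 1
    refine integral_congr_ae ?_
    filter_upwards [hh.coeFn_toLp] with x hx
    simp [hx, sq]
  have hle : ∀ y ∈ K, ‖iteratedFDeriv ℝ l (fun x => ∑ k ∈ s, F k x) y‖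
      ≤ ∑ k ∈ s, ‖iteratedFDeriv ℝ l (F k) y‖ := fun y hy => by
    rw [iteratedFDeriv_fun_sum_apply fun k hk => (hF k hk y hy).of_le (by exact_mod_cast le_top)]
    exact norm_sum_le _ _
  have hsum : MemLp (fun y => ∑ k ∈ s, ‖iteratedFDeriv ℝ l (F k) y‖) 2 (volume.restrict K) :=
    memLp_finsetSum _ hmem
  calc Real.sqrt (∫ y in K, ‖iteratedFDeriv ℝ l (fun x => ∑ k ∈ s, F k x) y‖ ^ 2)
      ≤ Real.sqrt (∫ y in K, (∑ k ∈ s, ‖iteratedFDeriv ℝ l (F k) y‖) ^ 2) := by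
        refine Real.sqrt_le_sqrt (integral_mono_of_nonneg
          (Filter.Eventually.of_forall fun y => sq_nonneg _) hsum.integrable_sq ?_)
        filter_upwards [ae_restrict_mem hK.isClosed.measurableSet] with y hy
        exact pow_le_pow_left₀ (norm_nonneg _) (hle y hy) 2
    _ = ‖hsum.toLp _‖ := (hn hsum).symm
    _ ≤ ∑ k ∈ s, Real.sqrt (∫ y in K, ‖iteratedFDeriv ℝ l (F k) y‖ ^ 2) := by
        have key : ∀ t : Finset ι, t ⊆ s →
            ∀ ht : MemLp (fun y => ∑ k ∈ t, ‖iteratedFDeriv ℝ l (F k) y‖) 2 (volume.restrict K),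
            ‖ht.toLp _‖ ≤ ∑ k ∈ t, Real.sqrt (∫ y in K, ‖iteratedFDeriv ℝ l (F k) y‖ ^ 2) := by
          intro t
          induction t using Finset.induction with
          | empty => intro _ ht; rw [hn ht]; simp
          | insert a t hat ih =>
            intro hts ht
            have ha := hmem a (hts (Finset.mem_insert_self _ _))
            have htt : MemLp (fun y => ∑ k ∈ t, ‖iteratedFDeriv ℝ l (F k) y‖) 2
                (volume.restrict K) :=
              memLp_finsetSum _ fun k hk => hmem k (hts (Finset.mem_insert_of_mem hk))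
            have e : ht.toLp _ = ha.toLp _ + htt.toLp _ := by
              rw [← MemLp.toLp_add]
              refine MemLp.toLp_congr _ _ (Filter.Eventually.of_forall fun y => ?_)
              simp [Finset.sum_insert hat]
            rw [e, Finset.sum_insert hat]
            refine (norm_add_le _ _).trans (add_le_add (hn ha).le ?_)
            exact ih (fun k hk => hts (Finset.mem_insert_of_mem hk)) htt
        exact key s subset_rfl hsum

theorem sqrt_scale {ε C I J : ℝ} {l : ℕ} (hε : 0 < ε) (hC : 0 ≤ C)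
    (h : ε ^ (2 * l) * I ≤ C * J) :
    ε ^ l * Real.sqrt I ≤ Real.sqrt C * Real.sqrt J := by
  have h1 : ε ^ l * Real.sqrt I = Real.sqrt (ε ^ (2 * l) * I) := by
    rw [Real.sqrt_mul (pow_nonneg hε.le _), pow_mul', Real.sqrt_sq (pow_nonneg hε.le l)]
  rw [h1, ← Real.sqrt_mul hC]
  exact Real.sqrt_le_sqrt h

/-- A general combination of averaged pullbacks obeys the semiclassical bounds, with the constant
of its coefficient families. -/
theorem exists_comb_sob (hS : SmootherSobolev) (hG : SmootherGain) {U : Set E}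
    {σ : (Fin n → ℝ) → E → E} (hσ : IsSmoother U σ) {ρ : (Fin n → ℝ) → ℝ} (hρ : IsWeight ρ)
    {K : Set E} (hKU : K ⊆ U) (hK : IsCompact K)
    (q : Fin 4 → Fin 4 → (Fin n → ℝ) → E → ℝ)
    (hq : ∀ c d, ∃ W : Set ((Fin n → ℝ) × E), IsOpen W ∧ ({0} : Set (Fin n → ℝ)) ×ˢ U ⊆ W ∧
      ContDiffOn ℝ ∞ (fun z => q c d z.1 z.2) W) :
    ∃ C : ℝ, 0 ≤ C ∧ ∃ ε₀ > 0, ∀ ε ∈ Ioc (0 : ℝ) ε₀, ∀ a, IsL2Field volume a →
      (∀ y ∈ K, ContDiffAt ℝ ∞
        (fun x => ∑ c, ∑ d, kerOp σ ρ (q c d) ε (fun x => a x c d) x) y) ∧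
      ∀ l ≤ 8,
        (ε ^ l * Real.sqrt (∫ y in K, ‖iteratedFDeriv ℝ l
          (fun x => ∑ c, ∑ d, kerOp σ ρ (q c d) ε (fun x => a x c d) x) y‖ ^ 2)
            ≤ C * ∑ c, ∑ d, Real.sqrt (∫ x, a x c d ^ 2)) ∧
        ((∀ c d, ∀ y ∈ U, q c d 0 y = 0) →
          ε ^ l * Real.sqrt (∫ y in K, ‖iteratedFDeriv ℝ l
            (fun x => ∑ c, ∑ d, kerOp σ ρ (q c d) ε (fun x => a x c d) x) y‖ ^ 2)
              ≤ C * ε * ∑ c, ∑ d, Real.sqrt (∫ x, a x c d ^ 2)) := by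
  classical
  choose e₀ he₀ hsm hb using fun k : Fin 4 × Fin 4 =>
    hS n U σ hσ ρ (q k.1 k.2) hρ.smooth hρ.supp (hq k.1 k.2) K hKU hK
  choose C₁ hC₁ using fun k => hb k 8
  have hgain : ∀ k : Fin 4 × Fin 4, ∃ e₁ > 0, ∃ C₂ : ℝ, (∀ y ∈ U, q k.1 k.2 0 y = 0) →
      ∀ ε ∈ Ioc (0 : ℝ) e₁, ∀ u : E → ℝ, MemLp u 2 volume → ∀ l ≤ 8,
        ε ^ (2 * l) * ∫ y in K, ‖iteratedFDeriv ℝ l (kerOp σ ρ (q k.1 k.2) ε u) y‖ ^ 2
          ≤ C₂ * ε ^ 2 * ∫ y, u y ^ 2 := by
    intro k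
    by_cases h : ∀ y ∈ U, q k.1 k.2 0 y = 0
    · obtain ⟨e₁, he₁, hh⟩ := hG n U σ hσ ρ (q k.1 k.2) hρ.smooth hρ.supp (hq k.1 k.2) h K hKU hK
      obtain ⟨C₂, hC₂⟩ := hh 8
      exact ⟨e₁, he₁, C₂, fun _ => hC₂⟩
    · exact ⟨1, one_pos, 0, fun h' => absurd h' h⟩
  choose e₁ he₁ C₂ hC₂ using hgain
  obtain ⟨ε₀, hε₀, hle0, hle1⟩ : ∃ ε₀ > 0, (∀ k, ε₀ ≤ e₀ k) ∧ ∀ k, ε₀ ≤ e₁ k :=
    ⟨min (Finset.univ.inf' Finset.univ_nonempty e₀) (Finset.univ.inf' Finset.univ_nonempty e₁),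
      lt_min ((Finset.lt_inf'_iff _).2 fun k _ => he₀ k) ((Finset.lt_inf'_iff _).2 fun k _ => he₁ k),
      fun k => (min_le_left _ _).trans (Finset.inf'_le _ (Finset.mem_univ k)),
      fun k => (min_le_right _ _).trans (Finset.inf'_le _ (Finset.mem_univ k))⟩
  set C := ∑ k, (Real.sqrt (C₁ k) + Real.sqrt (C₂ k)) with hC
  have hC0 : 0 ≤ C := Finset.sum_nonneg fun k _ => by positivity
  have hCle : ∀ k, Real.sqrt (C₁ k) ≤ C ∧ Real.sqrt (C₂ k) ≤ C := fun k => by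
    have := Finset.single_le_sum (f := fun k => Real.sqrt (C₁ k) + Real.sqrt (C₂ k))
      (fun k _ => by positivity) (Finset.mem_univ k)
    simp only [← hC] at this
    constructor <;> linarith [Real.sqrt_nonneg (C₁ k), Real.sqrt_nonneg (C₂ k)]
  refine ⟨C, hC0, ε₀, hε₀, fun ε hε a ha => ?_⟩
  have hsm' : ∀ c d, ∀ y ∈ K, ContDiffAt ℝ ∞ (kerOp σ ρ (q c d) ε (fun x => a x c d)) y :=
    fun c d => hsm (c, d) ε ⟨hε.1, hε.2.trans (hle0 _)⟩ _ (ha c d)
  refine ⟨fun y hy => ContDiffAt.sum fun c _ => ContDiffAt.sum fun d _ => hsm' c d y hy,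
    fun l hl => ?_⟩
  set F : Fin 4 × Fin 4 → E → ℝ := fun k => kerOp σ ρ (q k.1 k.2) ε (fun x => a x k.1 k.2) with hF
  have hfun : (fun x => ∑ c, ∑ d, kerOp σ ρ (q c d) ε (fun x => a x c d) x)
      = fun x => ∑ k, F k x := by
    funext x; rw [Fintype.sum_prod_type]
  rw [hfun]
  have hsum := sob_sum Finset.univ hK (F := F) (l := l) fun k _ => hsm' k.1 k.2
  have hS2 : ∀ (k : Fin 4 × Fin 4) (B : ℝ), 0 ≤ B →
      ε ^ (2 * l) * ∫ y in K, ‖iteratedFDeriv ℝ l (F k) y‖ ^ 2 ≤ B * ∫ x, a x k.1 k.2 ^ 2 →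
      ε ^ l * Real.sqrt (∫ y in K, ‖iteratedFDeriv ℝ l (F k) y‖ ^ 2)
        ≤ Real.sqrt B * Real.sqrt (∫ x, a x k.1 k.2 ^ 2) := fun k B hB h =>
    sqrt_scale hε.1 hB h
  have hI0 : ∀ k : Fin 4 × Fin 4, 0 ≤ ∫ x, a x k.1 k.2 ^ 2 :=
    fun k => integral_nonneg fun _ => sq_nonneg _
  have hεl : 0 ≤ ε ^ l := pow_nonneg hε.1.le l
  refine ⟨?_, fun hq0 => ?_⟩
  · calc ε ^ l * _ ≤ ε ^ l * ∑ k, Real.sqrt (∫ y in K, ‖iteratedFDeriv ℝ l (F k) y‖ ^ 2) :=
          mul_le_mul_of_nonneg_left hsum hεl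
      _ ≤ ∑ k : Fin 4 × Fin 4, C * Real.sqrt (∫ x, a x k.1 k.2 ^ 2) := by
          rw [Finset.mul_sum]
          refine Finset.sum_le_sum fun k _ => ?_
          have h := hC₁ k ε ⟨hε.1, hε.2.trans (hle0 _)⟩ _ (ha k.1 k.2) l hl
          refine (hS2 k (max (C₁ k) 0) (le_max_right _ _)
            (h.trans (mul_le_mul_of_nonneg_right (le_max_left _ _) (hI0 k)))).trans ?_
          refine mul_le_mul_of_nonneg_right ?_ (Real.sqrt_nonneg _)
          refine le_trans (le_of_eq ?_) (hCle k).1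
          rcases le_total 0 (C₁ k) with h0 | h0
          · rw [max_eq_left h0]
          · rw [max_eq_right h0, Real.sqrt_zero, Real.sqrt_eq_zero'.2 h0]
      _ = _ := by rw [← Finset.mul_sum, Fintype.sum_prod_type]
  · calc ε ^ l * _ ≤ ε ^ l * ∑ k, Real.sqrt (∫ y in K, ‖iteratedFDeriv ℝ l (F k) y‖ ^ 2) :=
          mul_le_mul_of_nonneg_left hsum hεl
      _ ≤ ∑ k : Fin 4 × Fin 4, C * ε * Real.sqrt (∫ x, a x k.1 k.2 ^ 2) := by
          rw [Finset.mul_sum]
          refine Finset.sum_le_sum fun k _ => ?_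
          have h := hC₂ k (hq0 _ _) ε ⟨hε.1, hε.2.trans (hle1 _)⟩ _ (ha k.1 k.2) l hl
          refine (hS2 k (max (C₂ k) 0 * ε ^ 2) (mul_nonneg (le_max_right _ _) (sq_nonneg _))
            (h.trans (mul_le_mul_of_nonneg_right (mul_le_mul_of_nonneg_right (le_max_left _ _)
              (sq_nonneg _)) (hI0 k)))).trans ?_
          refine mul_le_mul_of_nonneg_right ?_ (Real.sqrt_nonneg _)
          rw [Real.sqrt_mul (le_max_right _ _), Real.sqrt_sq hε.1.le]
          refine mul_le_mul_of_nonneg_right (le_trans (le_of_eq ?_) (hCle k).2) hε.1.le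
          rcases le_total 0 (C₂ k) with h0 | h0
          · rw [max_eq_left h0]
          · rw [max_eq_right h0, Real.sqrt_zero, Real.sqrt_eq_zero'.2 h0]
      _ = _ := by rw [← Finset.mul_sum, Fintype.sum_prod_type]

/-- Semiclassical bounds for averaged pullbacks. -/
theorem exists_smL_sob (hS : SmootherSobolev) (hG : SmootherGain) {U : Set E}
    {σ : (Fin n → ℝ) → E → E} (hσ : IsSmoother U σ) {ρ : (Fin n → ℝ) → ℝ} (hρ : IsWeight ρ)
    {K : Set E} (hKU : K ⊆ U) (hK : IsCompact K) :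
    ∃ C : ℝ, 0 ≤ C ∧ ∃ ε₀ > 0, ∀ ε ∈ Ioc (0 : ℝ) ε₀, ∀ a, IsL2Field volume a →
      ∀ i j, (∀ y ∈ K, ContDiffAt ℝ ∞ (fun x => smL σ ρ ε a x i j) y) ∧
        ∀ l ≤ 8, ε ^ l * Real.sqrt
          (∫ y in K, ‖iteratedFDeriv ℝ l (fun x => smL σ ρ ε a x i j) y‖ ^ 2)
            ≤ C * ∑ c, ∑ d, Real.sqrt (∫ x, a x c d ^ 2) := by
  classical
  obtain ⟨W, hW, hW0, hWσ⟩ := hσ.smooth
  choose C hC0 e₀ he₀ hb using fun k : Fin 4 × Fin 4 =>
    exists_comb_sob hS hG hσ hρ hKU hK (fun c d => pullCoef σ k.1 k.2 c d) fun c d =>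
      ⟨W, hW, hW0, (contDiffOn_jacV hW hWσ c k.1).mul (contDiffOn_jacV hW hWσ d k.2)⟩
  refine ⟨∑ k, C k, Finset.sum_nonneg fun k _ => hC0 k,
    Finset.univ.inf' Finset.univ_nonempty e₀, (Finset.lt_inf'_iff _).2 fun k _ => he₀ k,
    fun ε hε a ha i j => ?_⟩
  obtain ⟨h1, h2⟩ := hb (i, j) ε ⟨hε.1, hε.2.trans (Finset.inf'_le _ (Finset.mem_univ _))⟩ a ha
  have hfun : (fun x => smL σ ρ ε a x i j)
      = fun x => ∑ c, ∑ d, kerOp σ ρ (pullCoef σ i j c d) ε (fun x => a x c d) x := by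
    funext x; simp [smL]
  rw [hfun]
  refine ⟨h1, fun l hl => ((h2 l hl).1).trans (mul_le_mul_of_nonneg_right
    (Finset.single_le_sum (fun k _ => hC0 k) (Finset.mem_univ (i, j))) ?_)⟩
  exact Finset.sum_nonneg fun _ _ => Finset.sum_nonneg fun _ _ => Real.sqrt_nonneg _

/-- The anti-invariant part of an averaged invariant field is small of order `ε`. -/
theorem exists_smL_gain (hF : SmootherFibre) (hS : SmootherSobolev) (hG : SmootherGain)
    {U : Set E} {σ : (Fin n → ℝ) → E → E} (hσ : IsSmoother U σ) {ρ : (Fin n → ℝ) → ℝ}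
    (hρ : IsWeight ρ) {J : E → M} (hJ : IsACS U J) {K : Set E} (hKU : K ⊆ U) (hK : IsCompact K) :
    ∃ C : ℝ, 0 ≤ C ∧ ∃ ε₀ > 0, ∀ ε ∈ Ioc (0 : ℝ) ε₀, ∀ a, IsL2Field volume a →
      (∀ x ∈ U, pinv (J x) (a x) = a x) →
      ∀ i j, ∀ l ≤ 8, ε ^ l * Real.sqrt
        (∫ y in K, ‖iteratedFDeriv ℝ l (fun x => panti (J x) (smL σ ρ ε a x) i j) y‖ ^ 2)
          ≤ C * ε * ∑ c, ∑ d, Real.sqrt (∫ x, a x c d ^ 2) := by
  classical
  obtain ⟨r, hr, hrU⟩ := hK.exists_cthickening_subset_open hσ.isOpen hKU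
  set K₂ := cthickening r K with hK₂
  have hK₂c : IsCompact K₂ := hK.cthickening
  have hKK₂ : K ⊆ interior K₂ :=
    (self_subset_thickening hr K).trans
      (interior_maximal (thickening_subset_cthickening r K) isOpen_thickening)
  obtain ⟨W₀, hW₀, hW₀0, hWσ⟩ := hσ.smooth
  set W := (W₀ ∩ (fun z => σ z.1 z.2) ⁻¹' U) ∩ univ ×ˢ U with hW
  have hWo : IsOpen W :=
    (hWσ.continuousOn.isOpen_inter_preimage hW₀ hσ.isOpen).inter (isOpen_univ.prod hσ.isOpen)
  have hW0 : ({0} : Set (Fin n → ℝ)) ×ˢ U ⊆ W := by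
    rintro ⟨v, y⟩ ⟨rfl, hy⟩
    exact ⟨⟨hW₀0 ⟨rfl, hy⟩, by simpa [hσ.base y hy] using hy⟩, mem_univ _, hy⟩
  set q : Fin 4 → Fin 4 → Fin 4 → Fin 4 → (Fin n → ℝ) → E → ℝ := fun i j c d v y =>
    mixAnti (jacV σ v y) (J y) (J (σ v y)) (unit2 c d) i j with hq
  have hsubW : W ⊆ W₀ := fun z hz => hz.1.1
  have hP : ∀ i j, ContDiffOn ℝ ∞ (fun z => jacV σ z.1 z.2 i j) W := fun i j =>
    (contDiffOn_jacV hW₀ hWσ i j).mono hsubW
  have hJy : ∀ i j, ContDiffOn ℝ ∞ (fun z : (Fin n → ℝ) × E => J z.2 i j) W := fun i j =>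
    (hJ.smooth i j).comp contDiff_snd.contDiffOn fun z hz => hz.2.2
  have hJσ : ∀ i j, ContDiffOn ℝ ∞ (fun z : (Fin n → ℝ) × E => J (σ z.1 z.2) i j) W := fun i j =>
    (hJ.smooth i j).comp (hWσ.mono hsubW) fun z hz => hz.1.2
  have hPt : ∀ i j, ContDiffOn ℝ ∞ (fun z => (jacV σ z.1 z.2)ᵀ i j) W := fun i j => hP j i
  have hJyt : ∀ i j, ContDiffOn ℝ ∞ (fun z : (Fin n → ℝ) × E => (J z.2)ᵀ i j) W :=
    fun i j => hJy j i
  have hJσt : ∀ i j, ContDiffOn ℝ ∞ (fun z : (Fin n → ℝ) × E => (J (σ z.1 z.2))ᵀ i j) W :=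
    fun i j => hJσ j i
  have hqs : ∀ i j c d, ContDiffOn ℝ ∞ (fun z => q i j c d z.1 z.2) W := by
    intro i j c d
    have hu : ∀ i j, ContDiffOn ℝ ∞ (fun _ : (Fin n → ℝ) × E => unit2 c d i j) W :=
      fun _ _ => contDiffOn_const
    have hb : ∀ i j, ContDiffOn ℝ ∞
        (fun z : (Fin n → ℝ) × E => pinv (J (σ z.1 z.2)) (unit2 c d) i j) W := fun i j => by
      simp only [pinv, Matrix.smul_apply, Matrix.add_apply, smul_eq_mul]
      exact ((hu i j).add (contDiffOn_mul (contDiffOn_mul hJσt hu) hJσ i j)).const_smul (1 / 2 : ℝ)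
    have hm := contDiffOn_mul (contDiffOn_mul hPt hb) hP
    simp only [hq, mixAnti, panti, Matrix.smul_apply, Matrix.sub_apply, smul_eq_mul]
    exact ((hm i j).sub
      (contDiffOn_mul (contDiffOn_mul hJyt hm) hJy i j)).const_smul (1 / 2 : ℝ)
  have hq0 : ∀ i j c d, ∀ y ∈ U, q i j c d 0 y = 0 := fun i j c d y hy => by
    simp only [hq]
    rw [jacV_zero hσ hy, hσ.base y hy, mixAnti_one (hJ.sq y hy)]
    rfl
  choose C hC0 e₀ he₀ hb using fun k : Fin 4 × Fin 4 =>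
    exists_comb_sob hS hG hσ hρ hKU hK (q k.1 k.2) fun c d => ⟨W, hWo, hW0, hqs _ _ c d⟩
  obtain ⟨C₃, -, e₃, he₃, hsm⟩ := exists_smL_facts hF hσ hρ hrU hK₂c
  choose C₄ _ e₄ he₄ hk₄ using fun k : Fin 4 × Fin 4 × Fin 4 × Fin 4 =>
    exists_kerOp_facts hF hσ hρ hrU hK₂c hWo ((prod_mono subset_rfl hrU).trans hW0)
      (hqs k.1 k.2.1 k.2.2.1 k.2.2.2)
  obtain ⟨L, hL0, δ, hδ, hpull⟩ := exists_pull_bounds hσ hJ hrU hK₂c
  obtain ⟨ε₀, hε₀, hl0, hl3, hl4, hlδ⟩ : ∃ ε₀ > 0, (∀ k, ε₀ ≤ e₀ k) ∧ ε₀ ≤ e₃ ∧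
      (∀ k, ε₀ ≤ e₄ k) ∧ ε₀ ≤ δ :=
    ⟨min (min (Finset.univ.inf' Finset.univ_nonempty e₀) e₃)
        (min (Finset.univ.inf' Finset.univ_nonempty e₄) δ),
      lt_min (lt_min ((Finset.lt_inf'_iff _).2 fun k _ => he₀ k) he₃)
        (lt_min ((Finset.lt_inf'_iff _).2 fun k _ => he₄ k) hδ),
      fun k => ((min_le_left _ _).trans (min_le_left _ _)).trans
        (Finset.inf'_le _ (Finset.mem_univ k)),
      (min_le_left _ _).trans (min_le_right _ _),
      fun k => ((min_le_right _ _).trans (min_le_left _ _)).trans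
        (Finset.inf'_le _ (Finset.mem_univ k)),
      (min_le_right _ _).trans (min_le_right _ _)⟩
  refine ⟨∑ k, C k, Finset.sum_nonneg fun k _ => hC0 k, ε₀, hε₀,
    fun ε hε a ha hainv i j l hl => ?_⟩
  have hid : ∀ y ∈ K₂, panti (J y) (smL σ ρ ε a y) i j
      = ∑ c, ∑ d, kerOp σ ρ (q i j c d) ε (fun x => a x c d) y := by
    intro y hy
    let fl : M →ₗ[ℝ] M :=
      { toFun := panti (J y)
        map_add' := fun u v => by simp only [panti, mul_add, add_mul]; module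
        map_smul' := fun r u => by
          simp only [panti, mul_smul_comm, smul_mul_assoc, RingHom.id_apply]; module }
    have e : ∀ b : M, panti (J y) b i j = ∑ c, ∑ d, panti (J y) (unit2 c d) i j * b c d := by
      intro b
      have : fl b = ∑ cd : Fin 4 × Fin 4, b cd.1 cd.2 • fl (unit2 cd.1 cd.2) := by
        conv_lhs => rw [eq_sum_unit2 b]
        simp only [map_sum, map_smul]
      calc panti (J y) b i j = (∑ cd : Fin 4 × Fin 4, b cd.1 cd.2 • fl (unit2 cd.1 cd.2)) i j :=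
            congrFun (congrFun this i) j
        _ = _ := by
            rw [Matrix.sum_apply, Fintype.sum_prod_type]
            exact Finset.sum_congr rfl fun c _ => Finset.sum_congr rfl fun d _ => by
              rw [Matrix.smul_apply, smul_eq_mul, mul_comm]; rfl
    obtain ⟨-, -, -, h4⟩ := hsm ε ⟨hε.1, hε.2.trans hl3⟩ y hy
    obtain ⟨-, heq⟩ := h4 a ha fun c d => panti (J y) (unit2 c d) i j
    rw [e, heq]
    have hI : ∀ c d, Integrable (fun v => ρ (ε⁻¹ • v) * q i j c d v y * a (σ v y) c d) :=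
      fun c d => (((hk₄ (i, j, c, d)) ε ⟨hε.1, hε.2.trans (hl4 _)⟩ y hy).1 _ (ha c d)).1
    simp only [kerOp, ← Finset.mul_sum]
    congr 1
    calc ∫ v, ρ (ε⁻¹ • v) * ∑ c, ∑ d, panti (J y) (unit2 c d) i j * pullV σ v a y c d
        = ∫ v, ∑ c, ∑ d, ρ (ε⁻¹ • v) * q i j c d v y * a (σ v y) c d := by
          refine integral_congr_ae (Filter.Eventually.of_forall fun v => ?_)
          simp only
          rw [← e]
          by_cases hv : ‖v‖ ≤ ε
          · obtain ⟨hσU, -⟩ := hpull v (by simpa using hv.trans (hε.2.trans hlδ)) y hy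
            simp only [mul_assoc, ← Finset.mul_sum]
            congr 1
            let mf : M →ₗ[ℝ] M :=
              { toFun := mixAnti (jacV σ v y) (J y) (J (σ v y))
                map_add' := fun u w => by
                  simp only [mixAnti, pinv, panti, mul_add, add_mul, mul_smul_comm, smul_mul_assoc]
                  module
                map_smul' := fun r u => by
                  simp only [mixAnti, pinv, panti, mul_add, add_mul, mul_smul_comm, smul_mul_assoc,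
                    RingHom.id_apply]
                  module }
            have h1 : panti (J y) (pullV σ v a y) = mf (a (σ v y)) := by
              simp only [mf, LinearMap.coe_mk, AddHom.coe_mk, mixAnti, pullV, hainv _ hσU]
            have h2 : mf (a (σ v y))
                = ∑ cd : Fin 4 × Fin 4, a (σ v y) cd.1 cd.2 • mf (unit2 cd.1 cd.2) := by
              conv_lhs => rw [eq_sum_unit2 (a (σ v y))]
              simp only [map_sum, map_smul]
            rw [h1, h2, Matrix.sum_apply, Fintype.sum_prod_type]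
            exact Finset.sum_congr rfl fun c _ => Finset.sum_congr rfl fun d _ => by
              rw [Matrix.smul_apply, smul_eq_mul, mul_comm]; rfl
          · simp [hρ.eq_zero hε.1 (not_le.1 hv)]
      _ = _ := by
          rw [integral_finsetSum _ fun c _ => integrable_finsetSum _ fun d _ => hI c d]
          exact Finset.sum_congr rfl fun c _ => integral_finsetSum _ fun d _ => hI c d
  obtain ⟨-, hb2⟩ := hb (i, j) ε ⟨hε.1, hε.2.trans (hl0 _)⟩ a ha
  refine le_trans (le_of_eq ?_) (((hb2 l hl).2 (hq0 i j)).trans (mul_le_mul_of_nonneg_right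
    (mul_le_mul_of_nonneg_right (Finset.single_le_sum (fun k _ => hC0 k) (Finset.mem_univ (i, j)))
      hε.1.le) (Finset.sum_nonneg fun _ _ => Finset.sum_nonneg fun _ _ => Real.sqrt_nonneg _)))
  congr 2
  refine setIntegral_congr_fun hK.isClosed.measurableSet fun y hy => ?_
  simp only
  rw [(Filter.EventuallyEq.iteratedFDeriv ℝ (Filter.eventuallyEq_of_mem
    (mem_interior_iff_mem_nhds.1 (hKK₂ hy)) fun x hx => hid x hx) l).eq_of_nhds]

end Vale.Agent.P204.Tame
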