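import Vale.Agent.P204.Tame.Loc.SmL
import Vale.Agent.P204.Tame.Loc.AlgExt

/-!
The pairing of a positive field with an averaged pullback, and its bound by ball masses.
-/

namespace Vale.Agent.P204.Tame

open scoped ContDiff Matrix ENNReal
open MeasureTheory Metric Set

variable {n : ℕ}

/-- A measure with a field of semipositive forms of unit trace on a set. -/
structure IsPosField (K : Set E) (J : E → M) (μ : Measure E) (Θ : E → M) : Prop where
  finite : μ K < ⊤
  meas : ∀ i j, Measurable fun x => Θ x i j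
  psd : ∀ᵐ x ∂μ.restrict K, Psd (J x) (Θ x)
  unit : ∀ᵐ x ∂μ.restrict K, trc (J x) (Θ x) = 1

/-- The scaled mass of a ball. -/
noncomputable def kball (μ : Measure E) (K : Set E) (C ε : ℝ) (x : E) : ℝ :=
  C * (ε ^ 4)⁻¹ * (μ.restrict K).real (closedBall x (C * ε))

/-- The pairing of a field with the averaged pullback of a field supported in `O`. -/
noncomputable def tFun (σ : (Fin n → ℝ) → E → E) (ρ : (Fin n → ℝ) → ℝ) (K O : Set E) (J : E → M)
    (μ : Measure E) (Θ : E → M) (ε : ℝ) (a : E → M) : ℝ :=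
  ∫ y in K, wd (J y) (Θ y) (smL σ ρ ε (O.indicator a) y) ∂μ

theorem indicator_field_apply (O : Set E) (a : E → M) (x : E) (i j : Fin 4) :
    O.indicator a x i j = O.indicator (fun x => a x i j) x := by
  by_cases hx : x ∈ O <;> simp [hx]

theorem IsL2Field.indicator {O : Set E} (hO : MeasurableSet O) {a : E → M}
    (ha : IsL2Field (volume.restrict O) a) : IsL2Field volume (O.indicator a) := fun i j => by
  rw [funext fun x => indicator_field_apply O a x i j]
  exact (memLp_indicator_iff_restrict hO).2 (ha i j)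

theorem integral_ball_swap (ν : Measure E) [IsFiniteMeasure ν] (r : ℝ) {f : E → ℝ} (hf0 : ∀ x, 0 ≤ f x)
    (hf : Integrable f) :
    Integrable (fun y => ∫ x in closedBall y r, f x) ν ∧
      ∫ y, ∫ x in closedBall y r, f x ∂volume ∂ν = ∫ x, f x * ν.real (closedBall x r) := by
  have hm : MeasurableSet {z : E × E | dist z.2 z.1 ≤ r} :=
    measurableSet_le (by fun_prop) measurable_const
  set F : E × E → ℝ := {z : E × E | dist z.2 z.1 ≤ r}.indicator fun z => f z.2 with hF
  have hFi : Integrable F (ν.prod volume) := (hf.comp_snd ν).indicator hm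
  have e1 : ∀ y, (fun x => F (y, x)) = (closedBall y r).indicator f := fun y => by
    funext x
    by_cases h : dist x y ≤ r <;> simp [hF, h, mem_closedBall]
  have e2 : ∀ x, ∫ y, F (y, x) ∂ν = f x * ν.real (closedBall x r) := fun x => by
    have : (fun y => F (y, x)) = (closedBall x r).indicator fun _ => f x := by
      funext y
      by_cases h : dist x y ≤ r <;> simp [hF, h, mem_closedBall, dist_comm y x]
    rw [this, integral_indicator measurableSet_closedBall, setIntegral_const, smul_eq_mul, mul_comm]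
  have e3 : ∀ y, ∫ x, F (y, x) = ∫ x in closedBall y r, f x := fun y => by
    rw [e1, integral_indicator measurableSet_closedBall]
  refine ⟨hFi.integral_prod_left.congr (Filter.Eventually.of_forall e3), ?_⟩
  calc ∫ y, ∫ x in closedBall y r, f x ∂volume ∂ν = ∫ y, ∫ x, F (y, x) ∂volume ∂ν :=
        integral_congr_ae (Filter.Eventually.of_forall fun y => (e3 y).symm)
    _ = ∫ x, ∫ y, F (y, x) ∂ν ∂volume := integral_integral_swap hFi
    _ = _ := integral_congr_ae (Filter.Eventually.of_forall e2)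

theorem memLp_kball (μ : Measure E) {K O : Set E} (hK : μ K < ⊤) (hO : volume O < ⊤) (C ε : ℝ) :
    MemLp (kball μ K C ε) 2 (volume.restrict O) := by
  haveI : IsFiniteMeasure (μ.restrict K) := ⟨by simpa using hK⟩
  haveI : IsFiniteMeasure (volume.restrict O) := ⟨by simpa using hO⟩
  refine MemLp.of_bound ((measurable_measure_closedBall (μ.restrict K) (C * ε)).ennreal_toReal.const_mul
    (C * (ε ^ 4)⁻¹)).aestronglyMeasurable (|C * (ε ^ 4)⁻¹| * (μ.restrict K).real univ)
    (Filter.Eventually.of_forall fun x => ?_)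
  rw [kball, Real.norm_eq_abs, abs_mul, abs_of_nonneg measureReal_nonneg]
  exact mul_le_mul_of_nonneg_left (measureReal_mono (subset_univ _)) (abs_nonneg _)

theorem kball_nonneg (μ : Measure E) (K : Set E) {C ε : ℝ} (hC : 0 ≤ C) (hε : 0 < ε) (x : E) :
    0 ≤ kball μ K C ε x :=
  mul_nonneg (mul_nonneg hC (inv_pos.2 (pow_pos hε 4)).le) measureReal_nonneg

theorem kball_mono (μ : Measure E) {K : Set E} (hK : μ K < ⊤) {C C' ε : ℝ} (hC : 0 ≤ C)
    (hCC : C ≤ C') (hε : 0 < ε) (x : E) : kball μ K C ε x ≤ kball μ K C' ε x := by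
  haveI : IsFiniteMeasure (μ.restrict K) := ⟨by simpa using hK⟩
  exact mul_le_mul (mul_le_mul_of_nonneg_right hCC (inv_pos.2 (pow_pos hε 4)).le)
    (measureReal_mono (closedBall_subset_closedBall (mul_le_mul_of_nonneg_right hCC hε.le)))
    measureReal_nonneg (mul_nonneg (hC.trans hCC) (inv_pos.2 (pow_pos hε 4)).le)

theorem exists_tFun_bound (hL : LinearFacts) (hF : SmootherFibre) (hS : SmootherSobolev) {U : Set E}
    {σ : (Fin n → ℝ) → E → E} (hσ : IsSmoother U σ) {ρ : (Fin n → ℝ) → ℝ} (hρ : IsWeight ρ)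
    {J : E → M} (hJ : IsACS U J) {K O : Set E} (hKU : K ⊆ U) (hK : IsCompact K) (hOK : O ⊆ K)
    (hO : MeasurableSet O) :
    ∃ C : ℝ, 0 ≤ C ∧ ∃ ε₀ > 0, ∀ ε ∈ Ioc (0 : ℝ) ε₀, ∀ μ Θ, IsPosField K J μ Θ →
      (∀ a, IsL2Field (volume.restrict O) a →
        Integrable (fun y => wd (J y) (Θ y) (smL σ ρ ε (O.indicator a) y)) (μ.restrict K) ∧
        |tFun σ ρ K O J μ Θ ε a| ≤ ∫ x in O, nrm1 (a x) * kball μ K C ε x) ∧
      (∀ a b, IsL2Field (volume.restrict O) a → IsL2Field (volume.restrict O) b →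
        tFun σ ρ K O J μ Θ ε (a + b) = tFun σ ρ K O J μ Θ ε a + tFun σ ρ K O J μ Θ ε b) ∧
      (∀ (r : ℝ) a, IsL2Field (volume.restrict O) a →
        tFun σ ρ K O J μ Θ ε (r • a) = r * tFun σ ρ K O J μ Θ ε a) := by
  classical
  obtain ⟨W, hW, hW0, hWσ⟩ := hσ.smooth
  obtain ⟨C₁, hC₁, ε₁, hε₁, hfacts⟩ := exists_smL_facts hF hσ hρ hKU hK
  have hq : ∀ a b c d, ContDiffOn ℝ ∞ (fun z => pullCoef σ a b c d z.1 z.2) W := fun a b c d =>
    (contDiffOn_jacV hW hWσ c a).mul (contDiffOn_jacV hW hWσ d b)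
  choose ε₂ hε₂ hcont using fun k : Fin 4 × Fin 4 × Fin 4 × Fin 4 =>
    let ⟨e₀, he₀, hh, _⟩ := hS n U σ hσ ρ (pullCoef σ k.1 k.2.1 k.2.2.1 k.2.2.2) hρ.smooth hρ.supp
      ⟨W, hW, hW0, hq _ _ _ _⟩ K hKU hK
    (⟨e₀, he₀, hh⟩ : ∃ e₀ > 0, ∀ ε ∈ Ioc (0 : ℝ) e₀, ∀ u : E → ℝ, MemLp u 2 volume → ∀ y ∈ K,
      ContDiffAt ℝ ∞ (kerOp σ ρ (pullCoef σ k.1 k.2.1 k.2.2.1 k.2.2.2) ε u) y)
  obtain ⟨ε₀, hε₀, hle1, hle2⟩ : ∃ ε₀ > 0, ε₀ ≤ ε₁ ∧ ∀ k, ε₀ ≤ ε₂ k :=
    ⟨min ε₁ (Finset.univ.inf' Finset.univ_nonempty ε₂),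
      lt_min hε₁ ((Finset.lt_inf'_iff _).2 fun k _ => hε₂ k), min_le_left _ _,
      fun k => (min_le_right _ _).trans (Finset.inf'_le _ (Finset.mem_univ k))⟩
  have hcJ : ∀ i j, ContinuousOn (fun y => J y i j) K := fun i j =>
    (hJ.smooth i j).continuousOn.mono hKU
  obtain ⟨c, hc, hlin⟩ := hL.2.2.2 (J '' K) (hK.image_of_continuousOn
      (continuousOn_pi.2 fun i => continuousOn_pi.2 fun j => hcJ i j))
    (by rintro _ ⟨y, hy, rfl⟩; exact hJ.sq y (hKU hy))
  refine ⟨max C₁ (6 * c⁻¹ * C₁), hC₁.trans (le_max_left _ _), ε₀, hε₀, fun ε hε μ Θ hΘ => ?_⟩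
  haveI : IsFiniteMeasure (μ.restrict K) := ⟨by simpa using hΘ.finite⟩
  have hf := fun y hy => hfacts ε ⟨hε.1, hε.2.trans hle1⟩ y hy
  have hΘb : ∀ᵐ y ∂μ.restrict K, y ∈ K ∧ nrm1 (Θ y) ≤ c⁻¹ := by
    filter_upwards [hΘ.psd, hΘ.unit, ae_restrict_mem hK.isClosed.measurableSet] with y hp hu hy
    refine ⟨hy, ?_⟩
    have := ((hlin (J y) ⟨y, hy, rfl⟩).2.1 (Θ y) hp).2
    rw [hu] at this
    rw [← one_div, le_div_iff₀ hc, mul_comm]
    exact this
  have main : ∀ a, IsL2Field (volume.restrict O) a →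
      Integrable (fun y => wd (J y) (Θ y) (smL σ ρ ε (O.indicator a) y)) (μ.restrict K) ∧
        |tFun σ ρ K O J μ Θ ε a| ≤
          ∫ x in O, nrm1 (a x) * kball μ K (max C₁ (6 * c⁻¹ * C₁)) ε x := by
    intro a ha
    have hai := ha.indicator hO
    set u := smL σ ρ ε (O.indicator a) with hu
    have hcu : ∀ i j, AEStronglyMeasurable (fun y => u y i j) (μ.restrict K) := fun i j => by
      refine ContinuousOn.aestronglyMeasurable (fun y hy => ?_) hK.isClosed.measurableSet
      refine ContinuousAt.continuousWithinAt ?_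
      simp only [hu, smL, Matrix.of_apply]
      exact tendsto_finsetSum _ fun p _ => tendsto_finsetSum _ fun q _ =>
        (hcont (i, j, p, q) ε ⟨hε.1, hε.2.trans (hle2 _)⟩ _ (hai p q) y hy).continuousAt
    have hmeas : AEStronglyMeasurable (fun y => wd (J y) (Θ y) (u y)) (μ.restrict K) := by
      have hJm : ∀ i j, Measurable fun y => (K.indicator (fun y => J y i j)) y := fun i j => by
        rw [← Set.piecewise_eq_indicator]
        exact (hcJ i j).measurable_piecewise continuousOn_const hK.isClosed.measurableSet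
      have hs : Measurable fun y => sgnJ (K.indicator J y) :=
        measurable_sgnJ fun i j => by
          simpa only [indicator_field_apply] using hJm i j
      have hp : AEStronglyMeasurable (fun y => pfq (Θ y) (u y)) (μ.restrict K) := by
        have h : ∀ i j k l, AEStronglyMeasurable (fun y => Θ y i j * u y k l) (μ.restrict K) :=
          fun i j k l => (hΘ.meas i j).aestronglyMeasurable.mul (hcu k l)
        have h' : ∀ i j k l, AEStronglyMeasurable (fun y => u y i j * Θ y k l) (μ.restrict K) :=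
          fun i j k l => (hcu i j).mul (hΘ.meas k l).aestronglyMeasurable
        simp only [pfq]
        exact (((((h 0 1 2 3).sub (h 0 2 1 3)).add (h 0 3 1 2)).add (h' 0 1 2 3)).sub
          (h' 0 2 1 3)).add (h' 0 3 1 2)
      refine (hs.aestronglyMeasurable.mul hp).congr ?_
      filter_upwards [ae_restrict_mem hK.isClosed.measurableSet] with y hy
      rw [Pi.mul_apply, Set.indicator_of_mem hy, wd]
    set g := fun x => nrm1 (O.indicator a x) with hg
    have hgO : g = O.indicator fun x => nrm1 (a x) := by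
      funext x
      by_cases hx : x ∈ O <;> simp [hg, hx, nrm1]
    have hO' : volume O < ⊤ := (measure_mono hOK).trans_lt hK.measure_lt_top
    haveI : IsFiniteMeasure (volume.restrict O) := ⟨by simpa using hO'⟩
    have hgi : Integrable g := by
      rw [hgO, integrable_indicator_iff hO]
      exact integrable_finsetSum _ fun i _ => integrable_finsetSum _ fun j _ =>
        (ha i j).norm.integrable (by norm_num)
    have hsw := integral_ball_swap (μ.restrict K) (C₁ * ε) (f := g) (fun x => nrm1_nonneg _) hgi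
    have hbd : ∀ᵐ y ∂μ.restrict K, ‖wd (J y) (Θ y) (u y)‖ ≤
        6 * c⁻¹ * C₁ * (ε ^ 4)⁻¹ * ∫ x in closedBall y (C₁ * ε), g x := by
      filter_upwards [hΘb] with y hy
      rw [Real.norm_eq_abs]
      refine (abs_wd_le _ _ _).trans ?_
      calc 6 * nrm1 (Θ y) * nrm1 (u y)
          ≤ 6 * c⁻¹ * (C₁ * (ε ^ 4)⁻¹ * ∫ x in closedBall y (C₁ * ε), g x) :=
            mul_le_mul (mul_le_mul_of_nonneg_left hy.2 (by norm_num)) ((hf y hy.1).1 _ hai)
              (nrm1_nonneg _) (mul_nonneg (by norm_num) (inv_pos.2 hc).le)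
        _ = _ := by ring
    have hint : Integrable (fun y => wd (J y) (Θ y) (u y)) (μ.restrict K) :=
      (hsw.1.const_mul _).mono' hmeas hbd
    refine ⟨hint, ?_⟩
    calc |tFun σ ρ K O J μ Θ ε a| ≤ ∫ y in K, ‖wd (J y) (Θ y) (u y)‖ ∂μ :=
          norm_integral_le_integral_norm (fun y => wd (J y) (Θ y) (u y))
      _ ≤ ∫ y in K, (6 * c⁻¹ * C₁ * (ε ^ 4)⁻¹ * ∫ x in closedBall y (C₁ * ε), g x) ∂μ :=
          integral_mono_ae hint.norm (hsw.1.const_mul _) hbd
      _ = ∫ x, g x * (6 * c⁻¹ * C₁ * (ε ^ 4)⁻¹ * (μ.restrict K).real (closedBall x (C₁ * ε))) := by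
          rw [integral_const_mul, hsw.2, ← integral_const_mul]
          exact integral_congr_ae (Filter.Eventually.of_forall fun x => by ring)
      _ = ∫ x in O, nrm1 (a x) *
            (6 * c⁻¹ * C₁ * (ε ^ 4)⁻¹ * (μ.restrict K).real (closedBall x (C₁ * ε))) := by
          rw [← integral_indicator hO]
          refine integral_congr_ae (Filter.Eventually.of_forall fun x => ?_)
          by_cases hx : x ∈ O <;> simp [hgO, hx]
      _ ≤ _ := by
          refine integral_mono_of_nonneg (Filter.Eventually.of_forall fun x =>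
            mul_nonneg (nrm1_nonneg _) (mul_nonneg (mul_nonneg (mul_nonneg (mul_nonneg (by norm_num)
              (inv_pos.2 hc).le) hC₁) (inv_pos.2 (pow_pos hε.1 4)).le) measureReal_nonneg)) ?_
            (Filter.Eventually.of_forall fun x => ?_)
          · exact MemLp.integrable_mul (p := 2) (q := 2)
              (memLp_finsetSum _ fun i _ => memLp_finsetSum _ fun j _ => (ha i j).norm)
              (memLp_kball μ hΘ.finite hO' _ ε)
          · refine mul_le_mul_of_nonneg_left ?_ (nrm1_nonneg _)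
            exact mul_le_mul (mul_le_mul_of_nonneg_right (le_max_right _ _)
              (inv_pos.2 (pow_pos hε.1 4)).le) (measureReal_mono
                (closedBall_subset_closedBall (mul_le_mul_of_nonneg_right (le_max_left _ _) hε.1.le)))
              measureReal_nonneg (mul_nonneg (hC₁.trans (le_max_left _ _))
                (inv_pos.2 (pow_pos hε.1 4)).le)
  refine ⟨main, fun a b ha hb => ?_, fun r a ha => ?_⟩
  · simp only [tFun]
    rw [← integral_add (main a ha).1 (main b hb).1]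
    refine integral_congr_ae ?_
    filter_upwards [hΘb] with y hy
    rw [show O.indicator (a + b) = O.indicator a + O.indicator b from Set.indicator_add' O a b,
      (hf y hy.1).2.1 _ _ (ha.indicator hO) (hb.indicator hO)]
    simp only [wd, pfq, Matrix.add_apply]
    ring
  · simp only [tFun]
    rw [← integral_const_mul]
    refine integral_congr_ae ?_
    filter_upwards [hΘb] with y hy
    rw [show O.indicator (r • a) = r • O.indicator a from Set.indicator_const_smul O r a,
      (hf y hy.1).2.2.1]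
    simp only [wd, pfq, Matrix.smul_apply, smul_eq_mul]
    ring

end Vale.Agent.P204.Tame
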