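import Vale.Agent.P204.Tame.Loc.TDef
import Vale.Agent.P204.Tame.Loc.Pull

/-!
Pointwise bounds for the averaged pullback of semipositive and of anti-invariant fields.
-/

namespace Vale.Agent.P204.Tame

open scoped ContDiff Matrix ENNReal
open MeasureTheory Metric Set

variable {n : ℕ}

theorem nrm1_smul_unit (b : M) (r : ℝ) : nrm1 (r • b) = |r| * nrm1 b := by
  simp [nrm1, abs_mul, Finset.mul_sum]

theorem continuous_nrm1 : Continuous nrm1 := by
  unfold nrm1
  fun_prop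

theorem isL2Field_nrm1 {m : Measure E} {a : E → M} (ha : IsL2Field m a) :
    MemLp (fun x => nrm1 (a x)) 2 m := by
  simp only [nrm1]
  exact memLp_finsetSum _ fun i _ => memLp_finsetSum _ fun j _ => (ha i j).norm

theorem smL_skew (σ : (Fin n → ℝ) → E → E) (ρ : (Fin n → ℝ) → ℝ) (ε : ℝ) {a : E → M}
    (ha : ∀ x, (a x)ᵀ = -a x) (y : E) : (smL σ ρ ε a y)ᵀ = -smL σ ρ ε a y := by
  ext i j
  simp only [smL, Matrix.transpose_apply, Matrix.neg_apply, Matrix.of_apply]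
  rw [Finset.sum_comm, ← Finset.sum_neg_distrib]
  refine Finset.sum_congr rfl fun c _ => ?_
  rw [← Finset.sum_neg_distrib]
  refine Finset.sum_congr rfl fun d _ => ?_
  simp only [kerOp, ← mul_neg, ← integral_neg]
  congr 1
  refine integral_congr_ae (Filter.Eventually.of_forall fun v => ?_)
  simp only [pullCoef, skew_apply (ha (σ v y)) c d]
  ring

theorem exists_tPoint (hL : LinearFacts) (hF : SmootherFibre) {U : Set E}
    {σ : (Fin n → ℝ) → E → E} (hσ : IsSmoother U σ) {ρ : (Fin n → ℝ) → ℝ} (hρ : IsWeight ρ)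
    {J : E → M} (hJ : IsACS U J) {K : Set E} (hKU : K ⊆ U) (hK : IsCompact K) :
    ∃ D : ℝ, 0 ≤ D ∧ ∃ ε₀ > 0, ∀ ε ∈ Ioc (0 : ℝ) ε₀, ∀ y ∈ K, ∀ a, IsL2Field volume a →
      ∀ Θ : M, Psd (J y) Θ → trc (J y) Θ = 1 →
      ((∀ x, (a x)ᵀ = -a x) → (∀ x ∈ U, Psd (J x) (a x)) →
        -(D * ε ^ 2 * ((ε ^ 4)⁻¹ * ∫ x in closedBall y (D * ε), nrm1 (a x)))
          ≤ wd (J y) Θ (smL σ ρ ε a y)) ∧
      ((∀ x, (a x)ᵀ = -a x) → (∀ x ∈ U, pinv (J x) (a x) = 0) →
        |wd (J y) Θ (smL σ ρ ε a y)|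
          ≤ D * ε * ((ε ^ 4)⁻¹ * ∫ x in closedBall y (D * ε), nrm1 (a x))) := by
  classical
  obtain ⟨L, hL0, δ, hδ, hpull⟩ := exists_pull_bounds hσ hJ hKU hK
  obtain ⟨C₁, hC₁, ε₁, hε₁, hfacts⟩ := exists_smL_facts hF hσ hρ hKU hK
  obtain ⟨C₂, hC₂, ε₂, hε₂, hker⟩ := exists_kerOp_facts hF hσ hρ hKU hK (isOpen_univ)
    (subset_univ _) (q := fun _ _ => (1 : ℝ)) contDiffOn_const
  have hcJ : ∀ i j, ContinuousOn (fun y => J y i j) K := fun i j =>
    (hJ.smooth i j).continuousOn.mono hKU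
  obtain ⟨hcw, hch⟩ := continuousOn_wmat hcJ
  obtain ⟨Bw, hBw⟩ := hK.exists_bound_of_continuousOn (continuous_nrm1.comp_continuousOn hcw)
  obtain ⟨Bh, hBh⟩ := hK.exists_bound_of_continuousOn (continuous_nrm1.comp_continuousOn hch)
  obtain ⟨c, hc, hlin⟩ := hL.2.2.2 (J '' K) (hK.image_of_continuousOn
      (continuousOn_pi.2 fun i => continuousOn_pi.2 fun j => hcJ i j))
    (by rintro _ ⟨y, hy, rfl⟩; exact hJ.sq y (hKU hy))
  set δ₀ := 16 * Bh ^ 2 * L ^ 2 with hδ₀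
  set D := max C₂ (max (6 * c⁻¹ * max Bw 0 * δ₀ * (8 * L ^ 3 * C₂)) (96 * c⁻¹ * L * C₂)) with hD
  refine ⟨D, hC₂.trans (le_max_left _ _), min (min δ ε₁) ε₂, lt_min (lt_min hδ hε₁) hε₂,
    fun ε hε y hy a ha Θ hΘ hu => ?_⟩
  have hεδ : ε ≤ δ := hε.2.trans ((min_le_left _ _).trans (min_le_left _ _))
  have hεI : 0 < (ε ^ n)⁻¹ := inv_pos.2 (pow_pos hε.1 n)
  obtain ⟨hsm1, -, -, hsm4⟩ :=
    hfacts ε ⟨hε.1, hε.2.trans ((min_le_left _ _).trans (min_le_right _ _))⟩ y hy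
  obtain ⟨hk1, -, -⟩ := hker ε ⟨hε.1, hε.2.trans (min_le_right _ _)⟩ y hy
  obtain ⟨hk2, hk3⟩ := hk1 _ (isL2Field_nrm1 ha)
  have hJy := hJ.sq y (hKU hy)
  have hΘn : nrm1 Θ ≤ c⁻¹ := by
    have := ((hlin (J y) ⟨y, hy, rfl⟩).2.1 Θ hΘ).2
    rw [hu] at this
    rw [← one_div, le_div_iff₀ hc, mul_comm]
    exact this
  set R := (ε ^ 4)⁻¹ * ∫ x in closedBall y (D * ε), nrm1 (a x) with hR
  have hR0 : 0 ≤ R := mul_nonneg (inv_pos.2 (pow_pos hε.1 4)).le
    (integral_nonneg fun x => nrm1_nonneg _)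
  have hk : (ε ^ n)⁻¹ * ∫ v, ρ (ε⁻¹ • v) * nrm1 (a (σ v y)) ≤ C₂ * R := by
    have h1 : (ε ^ n)⁻¹ * ∫ v, ρ (ε⁻¹ • v) * nrm1 (a (σ v y))
        = kerOp σ ρ (fun _ _ => (1 : ℝ)) ε (fun x => nrm1 (a x)) y := by
      simp [kerOp]
    rw [h1]
    refine (le_abs_self _).trans (hk3.trans ?_)
    rw [hR, ← mul_assoc]
    refine mul_le_mul_of_nonneg_left ?_ (mul_nonneg hC₂ (inv_pos.2 (pow_pos hε.1 4)).le)
    simp only [abs_of_nonneg (nrm1_nonneg _)]
    exact setIntegral_mono_set (((isL2Field_nrm1 ha).locallyIntegrable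
      (by norm_num)).integrableOn_isCompact (isCompact_closedBall _ _))
      (Filter.Eventually.of_forall fun x => nrm1_nonneg _) (Filter.Eventually.of_forall
        (closedBall_subset_closedBall (mul_le_mul_of_nonneg_right (le_max_left _ _) hε.1.le)))
  have hk2' : Integrable fun v => ρ (ε⁻¹ • v) * nrm1 (a (σ v y)) := by simpa using hk2
  refine ⟨fun hsk hpsd => ?_, fun hsk hanti => ?_⟩
  · set u := smL σ ρ ε a y with hu'
    have husk : uᵀ = -u := smL_skew σ ρ ε hsk y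
    have hval : ∀ x : E, -(8 * L ^ 3 * ε ^ 2 * (C₂ * R) * (x ⬝ᵥ x)) ≤ val u x (J y *ᵥ x) := by
      intro x
      have e : ∀ b : M, val b x (J y *ᵥ x) = ∑ i, ∑ j, (x i * (J y *ᵥ x) j) * b i j := fun b => by
        simp only [val, dotProduct, Matrix.mulVec, Finset.mul_sum, Finset.sum_mul]
        exact Finset.sum_congr rfl fun i _ => Finset.sum_congr rfl fun j _ =>
          Finset.sum_congr rfl fun k _ => by ring
      obtain ⟨hint, heq⟩ := hsm4 a ha fun i j => x i * (J y *ᵥ x) j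
      rw [e u, hu', heq]
      have hk2'' : Integrable fun v =>
          -(8 * L ^ 3 * ε ^ 2 * (x ⬝ᵥ x)) * (ρ (ε⁻¹ • v) * nrm1 (a (σ v y))) := hk2'.const_mul _
      refine le_trans ?_ (mul_le_mul_of_nonneg_left (integral_mono hk2'' hint fun v => ?_) hεI.le)
      · rw [integral_const_mul]
        have hm : 0 ≤ 8 * L ^ 3 * ε ^ 2 * (x ⬝ᵥ x) := by
          have := dot_self_nonneg x; positivity
        calc -(8 * L ^ 3 * ε ^ 2 * (C₂ * R) * (x ⬝ᵥ x))
            = -(8 * L ^ 3 * ε ^ 2 * (x ⬝ᵥ x)) * (C₂ * R) := by ring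
          _ ≤ -(8 * L ^ 3 * ε ^ 2 * (x ⬝ᵥ x)) * ((ε ^ n)⁻¹ * ∫ v, ρ (ε⁻¹ • v) * nrm1 (a (σ v y))) :=
              mul_le_mul_of_nonpos_left hk (neg_nonpos.2 hm)
          _ = _ := by ring
      · simp only
        rw [← e (pullV σ v a y)]
        by_cases hv : ‖v‖ ≤ ε
        · obtain ⟨hσU, -, -, hJσ, hdef, -, -⟩ :=
            hpull v (by simpa using hv.trans hεδ) y hy
          have hge := val_pullback_ge (hJ.sq _ hσU) (hpsd _ hσU) (jacV σ v y) (J y) x
          set f := (jacV σ v y * J y - J (σ v y) * jacV σ v y) *ᵥ x with hf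
          have hff : f ⬝ᵥ f ≤ (2 * L * ε) ^ 2 * (x ⬝ᵥ x) := by
            refine (dot_mulVec_le _ x).trans (mul_le_mul_of_nonneg_right ?_ (dot_self_nonneg x))
            have h1 := pow_le_pow_left₀ (nrm1_nonneg _)
              (hdef.trans (mul_le_mul_of_nonneg_left hv hL0)) 2
            linarith
          have hJf : (J (σ v y) *ᵥ f) ⬝ᵥ (J (σ v y) *ᵥ f) ≤ (2 * L) ^ 2 * (f ⬝ᵥ f) := by
            refine (dot_mulVec_le _ f).trans (mul_le_mul_of_nonneg_right ?_ (dot_self_nonneg f))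
            have h1 := pow_le_pow_left₀ (nrm1_nonneg _) hJσ 2
            linarith
          have hs : Real.sqrt ((J (σ v y) *ᵥ f) ⬝ᵥ (J (σ v y) *ᵥ f) * (f ⬝ᵥ f))
              ≤ 8 * L ^ 3 * ε ^ 2 * (x ⬝ᵥ x) := by
            have hm : 0 ≤ 8 * L ^ 3 * ε ^ 2 * (x ⬝ᵥ x) := by
              have := dot_self_nonneg x; positivity
            rw [Real.sqrt_le_left hm]
            calc (J (σ v y) *ᵥ f) ⬝ᵥ (J (σ v y) *ᵥ f) * (f ⬝ᵥ f)
                ≤ ((2 * L) ^ 2 * ((2 * L * ε) ^ 2 * (x ⬝ᵥ x))) * ((2 * L * ε) ^ 2 * (x ⬝ᵥ x)) :=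
                  mul_le_mul (hJf.trans (mul_le_mul_of_nonneg_left hff (sq_nonneg _))) hff
                    (dot_self_nonneg f) (by have := dot_self_nonneg x; positivity)
              _ = _ := by ring
          have hρ0 := hρ.nonneg (ε⁻¹ • v)
          have hge' : -(nrm1 (a (σ v y)) * (8 * L ^ 3 * ε ^ 2 * (x ⬝ᵥ x)))
              ≤ val (pullV σ v a y) x (J y *ᵥ x) :=
            le_trans (neg_le_neg (mul_le_mul_of_nonneg_left hs (nrm1_nonneg _))) hge
          calc -(8 * L ^ 3 * ε ^ 2 * (x ⬝ᵥ x)) * (ρ (ε⁻¹ • v) * nrm1 (a (σ v y)))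
              = ρ (ε⁻¹ • v) * (-(nrm1 (a (σ v y)) * (8 * L ^ 3 * ε ^ 2 * (x ⬝ᵥ x)))) := by ring
            _ ≤ _ := mul_le_mul_of_nonneg_left hge' hρ0
        · simp [hρ.eq_zero hε.1 (not_le.1 hv)]
    obtain ⟨hw, -⟩ := hL.2.2.1 (J y) hJy
    set s := δ₀ * (8 * L ^ 3 * ε ^ 2 * (C₂ * R)) with hs
    have hs0 : 0 ≤ s := by positivity
    have hp : Psd (J y) (pinv (J y) u + s • wmat (J y)) := by
      refine ⟨?_, ?_, fun x => ?_⟩
      · rw [Matrix.transpose_add, Matrix.transpose_smul, pinv_skew _ husk, hw.skew, smul_neg]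
        abel
      · simp only [mul_add, add_mul, mul_smul_comm, smul_mul_assoc, pinv_is_inv hJy, hw.inv]
      · have e2 : val (pinv (J y) u + s • wmat (J y)) x (J y *ᵥ x)
            = val u x (J y *ᵥ x) + s * val (wmat (J y)) x (J y *ᵥ x) := by
          rw [← val_pinv_skew hJy husk x]
          simp only [val, Matrix.add_mulVec, Matrix.smul_mulVec, dotProduct_add, dotProduct_smul,
            smul_eq_mul]
        rw [e2]
        have hb1 : nrm1 (hmat (J y)) ≤ Bh := (le_abs_self _).trans (hBh y hy)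
        have hb2 : nrm1 (J y) ≤ L := (hpull 0 (mem_closedBall_self hδ.le) y hy).2.2.1
        have hx : x ⬝ᵥ x ≤ δ₀ * val (wmat (J y)) x (J y *ᵥ x) :=
          (val_wmat_ge hJy x).trans (mul_le_mul_of_nonneg_right
            (mul_le_mul (mul_le_mul_of_nonneg_left
              (pow_le_pow_left₀ (nrm1_nonneg _) hb1 2) (by norm_num))
              (pow_le_pow_left₀ (nrm1_nonneg _) hb2 2) (sq_nonneg _) (by positivity)) (hw.nonneg x))
        have hm : 0 ≤ 8 * L ^ 3 * ε ^ 2 * (C₂ * R) := by positivity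
        have := mul_le_mul_of_nonneg_left hx hm
        have := hval x
        linarith
    have h0 := hL.2.1 (J y) Θ _ hJy hΘ hp
    have e3 : wd (J y) Θ (pinv (J y) u + s • wmat (J y))
        = wd (J y) Θ u + s * wd (J y) Θ (wmat (J y)) := by
      simp only [wd, pfq_eq_pinv hL hJy hΘ husk]
      simp only [pfq, Matrix.add_apply, Matrix.smul_apply, smul_eq_mul]
      ring
    rw [e3] at h0
    have h1 : wd (J y) Θ (wmat (J y)) ≤ 6 * c⁻¹ * max Bw 0 :=
      ((le_abs_self _).trans (abs_wd_le _ _ _)).trans (mul_le_mul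
        (mul_le_mul_of_nonneg_left hΘn (by norm_num))
        (((le_abs_self _).trans (hBw y hy)).trans (le_max_left _ _)) (nrm1_nonneg _) (by positivity))
    have h2 : s * (6 * c⁻¹ * max Bw 0) ≤ D * ε ^ 2 * R := by
      calc s * (6 * c⁻¹ * max Bw 0)
          = (6 * c⁻¹ * max Bw 0 * δ₀ * (8 * L ^ 3 * C₂)) * ε ^ 2 * R := by rw [hs]; ring
        _ ≤ _ := mul_le_mul_of_nonneg_right (mul_le_mul_of_nonneg_right
            ((le_max_left _ _).trans (le_max_right _ _)) (sq_nonneg _)) hR0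
    have := mul_le_mul_of_nonneg_left h1 hs0
    linarith
  · set u := smL σ ρ ε a y with hu'
    have hpi : ∀ p q, |pinv (J y) u p q| ≤ L * ε * (C₂ * R) := by
      intro p q
      have e : ∀ b : M, pinv (J y) b p q = ∑ i, ∑ j, pinv (J y) (unit2 i j) p q * b i j := fun b => by
        let fl : M →ₗ[ℝ] M :=
          { toFun := pinv (J y), map_add' := pinv_add _, map_smul' := fun r x => pinv_smul _ r x }
        have : pinv (J y) b = ∑ cd : Fin 4 × Fin 4, b cd.1 cd.2 • pinv (J y) (unit2 cd.1 cd.2) := by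
          conv_lhs => rw [eq_sum_unit2 b]
          exact (map_sum fl _ _).trans (Finset.sum_congr rfl fun cd _ => pinv_smul _ _ _)
        rw [this, Matrix.sum_apply, Fintype.sum_prod_type]
        exact Finset.sum_congr rfl fun i _ => Finset.sum_congr rfl fun j _ => by
          rw [Matrix.smul_apply, smul_eq_mul, mul_comm]
      obtain ⟨hint, heq⟩ := hsm4 a ha fun i j => pinv (J y) (unit2 i j) p q
      rw [e u, hu', heq, abs_mul, abs_of_pos hεI]
      have hb : ∀ v, |ρ (ε⁻¹ • v) * ∑ i, ∑ j, pinv (J y) (unit2 i j) p q * pullV σ v a y i j|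
          ≤ L * ε * (ρ (ε⁻¹ • v) * nrm1 (a (σ v y))) := fun v => by
        rw [← e, abs_mul, abs_of_nonneg (hρ.nonneg _)]
        by_cases hv : ‖v‖ ≤ ε
        · obtain ⟨hσU, -, -, -, -, hmix, -⟩ := hpull v (by simpa using hv.trans hεδ) y hy
          have hid : panti (J (σ v y)) (a (σ v y)) = a (σ v y) := by
            have := pinv_add_panti (J (σ v y)) (a (σ v y))
            rwa [hanti _ hσU, zero_add] at this
          have h1 := hmix (a (σ v y))
          rw [mixInv, hid] at h1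
          have h2 : |pinv (J y) (pullV σ v a y) p q| ≤ L * ε * nrm1 (a (σ v y)) :=
            (abs_le_nrm1 _ p q).trans (h1.trans (mul_le_mul_of_nonneg_right
              (mul_le_mul_of_nonneg_left hv hL0) (nrm1_nonneg _)))
          calc ρ (ε⁻¹ • v) * |pinv (J y) (pullV σ v a y) p q|
              ≤ ρ (ε⁻¹ • v) * (L * ε * nrm1 (a (σ v y))) :=
                mul_le_mul_of_nonneg_left h2 (hρ.nonneg _)
            _ = _ := by ring
        · simp [hρ.eq_zero hε.1 (not_le.1 hv)]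
      calc (ε ^ n)⁻¹ * |∫ v, ρ (ε⁻¹ • v) * ∑ i, ∑ j, pinv (J y) (unit2 i j) p q * pullV σ v a y i j|
          ≤ (ε ^ n)⁻¹ * ∫ v, L * ε * (ρ (ε⁻¹ • v) * nrm1 (a (σ v y))) :=
            mul_le_mul_of_nonneg_left (le_trans (norm_integral_le_integral_norm (fun v =>
              ρ (ε⁻¹ • v) * ∑ i, ∑ j, pinv (J y) (unit2 i j) p q * pullV σ v a y i j))
              (integral_mono hint.norm (hk2'.const_mul _) hb)) hεI.le
        _ = L * ε * ((ε ^ n)⁻¹ * ∫ v, ρ (ε⁻¹ • v) * nrm1 (a (σ v y))) := by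
            rw [integral_const_mul]; ring
        _ ≤ _ := mul_le_mul_of_nonneg_left hk (mul_nonneg hL0 hε.1.le)
    have husk : uᵀ = -u := smL_skew σ ρ ε hsk y
    rw [wd, pfq_eq_pinv hL hJy hΘ husk, ← wd]
    refine (abs_wd_le _ _ _).trans ?_
    have hn : nrm1 (pinv (J y) u) ≤ 16 * (L * ε * (C₂ * R)) :=
      (Finset.sum_le_sum fun p _ => Finset.sum_le_sum fun q _ => hpi p q).trans_eq (by simp; ring)
    calc 6 * nrm1 Θ * nrm1 (pinv (J y) u) ≤ 6 * c⁻¹ * (16 * (L * ε * (C₂ * R))) :=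
          mul_le_mul (mul_le_mul_of_nonneg_left hΘn (by norm_num)) hn (nrm1_nonneg _)
            (by positivity)
      _ = (96 * c⁻¹ * L * C₂) * ε * R := by ring
      _ ≤ _ := mul_le_mul_of_nonneg_right (mul_le_mul_of_nonneg_right
          ((le_max_right _ _).trans (le_max_right _ _)) hε.1.le) hR0

end Vale.Agent.P204.Tame
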